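import Vale.Agent.Lib.P346.Fq.Lead

/-!
The rows of the rank argument for a circuit computing `IMM_{n,n}`, and the resulting inequality between the
weight of the admissible sets and the size of the circuit.
-/

namespace Vale.Agent.Lib.P346.Fq

open Finset MvPolynomial
open Vale.Agent.Lib.P346 (Circuit ImmVar imm immMatrix)

set_option linter.unusedSectionVars false

variable {K : Type} [Field K] [Fintype K] {n k r L b : ℕ} [NeZero n]
  {G : Type} [AddCommGroup G] [Fintype G] [DecidableEq G]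

/-- A set of edges is admissible if in each block, in some class, it contains the required edges of some
word from some starting point. -/
def AdmQ (μ : ℕ → Fin b → G) (T : Finset (EdgeQ k r L G b)) : Prop :=
  ∀ i : Fin k, ∃ c : Fin r, ∃ u : G, ∃ w : Fin L → Fin b, ∀ e ∈ reqU μ u w, (i, c, e) ∈ T

/-- The source of the cut number `j`. -/
def sOf (Λ : Lay n k r L b G) (cl : Fin k → Fin r) (st : Fin k → G) (W : Fin k → Fin L → Fin b) :
    ℕ → Fin n
  | 0 => 0
  | j + 1 => if h : j < k then Λ.ι (cl ⟨j, h⟩, endW Λ.μ 0 (st ⟨j, h⟩) (W ⟨j, h⟩)) else 0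

/-- The target of the cut number `j`. -/
def tOf (Λ : Lay n k r L b G) (cl : Fin k → Fin r) (st : Fin k → G) : ℕ → Fin n :=
  fun j => if h : j < k then Λ.ι (cl ⟨j, h⟩, st ⟨j, h⟩) else 0

/-- The words with the same ends as the given words. -/
def endsQ (μ : ℕ → Fin b → G) (st : Fin k → G) (W : Fin k → Fin L → Fin b) :
    Finset (Fin k → Fin L → Fin b) :=
  univ.filter (fun V => ∀ i, endW μ 0 (st i) (V i) = endW μ 0 (st i) (W i))

lemma row_eq (Λ : Lay n k r L b G) (cl : Fin k → Fin r) (st : Fin k → G) (W : Fin k → Fin L → Fin b)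
    (cc : EdgeQ k r L G b → K) (x : Finset (EdgeQ k r L G b)) :
    co univ (psi (yy (padβ K k L) Λ.var cc x) (cutLam K k L (sOf Λ cl st W) (tOf Λ cl st)) (imm K n)) =
      ∑ V ∈ endsQ Λ.μ st W, ∏ e ∈ monoQ Λ.μ cl st V, vl cc x e := by
  classical
  rw [co_imm Λ cc x (sOf Λ cl st W) (tOf Λ cl st) cl st rfl (by simp [tOf])
    (fun i => by simp [tOf, i.2])]
  simp only [blockF]
  rw [Finset.prod_univ_sum, Fintype.piFinset_univ, endsQ, Finset.sum_filter]
  apply Finset.sum_congr rfl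
  intro V _
  rw [Finset.prod_mul_distrib, prod_monoQ]
  have h1 : ∏ i : Fin k, (if Λ.ι (cl i, endW Λ.μ 0 (st i) (V i)) = sOf Λ cl st W (i.1 + 1)
      then (1 : K) else 0) = if ∀ i, endW Λ.μ 0 (st i) (V i) = endW Λ.μ 0 (st i) (W i) then 1 else 0 := by
    rw [Finset.prod_ite_zero]
    simp only [mem_univ, true_imp_iff, prod_const_one]
    have h2 : ∀ i : Fin k, Λ.ι (cl i, endW Λ.μ 0 (st i) (V i)) = sOf Λ cl st W (i.1 + 1) ↔
        endW Λ.μ 0 (st i) (V i) = endW Λ.μ 0 (st i) (W i) := by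
      intro i
      simp only [sOf, dif_pos i.2, Fin.eta]
      constructor
      · intro h
        have := Λ.hι h
        simp only [Prod.mk.injEq, true_and] at this
        exact this
      · intro h
        rw [h]
    simp only [h2]
  rw [h1]
  split_ifs <;> simp

/-- The coefficient of a monomial function of the top degree in a row. -/
lemma mob_row (Λ : Lay n k r L b G) (cl : Fin k → Fin r) (st : Fin k → G) (W : Fin k → Fin L → Fin b)
    (cc : EdgeQ k r L G b → K) (S V0 : Finset (EdgeQ k r L G b)) (hcard : S.card + k * L ≤ V0.card) :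
    mob K V0 (fun x => mo K S x * co univ (psi (yy (padβ K k L) Λ.var cc x)
      (cutLam K k L (sOf Λ cl st W) (tOf Λ cl st)) (imm K n))) =
      ∑ V ∈ endsQ Λ.μ st W, if S ∪ monoQ Λ.μ cl st V = V0 then 1 else 0 := by
  have h1 : (fun x => mo K S x * co univ (psi (yy (padβ K k L) Λ.var cc x)
      (cutLam K k L (sOf Λ cl st W) (tOf Λ cl st)) (imm K n))) =
      ∑ V ∈ endsQ Λ.μ st W, (mo K S * ∏ e ∈ monoQ Λ.μ cl st V,
        (fun x : Finset (EdgeQ k r L G b) => cc e + if e ∈ x then 1 else 0)) := by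
    funext x
    rw [row_eq]
    simp only [Finset.sum_apply, Pi.mul_apply, Finset.prod_apply, Finset.mul_sum, vl]
  rw [h1, map_sum]
  apply Finset.sum_congr rfl
  intro V _
  apply mob_mo_mul_prod
  rw [card_monoQ]
  exact hcard

lemma monoQ_subset (μ : ℕ → Fin b → G) {T : Finset (EdgeQ k r L G b)} {cl : Fin k → Fin r}
    {st : Fin k → G} {W : Fin k → Fin L → Fin b}
    (hreq : ∀ i, ∀ e ∈ reqU μ (st i) (W i), (i, cl i, e) ∈ T) : monoQ μ cl st W ⊆ T := by
  intro e he
  obtain ⟨h1, h2, h3⟩ := (mem_monoQ μ cl st W e).mp he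
  obtain ⟨i, c, l, u, a⟩ := e
  simp only at h1 h2 h3
  subst h1 h2 h3
  exact hreq i _ (mem_filter.mpr ⟨mem_univ _, rfl, le_rfl⟩)

lemma card_rest (μ : ℕ → Fin b → G) {T : Finset (EdgeQ k r L G b)} {cl : Fin k → Fin r}
    {st : Fin k → G} {W : Fin k → Fin L → Fin b}
    (hreq : ∀ i, ∀ e ∈ reqU μ (st i) (W i), (i, cl i, e) ∈ T) :
    (T \ monoQ μ cl st W).card + k * L = T.card := by
  rw [← card_monoQ μ cl st W]
  exact card_sdiff_add_card_eq_card (monoQ_subset μ hreq)

lemma disj_of_union_card (μ : ℕ → Fin b → G) {T : Finset (EdgeQ k r L G b)} {cl : Fin k → Fin r}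
    {st : Fin k → G} {W V : Fin k → Fin L → Fin b} (h : T.card ≤
      ((T \ monoQ μ cl st W) ∪ monoQ μ cl st V).card)
    (hreq : ∀ i, ∀ e ∈ reqU μ (st i) (W i), (i, cl i, e) ∈ T) :
    Disjoint (T \ monoQ μ cl st W) (monoQ μ cl st V) := by
  rw [← card_union_eq_card_add_card]
  have h1 := card_rest μ hreq
  have h2 := card_union_le (T \ monoQ μ cl st W) (monoQ μ cl st V)
  rw [card_monoQ] at h2 ⊢
  omega

/-- The diagonal coefficient of the rows. -/
lemma mob_row_diag (Λ : Lay n k r L b G) (cl : Fin k → Fin r) (st : Fin k → G) (W : Fin k → Fin L → Fin b)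
    (cc : EdgeQ k r L G b → K) {T : Finset (EdgeQ k r L G b)}
    (hreq : ∀ i, ∀ e ∈ reqU Λ.μ (st i) (W i), (i, cl i, e) ∈ T) :
    mob K T (fun x => mo K (T \ monoQ Λ.μ cl st W) x * co univ (psi (yy (padβ K k L) Λ.var cc x)
      (cutLam K k L (sOf Λ cl st W) (tOf Λ cl st)) (imm K n))) = 1 := by
  have hc := card_rest Λ.μ hreq
  rw [mob_row Λ cl st W cc _ _ hc.le]
  rw [Finset.sum_eq_single W]
  · rw [if_pos (sdiff_union_of_subset (monoQ_subset Λ.μ hreq))]
  · intro V _ hVW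
    rw [if_neg]
    intro h
    have hdj := disj_of_union_card Λ.μ (W := W) (V := V) (by rw [h]) hreq
    obtain ⟨e, he, he2, _⟩ := first_diff Λ.μ hreq hVW hdj
    rw [h] at he2
    exact he2 he
  · intro h
    exact absurd (mem_filter.mpr ⟨mem_univ _, fun _ => rfl⟩) h

/-- The coefficients of the rows above the diagonal. -/
lemma mob_row_off (Λ : Lay n k r L b G) (cl : Fin k → Fin r) (st : Fin k → G) (W : Fin k → Fin L → Fin b)
    (cc : EdgeQ k r L G b → K) {T V0 : Finset (EdgeQ k r L G b)}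
    (hreq : ∀ i, ∀ e ∈ reqU Λ.μ (st i) (W i), (i, cl i, e) ∈ T)
    (hord : ordK rkQ T < ordK rkQ V0) :
    mob K V0 (fun x => mo K (T \ monoQ Λ.μ cl st W) x * co univ (psi (yy (padβ K k L) Λ.var cc x)
      (cutLam K k L (sOf Λ cl st W) (tOf Λ cl st)) (imm K n))) = 0 := by
  have hc := card_rest Λ.μ hreq
  obtain ⟨h1, h2⟩ := ordK_lt hord
  rw [mob_row Λ cl st W cc _ _ (by omega)]
  apply Finset.sum_eq_zero
  intro V _
  rw [if_neg]
  intro h
  have hle : V0.card ≤ T.card := by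
    rw [← h]
    refine (card_union_le _ _).trans ?_
    rw [card_monoQ]
    omega
  have heq : T.card = V0.card := le_antisymm h1 hle
  have hlt := h2 heq
  by_cases hVW : V = W
  · subst hVW
    rw [sdiff_union_of_subset (monoQ_subset Λ.μ hreq)] at h
    rw [h] at hlt
    exact lt_irrefl _ hlt
  · have hdj := disj_of_union_card Λ.μ (W := W) (V := V) (by rw [h]; exact heq.le) hreq
    obtain ⟨e, he, he2, he3⟩ := first_diff Λ.μ hreq hVW hdj
    have := keyOf_lt rkQ_injective he he2 he3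
    rw [h] at this
    omega

section Main

variable [DecidableEq K]

open Classical in
/-- The weight of the admissible sets is bounded in terms of the size of the circuit. -/
theorem main_ineq {C : Circuit K (ImmVar n)} (F : FormalDeg C n) (hC : C.output = imm K n)
    (Λ : Lay n k r L b G) (hr : 0 < r) (hb : 0 < b) (j0 e0 Δ : ℕ) {Dm : ℕ}
    (G' : Fin C.nP2 → Fin Dm → MvPolynomial (ImmVar n) K)
    (hG1 : ∀ t, C.coeffTop t ≠ 0 → ∏ j, G' t j = C.gateP2 t)
    (hG2 : ∀ t, C.coeffTop t ≠ 0 → ∀ j, (∃ i, G' t j = C.gateS3 i) ∨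
      ∃ I : Finset (Σ i : Fin C.nS3, Fin (C.expP2 t i)),
        G' t j = ∏ z ∈ I, C.gateS3 z.1 ∧ ∑ z ∈ I, F.d3 z.1 < 2 * e0)
    (hΔ1 : (Fintype.card K - 1) * (2 * Fintype.card K * (j0 + 1)) ≤ Δ) (hΔ2 : 2 * e0 ≤ Δ)
    (g : ℕ) (hg : (k + 1) * Δ + g ≤ k * L) (z : ℚ) (hz0 : 0 ≤ z) (hz1 : z ≤ 1) :
    ∑ T ∈ univ.filter (fun T : Finset (EdgeQ k r L G b) => AdmQ Λ.μ T), z ^ T.card ≤
      (1 + z) ^ Fintype.card (EdgeQ k r L G b) *
        (C.nP4 * (3 / 4) ^ j0 + C.nP2 * (2 ^ Dm * z ^ g)) := by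
  have hpick : ∀ T : Finset (EdgeQ k r L G b), ∃ p : (Fin k → Fin r) × (Fin k → G) × (Fin k → Fin L → Fin b),
      AdmQ Λ.μ T → ∀ i, ∀ e ∈ reqU Λ.μ (p.2.1 i) (p.2.2 i), (i, p.1 i, e) ∈ T := by
    intro T
    by_cases hT : AdmQ Λ.μ T
    · choose c u w h using hT
      exact ⟨(c, u, w), fun _ i e he => h i e he⟩
    · exact ⟨(fun _ => ⟨0, hr⟩, fun _ => 0, fun _ _ => ⟨0, hb⟩), fun h => absurd h hT⟩
  choose p hp using hpick
  have hmain := weighted_bound F (padβ K k L) Λ.var j0 e0 Δ G' hG1 hG2 hΔ1 hΔ2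
    (univ.filter (fun T : Finset (EdgeQ k r L G b) => AdmQ Λ.μ T))
    (fun T => T \ monoQ Λ.μ (p T).1 (p T).2.1 (p T).2.2)
    (fun T => cutLam K k L (sOf Λ (p T).1 (p T).2.1 (p T).2.2) (tOf Λ (p T).1 (p T).2.1))
    (fun T v => constantCoeff_cutLam _ _ v)
    (ordK rkQ) ((ordK_injective rkQ_injective).injOn)
    (by
      intro cc T hT
      rw [hC]
      exact mob_row_diag Λ _ _ _ cc (hp T (mem_filter.mp hT).2))
    (by
      intro cc T hT V0 _ hord
      rw [hC]
      exact mob_row_off Λ _ _ _ cc (hp T (mem_filter.mp hT).2) hord)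
    g
    (by
      intro T hT
      have h1 := card_rest Λ.μ (hp T (mem_filter.mp hT).2)
      omega)
    z hz0 hz1
  exact hmain

end Main

end Vale.Agent.Lib.P346.Fq
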