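import Vale.Agent.Lib.P346.Fq.Gates

/-!
Points of the Boolean cube as assignments to the variables of a circuit, and the degree of the coefficient
functions of the gates.
-/

namespace Vale.Agent.Lib.P346.Fq

open Finset MvPolynomial
open Vale.Agent.Lib.P346 (Circuit)

set_option linter.unusedSectionVars false

variable {K σ E : Type} [Field K] [Fintype σ] [DecidableEq σ] [Fintype E] [DecidableEq E] {m : ℕ}

/-- The value of the variable `v` at the point `x`: a fixed constant, plus for each edge mapped to `v`
the shift of the edge, plus one when the edge belongs to `x`. -/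
def yy (β : σ → K) (var : E → σ) (cc : E → K) (x : Finset E) (v : σ) : K :=
  β v + ∑ e, if var e = v then cc e + (if e ∈ x then 1 else 0) else 0

/-- The pairing of two vectors indexed by the edges. -/
def dot (α c : E → K) : K := ∑ e, α e * c e

/-- The pairing of a vector with the indicator of a point. -/
def aff (α : E → K) (x : Finset E) : K := ∑ e, α e * (if e ∈ x then 1 else 0)

lemma aff_mem_DegK (α : E → K) : (aff α) ∈ DegK K E 1 := by
  have : aff α = ∑ e, α e • (fun x : Finset E => if e ∈ x then (1 : K) else 0) := by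
    funext x
    simp [aff, Finset.sum_apply]
  rw [this]
  exact Submodule.sum_mem _ (fun e _ => Submodule.smul_mem _ _ (mem_fn_mem_DegK e))

/-- The coefficients of the edges in a bottom gate. -/
def alphaS5 (C : Circuit K σ) (var : E → σ) (k : Fin C.nS5) : E → K := fun e => C.coeffVar k (var e)

/-- The part of a bottom gate that does not depend on the shift nor the point. -/
def baseS5 (C : Circuit K σ) (β : σ → K) (k : Fin C.nS5) : K :=
  C.coeffConst k + ∑ v, C.coeffVar k v * β v

lemma valS5_yy (C : Circuit K σ) (β : σ → K) (var : E → σ) (cc : E → K) (x : Finset E)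
    (k : Fin C.nS5) :
    valS5 C (yy β var cc x) k =
      baseS5 C β k + dot (alphaS5 C var k) cc + aff (alphaS5 C var k) x := by
  have h1 : ∑ v, C.coeffVar k v * (∑ e, if var e = v then cc e + (if e ∈ x then (1 : K) else 0) else 0) =
      ∑ e, C.coeffVar k (var e) * (cc e + if e ∈ x then 1 else 0) := by
    simp_rw [Finset.mul_sum]
    rw [Finset.sum_comm]
    apply Finset.sum_congr rfl
    intro e _
    rw [Finset.sum_eq_single (var e)]
    · simp
    · intro v _ hv
      simp [Ne.symm hv]
    · intro h
      exact absurd (mem_univ _) h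
  simp only [valS5, yy, mul_add, Finset.sum_add_distrib, baseS5, dot, aff, alphaS5]
  simp only [mul_add, Finset.sum_add_distrib] at h1
  rw [h1]
  ring

section FD

variable (β : σ → K) (var : E → σ) (cc : E → K) (lam : σ → MvPolynomial (Fin m) K)

/-- All square-free coefficients of the substitution have degree at most `d` as functions of the point. -/
def FD (p : MvPolynomial σ K) (d : ℕ) : Prop :=
  ∀ B : Finset (Fin m), (fun x => co B (psi (yy β var cc x) lam p)) ∈ DegK K E d

variable {β var cc lam}

lemma FD_mono {p : MvPolynomial σ K} {d d' : ℕ} (h : FD β var cc lam p d) (hd : d ≤ d') :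
    FD β var cc lam p d' := fun B => DegK_mono hd (h B)

lemma FD_mul {p q : MvPolynomial σ K} {d d' : ℕ} (hp : FD β var cc lam p d)
    (hq : FD β var cc lam q d') : FD β var cc lam (p * q) (d + d') := by
  intro B
  have h1 : (fun x => co B (psi (yy β var cc x) lam (p * q))) =
      ∑ B' ∈ B.powerset, (fun x => co B' (psi (yy β var cc x) lam p)) *
        (fun x => co (B \ B') (psi (yy β var cc x) lam q)) := by
    funext x
    simp only [map_mul, co_mul, Finset.sum_apply, Pi.mul_apply]
  rw [h1]
  exact Submodule.sum_mem _ (fun B' _ => mul_mem_DegK (hp B') (hq _))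

lemma FD_one (d : ℕ) : FD β var cc lam (1 : MvPolynomial σ K) d := by
  intro B
  simp only [map_one]
  exact const_mem_DegK d _

lemma FD_pow {p : MvPolynomial σ K} {d : ℕ} (hp : FD β var cc lam p d) (e : ℕ) :
    FD β var cc lam (p ^ e) (e * d) := by
  induction e with
  | zero => simpa using FD_one 0
  | succ e ih =>
    rw [pow_succ, Nat.succ_mul]
    exact FD_mul ih hp

lemma FD_prod {ι : Type} (s : Finset ι) (f : ι → MvPolynomial σ K) (d : ι → ℕ)
    (h : ∀ i ∈ s, FD β var cc lam (f i) (d i)) : FD β var cc lam (∏ i ∈ s, f i) (∑ i ∈ s, d i) := by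
  classical
  induction s using Finset.induction_on with
  | empty => simpa using FD_one 0
  | insert a s ha ih =>
    rw [prod_insert ha, sum_insert ha]
    exact FD_mul (h a (mem_insert_self _ _)) (ih (fun i hi => h i (mem_insert_of_mem hi)))

/-- The bottom gates have degree at most one. -/
lemma FD_gateS5 (C : Circuit K σ) (k : Fin C.nS5) :
    FD β var cc lam (C.gateS5 k) 1 := by
  intro B
  simp only [psi_gateS5, co_add, co_C, valS5_yy]
  by_cases hB : B = ∅
  · subst hB
    have h1 : (fun x => (if (∅ : Finset (Fin m)) = ∅ then baseS5 C β k + dot (alphaS5 C var k) cc +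
        aff (alphaS5 C var k) x else 0) + co ∅ (lamS5 C lam k)) =
        (fun _ => baseS5 C β k + dot (alphaS5 C var k) cc + co ∅ (lamS5 C lam k)) +
          aff (alphaS5 C var k) := by
      funext x
      simp only [if_true, Pi.add_apply]
      ring
    rw [h1]
    exact Submodule.add_mem _ (const_mem_DegK 1 _) (aff_mem_DegK _)
  · simp only [if_neg hB, zero_add]
    exact const_mem_DegK 1 _

/-- A bottom gate reading only constants has degree zero. -/
lemma FD_gateS5_const (C : Circuit K σ) (k : Fin C.nS5)
    (h0 : ∀ v, C.coeffVar k v = 0) : FD β var cc lam (C.gateS5 k) 0 := by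
  intro B
  have h1 : C.gateS5 k = MvPolynomial.C (C.coeffConst k) := by
    simp [Circuit.gateS5, h0]
  simp only [h1, psi_C]
  exact const_mem_DegK 0 _

lemma FD_gateP4 (C : Circuit K σ) (d5 : Fin C.nS5 → ℕ)
    (h5 : ∀ k, FD β var cc lam (C.gateS5 k) (d5 k)) (j : Fin C.nP4) :
    FD β var cc lam (C.gateP4 j) (∑ k, C.expP4 j k * d5 k) :=
  FD_prod _ _ _ (fun k _ => FD_pow (h5 k) _)

lemma FD_C_mul (a : K) {p : MvPolynomial σ K} {d : ℕ} (hp : FD β var cc lam p d) :
    FD β var cc lam (MvPolynomial.C a * p) d := by
  intro B
  simp only [map_mul, psi_C, co_C_mul]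
  exact Submodule.smul_mem _ a (hp B)

lemma FD_sum {ι : Type} (s : Finset ι) (f : ι → MvPolynomial σ K) {d : ℕ}
    (h : ∀ i ∈ s, FD β var cc lam (f i) d) : FD β var cc lam (∑ i ∈ s, f i) d := by
  intro B
  simp only [map_sum, co_sum]
  have h1 : (fun x => ∑ i ∈ s, co B (psi (yy β var cc x) lam (f i))) =
      ∑ i ∈ s, (fun x => co B (psi (yy β var cc x) lam (f i))) := by
    funext x
    simp [Finset.sum_apply]
  rw [h1]
  exact Submodule.sum_mem _ (fun i hi => h i hi B)

/-- The gates of the third layer have at most their formal degree. -/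
lemma FD_gateS3 (C : Circuit K σ) (d5 : Fin C.nS5 → ℕ) (d3 : ℕ) (i : Fin C.nS3)
    (h5 : ∀ k, FD β var cc lam (C.gateS5 k) (d5 k))
    (h3 : ∀ j, C.coeffS3 i j ≠ 0 → ∑ k, C.expP4 j k * d5 k ≤ d3) :
    FD β var cc lam (C.gateS3 i) d3 := by
  apply FD_sum
  intro j _
  by_cases hc : C.coeffS3 i j = 0
  · rw [hc]
    simp only [map_zero, zero_mul]
    intro B
    simp only [map_zero]
    have h0 : co B (0 : MvPolynomial (Fin m) K) = 0 := by simp [co]
    rw [h0]
    exact const_mem_DegK d3 0
  · exact FD_C_mul _ (FD_mono (FD_gateP4 C d5 h5 j) (h3 j hc))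

end FD

/-- A function that depends on the point only through some functions of degree at most one has degree
at most `(q - 1)` times the number of these functions. -/
lemma deg_of_factor [Fintype K] {ι : Type} (J : Finset ι) (u : ι → Finset E → K)
    (hu : ∀ k ∈ J, u k ∈ DegK K E 1) (F : Finset E → K)
    (hF : ∀ x x', (∀ k ∈ J, u k x = u k x') → F x = F x') :
    F ∈ DegK K E ((Fintype.card K - 1) * J.card) := by
  classical
  have hq : 1 < Fintype.card K := Fintype.one_lt_card
  -- a representative of each value
  let rep : (J → K) → K := fun v =>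
    if h : ∃ x, ∀ k : J, u k.1 x = v k then F h.choose else 0
  let δ : (J → K) → Finset E → K := fun v =>
    ∏ k ∈ J.attach, ((1 : Finset E → K) - (u k.1 - fun _ => v k) ^ (Fintype.card K - 1))
  have hδdeg : ∀ v, δ v ∈ DegK K E ((Fintype.card K - 1) * J.card) := by
    intro v
    have h1 := prod_mem_DegK J.attach
      (fun k : J => ((1 : Finset E → K) - (u k.1 - fun _ => v k) ^ (Fintype.card K - 1)))
      (fun _ => (Fintype.card K - 1) * 1) (by
        intro k _
        apply Submodule.sub_mem _ (one_mem_DegK _)
        apply pow_mem_DegK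
        exact Submodule.sub_mem _ (hu k.1 k.2) (const_mem_DegK 1 _))
    simp only [sum_const, card_attach, smul_eq_mul, mul_one] at h1
    rwa [mul_comm] at h1
  have hdecomp : F = ∑ v, rep v • δ v := by
    funext x
    let v0 : J → K := fun k => u k.1 x
    have hδx : ∀ v, δ v x = if v = v0 then 1 else 0 := by
      intro v
      simp only [δ, Finset.prod_apply, Pi.sub_apply, Pi.one_apply, Pi.pow_apply]
      by_cases hv : v = v0
      · rw [if_pos hv]
        apply Finset.prod_eq_one
        intro k _
        have h2 : u k.1 x - v k = 0 := by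
          rw [hv]
          exact sub_self _
        rw [h2, zero_pow (by omega), sub_zero]
      · rw [if_neg hv]
        have h3 : ∃ k, v k ≠ v0 k := Function.ne_iff.mp hv
        obtain ⟨k, hk⟩ := h3
        apply Finset.prod_eq_zero (mem_attach _ k)
        have h4 : u k.1 x - v k ≠ 0 := by
          intro h5
          exact hk (sub_eq_zero.mp h5).symm
        rw [FiniteField.pow_card_sub_one_eq_one _ h4, sub_self]
    simp only [Finset.sum_apply, Pi.smul_apply, smul_eq_mul, hδx, mul_ite, mul_one, mul_zero]
    rw [Finset.sum_ite_eq' univ v0]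
    simp only [mem_univ, if_true]
    have hex : ∃ x', ∀ k : J, u k.1 x' = v0 k := ⟨x, fun _ => rfl⟩
    simp only [rep, dif_pos hex]
    apply hF
    intro k hk
    exact (hex.choose_spec ⟨k, hk⟩).symm
  rw [hdecomp]
  exact Submodule.sum_mem _ (fun v _ => Submodule.smul_mem _ _ (hδdeg v))

end Vale.Agent.Lib.P346.Fq
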