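import Vale.Agent.Lib.P346.Fq.Fn

/-!
Square-free coefficients of polynomials in auxiliary variables: the product rule, and vanishing of the
coefficients of low degree for polynomials of high order.
-/

namespace Vale.Agent.Lib.P346.Fq

open Finset MvPolynomial

set_option linter.unusedSectionVars false

variable {K : Type} [Field K] {m : ℕ}

/-- The exponent vector of the square-free monomial of a set of indices. -/
noncomputable def monoB (B : Finset (Fin m)) : Fin m →₀ ℕ :=
  Finsupp.indicator B (fun _ _ => 1)

lemma monoB_apply (B : Finset (Fin m)) (i : Fin m) : monoB B i = if i ∈ B then 1 else 0 := by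
  simp only [monoB, Finsupp.indicator_apply]
  split_ifs <;> rfl

@[simp] lemma monoB_empty : monoB (∅ : Finset (Fin m)) = 0 := by
  ext i
  simp [monoB_apply]

lemma monoB_support (B : Finset (Fin m)) : (monoB B).support = B := by
  ext i
  simp [monoB_apply]

lemma monoB_degree (B : Finset (Fin m)) : (monoB B).sum (fun _ e => e) = B.card := by
  rw [Finsupp.sum, monoB_support]
  rw [Finset.card_eq_sum_ones]
  apply Finset.sum_congr rfl
  intro i hi
  simp [monoB_apply, hi]

/-- The coefficient of a square-free monomial. -/
noncomputable def co (B : Finset (Fin m)) (p : MvPolynomial (Fin m) K) : K :=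
  coeff (monoB B) p

lemma co_add (B : Finset (Fin m)) (p q : MvPolynomial (Fin m) K) :
    co B (p + q) = co B p + co B q := coeff_add _ _ _

lemma co_C_mul (B : Finset (Fin m)) (a : K) (p : MvPolynomial (Fin m) K) :
    co B (C a * p) = a * co B p := coeff_C_mul _ _ _

lemma co_sum {ι : Type} (B : Finset (Fin m)) (s : Finset ι) (f : ι → MvPolynomial (Fin m) K) :
    co B (∑ i ∈ s, f i) = ∑ i ∈ s, co B (f i) := coeff_sum _ _ _

lemma co_C (B : Finset (Fin m)) (a : K) : co B (C a : MvPolynomial (Fin m) K) = if B = ∅ then a else 0 := by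
  rw [co, coeff_C]
  have : (0 : Fin m →₀ ℕ) = monoB B ↔ B = ∅ := by
    constructor
    · intro h
      have h2 := monoB_support B
      rw [← h] at h2
      simpa using h2.symm
    · rintro rfl
      simp
  simp only [this]

lemma co_empty (p : MvPolynomial (Fin m) K) : co ∅ p = constantCoeff p := by
  rw [co, monoB_empty, constantCoeff_eq]

/-- The product rule for square-free coefficients. -/
theorem co_mul (B : Finset (Fin m)) (p q : MvPolynomial (Fin m) K) :
    co B (p * q) = ∑ B' ∈ B.powerset, co B' p * co (B \ B') q := by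
  classical
  rw [co, coeff_mul]
  apply Finset.sum_bij' (fun x _ => x.1.support) (fun B' _ => (monoB B', monoB (B \ B')))
  · intro x hx
    have hx' : x.1 + x.2 = monoB B := Finset.HasAntidiagonal.mem_antidiagonal.mp hx
    apply mem_powerset.mpr
    intro i hi
    have h1 : x.1 i ≠ 0 := Finsupp.mem_support_iff.mp hi
    have h2 := DFunLike.congr_fun hx' i
    simp only [Finsupp.add_apply, monoB_apply] at h2
    by_contra hiB
    rw [if_neg hiB] at h2
    omega
  · intro B' hB'
    have hB'' := mem_powerset.mp hB'
    apply Finset.HasAntidiagonal.mem_antidiagonal.mpr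
    ext i
    simp only [Finsupp.add_apply, monoB_apply, mem_sdiff]
    by_cases h1 : i ∈ B' <;> by_cases h2 : i ∈ B
    · simp [h1, h2]
    · exact absurd (hB'' h1) h2
    · simp [h1, h2]
    · simp [h1, h2]
  · intro x hx
    have hx' : x.1 + x.2 = monoB B := Finset.HasAntidiagonal.mem_antidiagonal.mp hx
    have hval : ∀ i, x.1 i + x.2 i = if i ∈ B then 1 else 0 := by
      intro i
      have h2 := DFunLike.congr_fun hx' i
      simpa [monoB_apply] using h2
    apply Prod.ext
    · ext i
      simp only [monoB_apply, Finsupp.mem_support_iff]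
      have := hval i
      split_ifs with h <;> split_ifs at this <;> omega
    · ext i
      simp only [monoB_apply, mem_sdiff, Finsupp.mem_support_iff]
      have := hval i
      by_cases h1 : i ∈ B <;> by_cases h2 : x.1 i = 0 <;> simp [h1, h2] <;>
        simp only [h1, if_true, if_false] at this <;> omega
  · intro B' hB'
    simp [monoB_support]
  · intro x hx
    have hx' : x.1 + x.2 = monoB B := Finset.HasAntidiagonal.mem_antidiagonal.mp hx
    have hval : ∀ i, x.1 i + x.2 i = if i ∈ B then 1 else 0 := by
      intro i
      have h2 := DFunLike.congr_fun hx' i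
      simpa [monoB_apply] using h2
    have e1 : monoB x.1.support = x.1 := by
      ext i
      simp only [monoB_apply, Finsupp.mem_support_iff]
      have := hval i
      split_ifs with h <;> split_ifs at this <;> omega
    have e2 : monoB (B \ x.1.support) = x.2 := by
      ext i
      simp only [monoB_apply, mem_sdiff, Finsupp.mem_support_iff]
      have := hval i
      by_cases h1 : i ∈ B <;> by_cases h2 : x.1 i = 0 <;> simp [h1, h2] <;>
        simp only [h1, if_true, if_false] at this <;> omega
    simp only [co, e1, e2]

/-- All monomials of the polynomial have degree at least `z`. -/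
def OrdGE (z : ℕ) (p : MvPolynomial (Fin m) K) : Prop :=
  ∀ d ∈ p.support, z ≤ d.sum (fun _ e => e)

lemma ordGE_zero (p : MvPolynomial (Fin m) K) : OrdGE 0 p := fun _ _ => Nat.zero_le _

lemma ordGE_mul {z z' : ℕ} {p q : MvPolynomial (Fin m) K} (hp : OrdGE z p) (hq : OrdGE z' q) :
    OrdGE (z + z') (p * q) := by
  classical
  intro d hd
  have h1 := support_mul p q hd
  rw [Finset.mem_add] at h1
  obtain ⟨d1, hd1, d2, hd2, rfl⟩ := h1
  rw [Finsupp.sum_add_index' (fun _ => rfl) (fun _ _ _ => rfl)]
  exact Nat.add_le_add (hp d1 hd1) (hq d2 hd2)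

lemma ordGE_one_of_constantCoeff {p : MvPolynomial (Fin m) K} (h : constantCoeff p = 0) :
    OrdGE 1 p := by
  intro d hd
  by_contra hcon
  have h0 : d.sum (fun _ e => e) = 0 := by omega
  have hd0 : d = 0 := by
    ext i
    by_contra hi
    have h1 : d i ≤ d.sum (fun _ e => e) := by
      rw [Finsupp.sum]
      exact Finset.single_le_sum (f := fun j => d j) (fun _ _ => Nat.zero_le _)
        (Finsupp.mem_support_iff.mpr hi)
    simp only [Finsupp.coe_zero, Pi.zero_apply] at hi
    omega
  rw [hd0] at hd
  rw [mem_support_iff, ← constantCoeff_eq] at hd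
  exact hd h

lemma ordGE_pow {p : MvPolynomial (Fin m) K} (h : OrdGE 1 p) {e : ℕ} (he : 0 < e) : OrdGE 1 (p ^ e) := by
  obtain ⟨e', rfl⟩ : ∃ e', e = e' + 1 := ⟨e - 1, by omega⟩
  rw [pow_succ]
  have := ordGE_mul (ordGE_zero (p ^ e')) h
  simpa using this

/-- A product in which the factors of a subset have no constant term has high order. -/
lemma ordGE_prod {ι : Type} [DecidableEq ι] (s Z : Finset ι) (f : ι → MvPolynomial (Fin m) K) (hZ : Z ⊆ s)
    (hf : ∀ i ∈ Z, OrdGE 1 (f i)) : OrdGE Z.card (∏ i ∈ s, f i) := by
  induction s using Finset.induction_on generalizing Z with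
  | empty =>
    have : Z = ∅ := subset_empty.mp hZ
    subst this
    exact ordGE_zero _
  | insert a s ha ih =>
    rw [prod_insert ha]
    by_cases haZ : a ∈ Z
    · have hZ' : Z.erase a ⊆ s := by
        intro i hi
        have hi' := mem_erase.mp hi
        exact (mem_insert.mp (hZ hi'.2)).resolve_left hi'.1
      have h1 := ih (Z.erase a) hZ' (fun i hi => hf i (mem_erase.mp hi).2)
      have h2 := ordGE_mul (hf a haZ) h1
      rw [card_erase_of_mem haZ] at h2
      have h3 : 1 + (Z.card - 1) = Z.card := by
        have := card_pos.mpr ⟨a, haZ⟩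
        omega
      rwa [h3] at h2
    · have hZ' : Z ⊆ s := by
        intro i hi
        exact (mem_insert.mp (hZ hi)).resolve_left (fun h => haZ (h ▸ hi))
      have h1 := ih Z hZ' hf
      have h2 := ordGE_mul (ordGE_zero (f a)) h1
      simpa using h2

lemma co_eq_zero_of_ordGE {z : ℕ} {p : MvPolynomial (Fin m) K} (hp : OrdGE z p) {B : Finset (Fin m)}
    (hB : B.card < z) : co B p = 0 := by
  by_contra hne
  have h1 : monoB B ∈ p.support := mem_support_iff.mpr hne
  have h2 := hp _ h1
  rw [monoB_degree] at h2
  omega

end Vale.Agent.Lib.P346.Fq
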