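import Vale.Agent.Lib.P346.Fq.Homog

/-!
The lower bound for circuits of formal degree at most `n` computing `IMM_{n,n}` over a finite field.
-/

namespace Vale.Agent.Lib.P346.Fq

open Finset MvPolynomial
open Vale.Agent.Lib.P346 (Circuit ImmVar imm immMatrix)

set_option linter.unusedSectionVars false

section Numeric

lemma u_le (a r t : ℕ) (ha : 0 < a) (h : a * t ≤ r) : (1 - 1 / (a : ℚ)) ^ r ≤ (3 / 8) ^ t := by
  have ha' : (1 : ℚ) ≤ a := by exact_mod_cast ha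
  have h1 : 1 / (a : ℚ) ≤ 1 := by
    rw [div_le_one (by linarith)]
    exact ha'
  have h0 : 0 ≤ 1 - 1 / (a : ℚ) := by linarith
  have h2 : 1 - 1 / (a : ℚ) ≤ 1 := by
    have : 0 ≤ 1 / (a : ℚ) := by positivity
    linarith
  calc (1 - 1 / (a : ℚ)) ^ r ≤ (1 - 1 / (a : ℚ)) ^ (a * t) := pow_le_pow_of_le_one h0 h2 h
    _ = ((1 - 1 / (a : ℚ)) ^ a) ^ t := pow_mul _ _ _
    _ ≤ (3 / 8) ^ t := pow_le_pow_left₀ (by positivity) (one_sub_inv_pow_le a ha) t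

lemma half_pow_le_pow {u : ℚ} {b0 k E : ℕ} (hu0 : 0 ≤ u) (hu1 : u ≤ 1) (hb : 2 * (b0 : ℚ) * u ≤ 1)
    (hk : k ≤ b0 * E) : (1 / 2 : ℚ) ^ E ≤ (1 - u) ^ k := by
  have h0 : 0 ≤ 1 - u := by linarith
  have h1 : 1 - u ≤ 1 := by linarith
  have h2 : (1 / 2 : ℚ) ≤ (1 - u) ^ b0 := by
    have hx : (-2 : ℚ) ≤ -u := by linarith
    have h3 := one_add_mul_le_pow hx b0
    have e : 1 + -u = 1 - u := by ring
    rw [e] at h3
    nlinarith
  calc (1 / 2 : ℚ) ^ E ≤ ((1 - u) ^ b0) ^ E := pow_le_pow_left₀ (by norm_num) h2 E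
    _ = (1 - u) ^ (b0 * E) := (pow_mul _ _ _).symm
    _ ≤ (1 - u) ^ k := pow_le_pow_of_le_one h0 h1 hk

lemma three_quarters_pow {j x : ℕ} (h : 3 * x ≤ j) : (3 / 4 : ℚ) ^ j ≤ (1 / 2) ^ x := by
  calc (3 / 4 : ℚ) ^ j ≤ (3 / 4) ^ (3 * x) := pow_le_pow_of_le_one (by norm_num) (by norm_num) h
    _ = ((3 / 4) ^ 3) ^ x := pow_mul _ _ _
    _ ≤ (1 / 2) ^ x := pow_le_pow_left₀ (by norm_num) (by norm_num) x

lemma two_pow_mul_le {h k g Dm : ℕ} {z : ℚ} (hz : z = 1 - 1 / (h : ℚ)) (hh : 1 ≤ h)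
    (hg : h * (6 * k) ≤ g) (hD : Dm ≤ 7 * k) : 2 ^ Dm * z ^ g ≤ (1 / 2 : ℚ) ^ k := by
  have hh' : (1 : ℚ) ≤ h := by exact_mod_cast hh
  have h1 : 1 / (h : ℚ) ≤ 1 := by
    rw [div_le_one (by linarith)]
    exact hh'
  have hz0 : 0 ≤ z := by
    rw [hz]
    linarith
  have hz1 : z ≤ 1 := by
    rw [hz]
    have : 0 ≤ 1 / (h : ℚ) := by positivity
    linarith
  have h2 : z ^ g ≤ (3 / 8) ^ (6 * k) := by
    calc z ^ g ≤ z ^ (h * (6 * k)) := pow_le_pow_of_le_one hz0 hz1 hg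
      _ = (z ^ h) ^ (6 * k) := pow_mul _ _ _
      _ ≤ (3 / 8) ^ (6 * k) := by
        apply pow_le_pow_left₀ (by positivity)
        rw [hz]
        exact one_sub_inv_pow_le h (by omega)
  have h3 : (2 : ℚ) ^ Dm ≤ 2 ^ (7 * k) := pow_le_pow_right₀ (by norm_num) hD
  calc 2 ^ Dm * z ^ g ≤ 2 ^ (7 * k) * (3 / 8) ^ (6 * k) :=
        mul_le_mul h3 h2 (by positivity) (by positivity)
    _ = (2 ^ 7 * (3 / 8) ^ 6) ^ k := by
        rw [mul_pow, ← pow_mul, ← pow_mul]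
    _ ≤ (1 / 2) ^ k := pow_le_pow_left₀ (by norm_num) (by norm_num) k

lemma sq_le_two_pow (x : ℕ) (hx : 4 ≤ x) : x ^ 2 ≤ 2 ^ x := by
  induction x, hx using Nat.le_induction with
  | base => norm_num
  | succ x hx ih =>
    rw [pow_succ 2 x]
    nlinarith

/-- The failure probability of a block is very small. -/
lemma u_small (q : ℕ) (hq : 2 ≤ q) :
    2 * ((10 ^ 15 * q ^ 4 : ℕ) : ℚ) * (3 / 8) ^ (1000 * q ^ 2) ≤ 1 := by
  have hq2 : 4 ≤ q ^ 2 := by nlinarith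
  have h1 : (q ^ 2) ^ 2 ≤ 2 ^ (q ^ 2) := sq_le_two_pow _ hq2
  have h2 : 2 * 10 ^ 15 ≤ 2 ^ (999 * q ^ 2) := by
    calc 2 * 10 ^ 15 ≤ 2 ^ 51 := by norm_num
      _ ≤ 2 ^ (999 * q ^ 2) := Nat.pow_le_pow_right (by norm_num) (by omega)
  have h3 : 2 * (10 ^ 15 * q ^ 4) ≤ 2 ^ (1000 * q ^ 2) := by
    calc 2 * (10 ^ 15 * q ^ 4) = (2 * 10 ^ 15) * (q ^ 2) ^ 2 := by ring
      _ ≤ 2 ^ (999 * q ^ 2) * 2 ^ (q ^ 2) := Nat.mul_le_mul h2 h1
      _ = 2 ^ (1000 * q ^ 2) := by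
        rw [← pow_add]
        congr 1
        ring
  have h4 : (2 : ℚ) * ((10 ^ 15 * q ^ 4 : ℕ) : ℚ) ≤ 2 ^ (1000 * q ^ 2) := by
    exact_mod_cast h3
  have h5 : ((3 : ℚ) / 8) ^ (1000 * q ^ 2) ≤ (1 / 2) ^ (1000 * q ^ 2) :=
    pow_le_pow_left₀ (by norm_num) (by norm_num) _
  have h6 : ((2 : ℚ) ^ (1000 * q ^ 2)) * (1 / 2) ^ (1000 * q ^ 2) = 1 := by
    rw [← mul_pow]
    norm_num
  have h7 : (0 : ℚ) ≤ (3 / 8) ^ (1000 * q ^ 2) := by positivity
  calc 2 * ((10 ^ 15 * q ^ 4 : ℕ) : ℚ) * (3 / 8) ^ (1000 * q ^ 2)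
      ≤ (2 : ℚ) ^ (1000 * q ^ 2) * (3 / 8) ^ (1000 * q ^ 2) := mul_le_mul_of_nonneg_right h4 h7
    _ ≤ (2 : ℚ) ^ (1000 * q ^ 2) * (1 / 2) ^ (1000 * q ^ 2) :=
        mul_le_mul_of_nonneg_left h5 (by positivity)
    _ = 1 := h6

/-- The arithmetic of the parameters. -/
structure Params (q n E h0 k : ℕ) : Prop where
  hh0 : 2 ≤ h0
  hn1 : k * (24 * h0 + 1) + 1 ≤ n
  hk1 : 15 ≤ k
  hk2 : 2 * E + 1 ≤ k
  hk3 : k ≤ 10 ^ 15 * q ^ 4 * E
  hj : 6 * E + 4 ≤ 4 * h0 / q ^ 2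
  hr : 200000 * (1000 * q ^ 2) * (1000 * (2 * h0) ^ 2) ≤ n
  hD : n / (4 * h0) + 1 ≤ 7 * k

lemma params_exist {q n E : ℕ} (hq : 2 ≤ q) (hE : 1 ≤ E)
    (hE1 : E = Nat.sqrt n / (100000000 * q ^ 3)) :
    Params q n E (Nat.sqrt n / (1000000 * q)) ((n - 1) / (24 * (Nat.sqrt n / (1000000 * q)) + 1)) := by
  have hq3 : 0 < 100000000 * q ^ 3 := by positivity
  have hq1 : 0 < 1000000 * q := by positivity
  set m0 := Nat.sqrt n with hm0
  set h0 := m0 / (1000000 * q) with hh0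
  have hnl : m0 ^ 2 ≤ n := Nat.sqrt_le' n
  have hnu : n < (m0 + 1) ^ 2 := Nat.lt_succ_sqrt' n
  have he1 : E * (100000000 * q ^ 3) ≤ m0 := by
    rw [hE1]
    exact Nat.div_mul_le_self _ _
  have he2 : m0 < (100000000 * q ^ 3) * (E + 1) := by
    rw [hE1]
    exact Nat.lt_mul_div_succ _ hq3
  have hh1 : h0 * (1000000 * q) ≤ m0 := Nat.div_mul_le_self _ _
  have hh2 : m0 < (1000000 * q) * (h0 + 1) := Nat.lt_mul_div_succ _ hq1
  have hqsq : 4 ≤ q ^ 2 := by nlinarith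
  have hh3 : 100 * q ^ 2 * E ≤ h0 := by
    rw [hh0, Nat.le_div_iff_mul_le hq1]
    refine le_trans (le_of_eq ?_) he1
    ring
  have hh4 : 400 ≤ h0 := by
    have h1 : 100 * q ^ 2 * 1 ≤ 100 * q ^ 2 * E := Nat.mul_le_mul_left _ hE
    omega
  have hm1 : 2000000 * h0 ≤ m0 := by
    have h1 : h0 * (1000000 * 2) ≤ h0 * (1000000 * q) := Nat.mul_le_mul_left _ (by omega)
    omega
  have hm2 : 1 ≤ m0 := by omega
  set a := 24 * h0 + 1 with ha
  have hapos : 0 < a := by omega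
  have hn1 : 1 ≤ n := by nlinarith
  have hlow : m0 ≤ (n - 1) / a := by
    rw [Nat.le_div_iff_mul_le hapos]
    have h1 : (a + 1) * m0 ≤ m0 * m0 := Nat.mul_le_mul_right _ (by omega)
    have h2 : m0 * m0 = m0 ^ 2 := by ring
    have h3 : m0 * a + m0 = (a + 1) * m0 := by ring
    omega
  set k := (n - 1) / a with hk
  have hka : k * a ≤ n - 1 := Nat.div_mul_le_self _ _
  have hEm : 3 * E ≤ m0 := by
    have h1 : E * (100000000 * 1) ≤ E * (100000000 * q ^ 3) :=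
      Nat.mul_le_mul_left _ (Nat.mul_le_mul_left _ (Nat.one_le_pow _ _ (by omega)))
    omega
  have hka' : k * (24 * h0 + 1) ≤ n - 1 := hka
  refine ⟨by omega, by omega, by omega, by omega, ?_, ?_, ?_, ?_⟩
  · -- the upper bound for `k`
    have h1 : k * (24 * h0) ≤ k * a := Nat.mul_le_mul_left _ (by omega)
    have h2 : (m0 + 1) ^ 2 ≤ 4 * (m0 * m0) := by nlinarith
    have h3 : 6 * (k * h0) < m0 * m0 := by
      have e : k * (24 * h0) = 4 * (6 * (k * h0)) := by ring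
      omega
    have h4 : m0 * m0 ≤ m0 * ((1000000 * q) * (2 * h0)) := by
      apply Nat.mul_le_mul_left
      have h5 : (1000000 * q) * (h0 + 1) ≤ (1000000 * q) * (2 * h0) :=
        Nat.mul_le_mul_left _ (by omega)
      omega
    have h5 : h0 * (6 * k) < h0 * (m0 * (2000000 * q)) := by
      have e1 : h0 * (6 * k) = 6 * (k * h0) := by ring
      have e2 : h0 * (m0 * (2000000 * q)) = m0 * ((1000000 * q) * (2 * h0)) := by ring
      omega
    have h6 : 6 * k < m0 * (2000000 * q) := Nat.lt_of_mul_lt_mul_left h5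
    have h7 : m0 ≤ (100000000 * q ^ 3) * (2 * E) := by
      have h8 : (100000000 * q ^ 3) * (E + 1) ≤ (100000000 * q ^ 3) * (2 * E) :=
        Nat.mul_le_mul_left _ (by omega)
      omega
    have h8 : m0 * (2000000 * q) ≤ ((100000000 * q ^ 3) * (2 * E)) * (2000000 * q) :=
      Nat.mul_le_mul_right _ h7
    have e3 : ((100000000 * q ^ 3) * (2 * E)) * (2000000 * q) = 400000000000000 * (q ^ 4 * E) := by ring
    have e4 : 10 ^ 15 * q ^ 4 * E = 1000000000000000 * (q ^ 4 * E) := by ring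
    rw [e4]
    omega
  · rw [Nat.le_div_iff_mul_le (by positivity)]
    have h1 : (6 * E + 4) * q ^ 2 ≤ (400 * E) * q ^ 2 := Nat.mul_le_mul_right _ (by omega)
    have h2 : (400 * E) * q ^ 2 = 4 * (100 * q ^ 2 * E) := by ring
    omega
  · have h1 : (1000000 * q * h0) ^ 2 ≤ m0 ^ 2 := Nat.pow_le_pow_left (by
      calc 1000000 * q * h0 = h0 * (1000000 * q) := by ring
        _ ≤ m0 := hh1) 2
    have e1 : 200000 * (1000 * q ^ 2) * (1000 * (2 * h0) ^ 2) = 800000000000 * (q ^ 2 * h0 ^ 2) := by ring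
    have e2 : (1000000 * q * h0) ^ 2 = 1000000000000 * (q ^ 2 * h0 ^ 2) := by ring
    rw [e1]
    omega
  · have h1 : n - 1 < a * (k + 1) := Nat.lt_mul_div_succ _ hapos
    have h2 : a * (k + 1) ≤ (26 * h0) * (k + 1) := Nat.mul_le_mul_right _ (by omega)
    have h3 : n / (4 * h0) * (4 * h0) ≤ n := Nat.div_mul_le_self _ _
    have h4 : h0 * (4 * (n / (4 * h0))) ≤ h0 * (26 * (k + 1)) := by
      have e1 : h0 * (4 * (n / (4 * h0))) = n / (4 * h0) * (4 * h0) := by ring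
      have e2 : h0 * (26 * (k + 1)) = (26 * h0) * (k + 1) := by ring
      omega
    have h5 : 4 * (n / (4 * h0)) ≤ 26 * (k + 1) := Nat.le_of_mul_le_mul_left h4 (by omega)
    have hk15 : 15 ≤ k := by omega
    omega

end Numeric

section Main

variable {K : Type} [Field K] [Fintype K] {n : ℕ} [NeZero n]

/-- The lower bound for a circuit of formal degree at most `n`. -/
theorem size_bound_formal (C : Circuit K (ImmVar n)) (F : FormalDeg C n) (hC : C.output = imm K n) :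
    2 ^ (Nat.sqrt n / (100000000 * Fintype.card K ^ 3)) ≤ C.size := by
  classical
  have hsize1 : 1 ≤ C.size := by
    simp only [Circuit.size]
    omega
  set q := Fintype.card K with hq
  have hq2 : 2 ≤ q := Fintype.one_lt_card
  obtain ⟨E, hE1⟩ : ∃ E, E = Nat.sqrt n / (100000000 * q ^ 3) := ⟨_, rfl⟩
  rw [← hE1]
  by_cases hE : E = 0
  · rw [hE, pow_zero]
    exact hsize1
  have hEpos : 1 ≤ E := Nat.one_le_iff_ne_zero.mpr hE
  obtain ⟨hh0, hn1, hk1, hk2, hk3, hj, hr, hD⟩ := params_exist hq2 hEpos hE1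
  generalize hh0def : Nat.sqrt n / (1000000 * q) = h0 at *
  generalize hkdef : (n - 1) / (24 * h0 + 1) = k at *
  -- the group and the classes
  set Wc := 1000 * (2 * h0) ^ 2 with hWc
  have hWcpos : 0 < Wc := by positivity
  have : NeZero Wc := ⟨hWcpos.ne'⟩
  obtain ⟨μ, hμ⟩ := exists_class_walks h0 hh0 (Fin Wc) (by simp [hWc])
  set r := n / Wc with hrdef
  have hrW : r * Wc ≤ n := Nat.div_mul_le_self _ _
  have hrt : 200000 * (1000 * q ^ 2) ≤ r := by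
    rw [hrdef, Nat.le_div_iff_mul_le hWcpos]
    exact hr
  have hrpos : 0 < r := by
    have : 0 < 200000 * (1000 * q ^ 2) := by positivity
    omega
  obtain ⟨ι⟩ : Nonempty (Fin r × Fin Wc ↪ Fin n) := by
    apply Function.Embedding.nonempty_of_card_le
    simp only [Fintype.card_prod, Fintype.card_fin]
    exact hrW
  let Λ : Lay n k r (24 * h0) (24 * h0 + 3) (Fin Wc) := ⟨hn1, ι, ι.injective, μ⟩
  -- the groups of factors
  have he0 : 0 < 4 * h0 := by omega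
  obtain ⟨G', hG1, hG2⟩ := exists_groups_all C F (4 * h0) he0
  -- the parameters of the inequality
  set j1 := 4 * h0 / q ^ 2 with hj1
  have hj1mul : j1 * q ^ 2 ≤ 4 * h0 := Nat.div_mul_le_self _ _
  have hΔ1 : (q - 1) * (2 * q * (j1 - 1 + 1)) ≤ 8 * h0 := by
    have e1 : j1 - 1 + 1 = j1 := by omega
    rw [e1]
    calc (q - 1) * (2 * q * j1) ≤ q * (2 * q * j1) := Nat.mul_le_mul_right _ (Nat.sub_le _ _)
      _ = 2 * (j1 * q ^ 2) := by ring
      _ ≤ 2 * (4 * h0) := Nat.mul_le_mul_left _ hj1mul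
      _ = 8 * h0 := by ring
  have hΔ2 : 2 * (4 * h0) ≤ 8 * h0 := by omega
  set g := k * (24 * h0) - (k + 1) * (8 * h0) with hg
  have hle1 : (k + 1) * (8 * h0) + (2 * h0) * (6 * k) ≤ k * (24 * h0) := by
    have h1 : 2 * (4 * h0) ≤ k * (4 * h0) := Nat.mul_le_mul_right _ (by omega)
    nlinarith
  have hg1 : (k + 1) * (8 * h0) + g ≤ k * (24 * h0) := by omega
  have hg2 : (2 * h0) * (6 * k) ≤ g := by omega
  set z : ℚ := 1 - 1 / ((2 * h0 : ℕ) : ℚ) with hz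
  have hhq : (1 : ℚ) ≤ ((2 * h0 : ℕ) : ℚ) := by
    have : 1 ≤ 2 * h0 := by omega
    exact_mod_cast this
  have hinv : 1 / ((2 * h0 : ℕ) : ℚ) ≤ 1 := by
    rw [div_le_one (by linarith)]
    exact hhq
  have hz0 : 0 ≤ z := by
    rw [hz]
    linarith
  have hz1 : z ≤ 1 := by
    rw [hz]
    have : 0 ≤ 1 / ((2 * h0 : ℕ) : ℚ) := by positivity
    linarith
  have hmain := main_ineq F hC Λ hrpos (by omega) (j1 - 1) (4 * h0) (8 * h0) G' hG1 hG2 hΔ1 hΔ2 g hg1 z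
    hz0 hz1
  have hmass := mass_adm_ge (k := k) (r := r) μ hz0 (π := 1 / 200000) (by norm_num) (by norm_num) hμ
  have hZ : (0 : ℚ) < (1 + z) ^ Fintype.card (EdgeQ k r (24 * h0) (Fin Wc) (24 * h0 + 3)) := by positivity
  have hcomb : (1 - (1 - 1 / 200000 : ℚ) ^ r) ^ k ≤
      C.nP4 * (3 / 4) ^ (j1 - 1) + C.nP2 * (2 ^ (n / (4 * h0) + 1) * z ^ g) :=
    le_of_mul_le_mul_left (hmass.trans hmain) hZ
  -- the bound for the probability of a failure in a block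
  set u : ℚ := (1 - 1 / 200000 : ℚ) ^ r with hu
  have hu0 : 0 ≤ u := by
    rw [hu]
    apply pow_nonneg
    norm_num
  have hu1 : u ≤ 1 := by
    rw [hu]
    exact pow_le_one₀ (by norm_num) (by norm_num)
  have hule : u ≤ (3 / 8) ^ (1000 * q ^ 2) := by
    have := u_le 200000 r (1000 * q ^ 2) (by norm_num) hrt
    simpa only [hu, Nat.cast_ofNat] using this
  have hub : 2 * ((10 ^ 15 * q ^ 4 : ℕ) : ℚ) * u ≤ 1 := by
    refine le_trans ?_ (u_small q hq2)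
    exact mul_le_mul_of_nonneg_left hule (by positivity)
  have hlow := half_pow_le_pow (E := E) hu0 hu1 hub hk3
  -- the bound above
  have h34 : (3 / 4 : ℚ) ^ (j1 - 1) ≤ (1 / 2) ^ (2 * E + 1) := three_quarters_pow (by omega)
  have h2z : 2 ^ (n / (4 * h0) + 1) * z ^ g ≤ (1 / 2 : ℚ) ^ (2 * E + 1) := by
    refine (two_pow_mul_le hz (by omega) hg2 hD).trans ?_
    exact pow_le_pow_of_le_one (by norm_num) (by norm_num) hk2
  have hs4 : (C.nP4 : ℚ) ≤ C.size := by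
    have : C.nP4 ≤ C.size := by
      simp only [Circuit.size]
      omega
    exact_mod_cast this
  have hs2 : (C.nP2 : ℚ) ≤ C.size := by
    have : C.nP2 ≤ C.size := by
      simp only [Circuit.size]
      omega
    exact_mod_cast this
  have hpow0 : (0 : ℚ) ≤ (1 / 2) ^ (2 * E + 1) := by positivity
  have hs0 : (0 : ℚ) ≤ C.size := by positivity
  have hup : (C.nP4 : ℚ) * (3 / 4) ^ (j1 - 1) + C.nP2 * (2 ^ (n / (4 * h0) + 1) * z ^ g) ≤
      C.size * (2 * (1 / 2) ^ (2 * E + 1)) := by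
    have h1 : (C.nP4 : ℚ) * (3 / 4) ^ (j1 - 1) ≤ C.size * (1 / 2) ^ (2 * E + 1) :=
      mul_le_mul hs4 h34 (by positivity) hs0
    have h2 : (C.nP2 : ℚ) * (2 ^ (n / (4 * h0) + 1) * z ^ g) ≤ C.size * (1 / 2) ^ (2 * E + 1) :=
      mul_le_mul hs2 h2z (by positivity) hs0
    linarith
  have hfinal : (1 / 2 : ℚ) ^ E ≤ C.size * (2 * (1 / 2) ^ (2 * E + 1)) :=
    hlow.trans (hcomb.trans hup)
  have hQ : (2 : ℚ) ^ E ≤ C.size := by
    have e1 : (2 : ℚ) * (1 / 2) ^ (2 * E + 1) = (1 / 2) ^ E * (1 / 2) ^ E := by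
      have e2 : ((1 : ℚ) / 2) ^ (2 * E + 1) = (1 / 2) ^ E * (1 / 2) ^ E * (1 / 2) := by
        rw [pow_succ, two_mul, pow_add]
      rw [e2]
      ring
    rw [e1] at hfinal
    have h1 : (2 : ℚ) ^ E * (1 / 2) ^ E = 1 := by
      rw [← mul_pow]
      norm_num
    have h2 : (0 : ℚ) < (1 / 2) ^ E := by positivity
    have h3 : ((1 : ℚ) / 2) ^ E * 1 ≤ (1 / 2) ^ E * ((C.size : ℚ) * (1 / 2) ^ E) := by
      calc ((1 : ℚ) / 2) ^ E * 1 = (1 / 2) ^ E := mul_one _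
        _ ≤ (C.size : ℚ) * ((1 / 2) ^ E * (1 / 2) ^ E) := hfinal
        _ = _ := by ring
    have h4 : (1 : ℚ) ≤ (C.size : ℚ) * (1 / 2) ^ E := le_of_mul_le_mul_left h3 h2
    have h5 : (0 : ℚ) < 2 ^ E := by positivity
    calc (2 : ℚ) ^ E = 2 ^ E * 1 := (mul_one _).symm
      _ ≤ 2 ^ E * ((C.size : ℚ) * (1 / 2) ^ E) := mul_le_mul_of_nonneg_left h4 h5.le
      _ = (C.size : ℚ) * (2 ^ E * (1 / 2) ^ E) := by ring
      _ = C.size := by rw [h1, mul_one]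
  exact_mod_cast hQ

/-- The lower bound for a syntactically homogeneous circuit. -/
theorem size_bound_hom (C : Circuit K (ImmVar n)) (hH : C.IsSynHom) (hC : C.output = imm K n) :
    2 ^ (Nat.sqrt n / (100000000 * Fintype.card K ^ 3)) ≤ C.size := by
  obtain ⟨F⟩ := formalDeg_of_synHom C hH hC
  exact size_bound_formal C F hC

end Main

end Vale.Agent.Lib.P346.Fq
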