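import Mathlib

/-!
Functions on the Boolean cube (points are subsets of `E`) with values in a field, monomial functions,
the subspaces of functions of degree at most `d`, and the alternating sum over the subsets of a set, which
reads off the coefficient of a monomial function.
-/

namespace Vale.Agent.Lib.P346.Fq

open Finset

set_option linter.unusedSectionVars false

variable {K E : Type} [Field K] [Fintype E] [DecidableEq E]

/-- The function of a monomial: it is `1` at `x` when `R ⊆ x`, and `0` otherwise. -/
def mo (K : Type) [Field K] (R : Finset E) : Finset E → K := fun x => if R ⊆ x then 1 else 0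

/-- The functions of degree at most `d`. -/
def DegK (K E : Type) [Field K] [Fintype E] [DecidableEq E] (d : ℕ) :
    Submodule K (Finset E → K) :=
  Submodule.span K {g | ∃ R : Finset E, R.card ≤ d ∧ g = mo K R}

lemma mo_mem {d : ℕ} {R : Finset E} (h : R.card ≤ d) : mo K R ∈ DegK K E d :=
  Submodule.subset_span ⟨R, h, rfl⟩

lemma mo_mul (R R' : Finset E) : mo K R * mo K R' = mo K (R ∪ R') := by
  funext x
  simp only [Pi.mul_apply, mo, union_subset_iff]
  by_cases h : R ⊆ x <;> by_cases h' : R' ⊆ x <;> simp [h, h']

lemma one_mem_DegK (d : ℕ) : (1 : Finset E → K) ∈ DegK K E d := by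
  have : (1 : Finset E → K) = mo K ∅ := by
    funext x; simp [mo]
  rw [this]; exact mo_mem (by simp)

lemma const_mem_DegK (d : ℕ) (a : K) : (fun _ : Finset E => a) ∈ DegK K E d := by
  have : (fun _ : Finset E => a) = a • (1 : Finset E → K) := by
    funext x; simp
  rw [this]
  exact Submodule.smul_mem _ a (one_mem_DegK d)

lemma DegK_mono {d d' : ℕ} (h : d ≤ d') : DegK K E d ≤ DegK K E d' := by
  apply Submodule.span_mono
  rintro g ⟨R, hR, rfl⟩
  exact ⟨R, hR.trans h, rfl⟩

lemma mul_mem_DegK {d d' : ℕ} {f g : Finset E → K} (hf : f ∈ DegK K E d) (hg : g ∈ DegK K E d') :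
    f * g ∈ DegK K E (d + d') := by
  induction hf using Submodule.span_induction with
  | mem f hf =>
    rcases hf with ⟨R, hR, rfl⟩
    induction hg using Submodule.span_induction with
    | mem g hg =>
      rcases hg with ⟨R', hR', rfl⟩
      rw [mo_mul]
      exact mo_mem ((card_union_le _ _).trans (Nat.add_le_add hR hR'))
    | zero => simp
    | add a b _ _ ha hb => rw [mul_add]; exact Submodule.add_mem _ ha hb
    | smul c a _ ha => rw [mul_smul_comm]; exact Submodule.smul_mem _ c ha
  | zero => simp
  | add a b _ _ ha hb => rw [add_mul]; exact Submodule.add_mem _ ha hb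
  | smul c a _ ha => rw [smul_mul_assoc]; exact Submodule.smul_mem _ c ha

lemma pow_mem_DegK {d : ℕ} {f : Finset E → K} (hf : f ∈ DegK K E d) (k : ℕ) :
    f ^ k ∈ DegK K E (k * d) := by
  induction k with
  | zero => simpa using one_mem_DegK 0
  | succ k ih =>
    rw [pow_succ, Nat.succ_mul]
    exact mul_mem_DegK ih hf

lemma prod_mem_DegK {ι : Type} (s : Finset ι) (f : ι → Finset E → K) (d : ι → ℕ)
    (h : ∀ i ∈ s, f i ∈ DegK K E (d i)) : (∏ i ∈ s, f i) ∈ DegK K E (∑ i ∈ s, d i) := by
  classical
  induction s using Finset.induction_on with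
  | empty => simpa using one_mem_DegK 0
  | insert a s ha ih =>
    rw [prod_insert ha, sum_insert ha]
    exact mul_mem_DegK (h a (mem_insert_self _ _)) (ih (fun i hi => h i (mem_insert_of_mem hi)))

/-- The membership function of a single point of `E` has degree at most one. -/
lemma mem_fn_mem_DegK (e : E) : (fun x : Finset E => if e ∈ x then (1 : K) else 0) ∈ DegK K E 1 := by
  have : (fun x : Finset E => if e ∈ x then (1 : K) else 0) = mo K {e} := by
    funext x; simp [mo]
  rw [this]; exact mo_mem (by simp)

/-- The alternating sum over the subsets of `V`, which reads off the coefficient of `mo K V`. -/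
def mob (K : Type) [Field K] (V : Finset E) : (Finset E → K) →ₗ[K] K where
  toFun f := ∑ x ∈ V.powerset, (-1 : K) ^ (V \ x).card * f x
  map_add' f g := by
    simp only [Pi.add_apply, mul_add, sum_add_distrib]
  map_smul' c f := by
    simp only [Pi.smul_apply, smul_eq_mul, RingHom.id_apply, mul_sum]
    apply Finset.sum_congr rfl
    intro x _
    ring

lemma mob_apply (V : Finset E) (f : Finset E → K) :
    mob K V f = ∑ x ∈ V.powerset, (-1 : K) ^ (V \ x).card * f x := rfl

lemma mob_congr (V : Finset E) {f g : Finset E → K} (h : ∀ x, x ⊆ V → f x = g x) :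
    mob K V f = mob K V g := by
  simp only [mob_apply]
  apply Finset.sum_congr rfl
  intro x hx
  rw [h x (mem_powerset.mp hx)]

/-- The coefficient of a monomial function. -/
lemma mob_mo (V R : Finset E) : mob K V (mo K R) = if R = V then 1 else 0 := by
  rw [mob_apply]
  by_cases hRV : R ⊆ V
  · have h1 : ∑ x ∈ V.powerset, (-1 : K) ^ (V \ x).card * mo K R x =
        ∑ m ∈ (V \ R).powerset, (-1 : K) ^ m.card := by
      have h2 : ∑ x ∈ V.powerset, (-1 : K) ^ (V \ x).card * mo K R x =
          ∑ x ∈ V.powerset.filter (fun x => R ⊆ x), (-1 : K) ^ (V \ x).card := by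
        rw [sum_filter]
        apply Finset.sum_congr rfl
        intro x _
        by_cases h : R ⊆ x <;> simp [mo, h]
      rw [h2]
      apply Finset.sum_bij' (fun x _ => V \ x) (fun m _ => V \ m)
      · intro x hx
        have hx' := mem_filter.mp hx
        refine mem_powerset.mpr (sdiff_subset_sdiff (Subset.refl _) hx'.2)
      · intro m hm
        have hm' := mem_powerset.mp hm
        refine mem_filter.mpr ⟨mem_powerset.mpr sdiff_subset, ?_⟩
        intro e he
        simp only [mem_sdiff]
        refine ⟨hRV he, fun h => ?_⟩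
        exact (mem_sdiff.mp (hm' h)).2 he
      · intro x hx
        exact Finset.sdiff_sdiff_eq_self (mem_powerset.mp (mem_filter.mp hx).1)
      · intro m hm
        have hm' := mem_powerset.mp hm
        exact Finset.sdiff_sdiff_eq_self (hm'.trans sdiff_subset)
      · intro x hx
        rfl
    rw [h1]
    have h3 := Finset.sum_powerset_neg_one_pow_card (x := V \ R)
    have h4 : ∑ m ∈ (V \ R).powerset, (-1 : K) ^ m.card =
        ((∑ m ∈ (V \ R).powerset, (-1 : ℤ) ^ m.card : ℤ) : K) := by
      push_cast
      rfl
    rw [h4, h3]
    by_cases h : R = V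
    · subst h
      simp
    · have h5 : V \ R ≠ ∅ := by
        intro h6
        exact h (Subset.antisymm hRV (sdiff_eq_empty_iff_subset.mp h6))
      simp [h, h5]
  · have hne : R ≠ V := fun h => hRV (h ▸ Subset.refl _)
    rw [if_neg hne]
    apply Finset.sum_eq_zero
    intro x hx
    have : ¬ R ⊆ x := fun h => hRV (h.trans (mem_powerset.mp hx))
    simp [mo, this]

/-- The coefficient of a monomial function of high degree vanishes on functions of lower degree. -/
lemma mob_eq_zero_of_mem {d : ℕ} {f : Finset E → K} (hf : f ∈ DegK K E d) {V : Finset E}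
    (hV : d < V.card) : mob K V f = 0 := by
  induction hf using Submodule.span_induction with
  | mem f hf =>
    rcases hf with ⟨R, hR, rfl⟩
    rw [mob_mo, if_neg]
    rintro rfl
    omega
  | zero => simp
  | add a b _ _ ha hb => rw [map_add, ha, hb, add_zero]
  | smul c a _ ha => rw [map_smul, ha, smul_zero]

end Vale.Agent.Lib.P346.Fq
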