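import Vale.Agent.Lib.P346.Defs
import Vale.Agent.Lib.P346.Fq.Eps

/-!
The substitution of constants plus auxiliary variables into a circuit, gate by gate.
-/

namespace Vale.Agent.Lib.P346.Fq

open Finset MvPolynomial
open Vale.Agent.Lib.P346 (Circuit)

set_option linter.unusedSectionVars false

variable {K σ : Type} [Field K] {m : ℕ}

/-- Substitute for each variable a constant plus a polynomial in the auxiliary variables. -/
noncomputable def psi (y : σ → K) (lam : σ → MvPolynomial (Fin m) K) :
    MvPolynomial σ K →ₐ[K] MvPolynomial (Fin m) K :=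
  aeval (fun v => MvPolynomial.C (y v) + lam v)

lemma psi_X (y : σ → K) (lam : σ → MvPolynomial (Fin m) K) (v : σ) :
    psi y lam (X v) = MvPolynomial.C (y v) + lam v := by
  simp [psi]

lemma psi_C (y : σ → K) (lam : σ → MvPolynomial (Fin m) K) (a : K) :
    psi y lam (MvPolynomial.C a) = MvPolynomial.C a := by
  simp [psi, MvPolynomial.algebraMap_eq]

/-- The constant coefficient of the substitution is the evaluation at the constants. -/
lemma constantCoeff_psi (y : σ → K) (lam : σ → MvPolynomial (Fin m) K)
    (hlam : ∀ v, constantCoeff (lam v) = 0) (p : MvPolynomial σ K) :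
    constantCoeff (psi y lam p) = eval y p := by
  have h : (constantCoeff.comp (psi y lam).toRingHom : MvPolynomial σ K →+* K) = eval y := by
    apply MvPolynomial.ringHom_ext
    · intro a
      simp [psi_C]
    · intro v
      simp [psi_X, hlam]
  exact congrArg (fun f => f p) h

variable [Fintype σ]

/-- The value of a bottom gate at a point. -/
def valS5 (C : Circuit K σ) (y : σ → K) (k : Fin C.nS5) : K :=
  (∑ v, C.coeffVar k v * y v) + C.coeffConst k

/-- The part of a bottom gate in the auxiliary variables. -/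
noncomputable def lamS5 (C : Circuit K σ) (lam : σ → MvPolynomial (Fin m) K) (k : Fin C.nS5) :
    MvPolynomial (Fin m) K :=
  ∑ v, MvPolynomial.C (C.coeffVar k v) * lam v

lemma psi_gateS5 (C : Circuit K σ) (y : σ → K) (lam : σ → MvPolynomial (Fin m) K) (k : Fin C.nS5) :
    psi y lam (C.gateS5 k) = MvPolynomial.C (valS5 C y k) + lamS5 C lam k := by
  simp only [Circuit.gateS5, map_add, map_sum, map_mul, psi_C, psi_X, valS5, lamS5, mul_add,
    Finset.sum_add_distrib, MvPolynomial.C_mul]
  ring

lemma constantCoeff_lamS5 (C : Circuit K σ) (lam : σ → MvPolynomial (Fin m) K)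
    (hlam : ∀ v, constantCoeff (lam v) = 0) (k : Fin C.nS5) : constantCoeff (lamS5 C lam k) = 0 := by
  simp [lamS5, hlam]

lemma psi_gateP4 (C : Circuit K σ) (y : σ → K) (lam : σ → MvPolynomial (Fin m) K) (j : Fin C.nP4) :
    psi y lam (C.gateP4 j) = ∏ k, (MvPolynomial.C (valS5 C y k) + lamS5 C lam k) ^ C.expP4 j k := by
  simp only [Circuit.gateP4, map_prod, map_pow, psi_gateS5]

/-- If more factors of a product gate vanish at the point than the size of `B`, the coefficient
vanishes. -/
lemma co_gateP4_eq_zero (C : Circuit K σ) (y : σ → K) (lam : σ → MvPolynomial (Fin m) K)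
    (hlam : ∀ v, constantCoeff (lam v) = 0) (j : Fin C.nP4) (Z : Finset (Fin C.nS5))
    (hZ : ∀ k ∈ Z, valS5 C y k = 0 ∧ 0 < C.expP4 j k) (B : Finset (Fin m)) (hB : B.card < Z.card) :
    co B (psi y lam (C.gateP4 j)) = 0 := by
  rw [psi_gateP4]
  apply co_eq_zero_of_ordGE _ hB
  apply ordGE_prod univ Z _ (subset_univ _)
  intro k hk
  apply ordGE_pow _ (hZ k hk).2
  apply ordGE_one_of_constantCoeff
  simp [(hZ k hk).1, constantCoeff_lamS5 C lam hlam]

/-- The substitution into a product gate depends only on the values of its inputs at the point. -/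
lemma psi_gateP4_congr (C : Circuit K σ) (y y' : σ → K) (lam : σ → MvPolynomial (Fin m) K)
    (j : Fin C.nP4) (h : ∀ k, 0 < C.expP4 j k → valS5 C y k = valS5 C y' k) :
    psi y lam (C.gateP4 j) = psi y' lam (C.gateP4 j) := by
  rw [psi_gateP4, psi_gateP4]
  apply Finset.prod_congr rfl
  intro k _
  by_cases hk : 0 < C.expP4 j k
  · rw [h k hk]
  · have : C.expP4 j k = 0 := by omega
    rw [this, pow_zero, pow_zero]

lemma co_gateS3 (C : Circuit K σ) (y : σ → K) (lam : σ → MvPolynomial (Fin m) K) (i : Fin C.nS3)
    (B : Finset (Fin m)) :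
    co B (psi y lam (C.gateS3 i)) = ∑ j, C.coeffS3 i j * co B (psi y lam (C.gateP4 j)) := by
  simp only [Circuit.gateS3, map_sum, map_mul, psi_C, co_sum, co_C_mul]

lemma co_output (C : Circuit K σ) (y : σ → K) (lam : σ → MvPolynomial (Fin m) K)
    (B : Finset (Fin m)) :
    co B (psi y lam C.output) = ∑ t, C.coeffTop t * co B (psi y lam (C.gateP2 t)) := by
  simp only [Circuit.output, map_sum, map_mul, psi_C, co_sum, co_C_mul]

end Vale.Agent.Lib.P346.Fq
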