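import Vale.Agent.Lib.P346.Defs

/-!
Syntactic homogeneity of a circuit with layers `+, ×, +, ×, +`.
-/

namespace Vale.Agent.Lib.P346

variable {K σ : Type} [Field K]

/-- The circuit is syntactically homogeneous: there are formal degrees `d5` of the bottom sum gates,
`d3` of the sum gates of layer three and `D` of the output gate such that a bottom sum gate of degree one
has no constant term, a bottom sum gate of degree zero reads no variable, and all inputs of a sum gate
(those with a nonzero coefficient) have the degree of the gate. The degree of a product gate is the sum of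
the degrees of its inputs, with multiplicity. -/
def Circuit.IsSynHom (C : Circuit K σ) : Prop :=
  ∃ (d5 : Fin C.nS5 → ℕ) (d3 : Fin C.nS3 → ℕ) (D : ℕ),
    (∀ k, (d5 k = 1 ∧ C.coeffConst k = 0) ∨ (d5 k = 0 ∧ ∀ v, C.coeffVar k v = 0)) ∧
    (∀ i j, C.coeffS3 i j ≠ 0 → ∑ k, C.expP4 j k * d5 k = d3 i) ∧
    (∀ t, C.coeffTop t ≠ 0 → ∑ i, C.expP2 t i * d3 i = D)

end Vale.Agent.Lib.P346
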