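import Vale.Agent.Lib.P346.Fq.MomentsP
import Vale.Agent.Lib.P346.Fq.Assemble

/-!
The product structure of the weight on the sets of edges: the slices of a set are independent. This gives
the weight of the admissible sets from the weight of the admissible sets of one class.
-/

namespace Vale.Agent.Lib.P346.Fq

open Finset

set_option linter.unusedSectionVars false

section Slice

variable {I β : Type} [Fintype I] [DecidableEq I] [Fintype β] [DecidableEq β]

/-- The slice of a set of pairs. -/
def sliceS (i : I) (T : Finset (I × β)) : Finset β := univ.filter (fun y => (i, y) ∈ T)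

lemma card_sliceS_sum (T : Finset (I × β)) : T.card = ∑ i, (sliceS i T).card := by
  rw [card_eq_sum_card_fiberwise (f := Prod.fst) (t := univ) (fun e _ => mem_univ _)]
  apply Finset.sum_congr rfl
  intro i _
  have h : T.filter (fun e => e.1 = i) = (sliceS i T).image (fun y => (i, y)) := by
    ext ⟨i', y⟩
    simp only [mem_filter, sliceS, mem_image, mem_univ, true_and, Prod.mk.injEq]
    constructor
    · rintro ⟨h1, rfl⟩
      exact ⟨y, h1, rfl, rfl⟩
    · rintro ⟨y', h1, rfl, rfl⟩
      exact ⟨h1, rfl⟩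
  rw [h, card_image_of_injective]
  intro y y' hy
  exact (Prod.mk.inj hy).2

/-- Sets of pairs are the same as families of slices. -/
def sliceEquiv : Finset (I × β) ≃ (I → Finset β) where
  toFun T i := sliceS i T
  invFun F := univ.filter (fun e => e.2 ∈ F e.1)
  left_inv T := by
    ext ⟨i, y⟩
    simp [sliceS]
  right_inv F := by
    funext i
    ext y
    simp [sliceS]

theorem sum_slices (z : ℚ) (f : I → Finset β → ℚ) :
    ∑ T : Finset (I × β), z ^ T.card * ∏ i, f i (sliceS i T) =
      ∏ i, ∑ S : Finset β, z ^ S.card * f i S := by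
  rw [Finset.prod_univ_sum, Fintype.piFinset_univ]
  apply Fintype.sum_equiv sliceEquiv
  intro T
  have e : ∀ i, sliceEquiv T i = sliceS i T := fun i => rfl
  simp only [e]
  rw [Finset.prod_mul_distrib, Finset.prod_pow_eq_pow_sum, ← card_sliceS_sum]

end Slice

section Class

variable {β : Type} [Fintype β] [DecidableEq β]

open Classical in
/-- The weight of the sets with at least one admissible slice. -/
lemma mass_exists_slice (r : ℕ) (P : Finset β → Prop) (z : ℚ) :
    ∑ T : Finset (Fin r × β), (if ∃ c, P (sliceS c T) then z ^ T.card else 0) =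
      (1 + z) ^ (r * Fintype.card β) -
        (∑ S : Finset β, if P S then 0 else z ^ S.card) ^ r := by
  have h1 := sum_pow_card (E := Fin r × β) z
  have h2 := sum_slices (I := Fin r) z (fun _ (S : Finset β) => if P S then (0 : ℚ) else 1)
  have h3 : ∀ T : Finset (Fin r × β), (∏ i, if P (sliceS i T) then (0 : ℚ) else 1) =
      if ∃ c, P (sliceS c T) then 0 else 1 := by
    intro T
    by_cases h : ∃ c, P (sliceS c T)
    · rw [if_pos h]
      obtain ⟨c, hc⟩ := h
      exact Finset.prod_eq_zero (mem_univ c) (if_pos hc)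
    · rw [if_neg h]
      push Not at h
      exact Finset.prod_eq_one (fun c _ => if_neg (h c))
  simp only [h3] at h2
  have h4 : ∑ S : Finset β, z ^ S.card * (if P S then (0 : ℚ) else 1) =
      ∑ S : Finset β, if P S then 0 else z ^ S.card := by
    apply Finset.sum_congr rfl
    intro S _
    split_ifs <;> simp
  rw [h4, Finset.prod_const, card_univ, Fintype.card_fin] at h2
  rw [← h2]
  simp only [Fintype.card_prod, Fintype.card_fin] at h1
  rw [← h1, ← Finset.sum_sub_distrib]
  apply Finset.sum_congr rfl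
  intro T _
  split_ifs <;> simp

open Classical in
/-- The weight of the sets with all slices admissible. -/
lemma mass_forall_slice (k : ℕ) (P : Finset β → Prop) (z : ℚ) :
    ∑ T : Finset (Fin k × β), (if ∀ i, P (sliceS i T) then z ^ T.card else 0) =
      (∑ S : Finset β, if P S then z ^ S.card else 0) ^ k := by
  have h2 := sum_slices (I := Fin k) z (fun _ (S : Finset β) => if P S then (1 : ℚ) else 0)
  have h3 : ∀ T : Finset (Fin k × β), (∏ i, if P (sliceS i T) then (1 : ℚ) else 0) =
      if ∀ i, P (sliceS i T) then 1 else 0 := by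
    intro T
    rw [Finset.prod_ite_zero]
    simp
  simp only [h3] at h2
  have h4 : ∑ S : Finset β, z ^ S.card * (if P S then (1 : ℚ) else 0) =
      ∑ S : Finset β, if P S then z ^ S.card else 0 := by
    apply Finset.sum_congr rfl
    intro S _
    split_ifs <;> simp
  rw [h4, Finset.prod_const, card_univ, Fintype.card_fin] at h2
  rw [← h2]
  apply Finset.sum_congr rfl
  intro T _
  split_ifs <;> simp

end Class

section Whole

variable {G : Type} [AddCommGroup G] [Fintype G] [DecidableEq G] {k r L b : ℕ}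

lemma admQ_iff (μ : ℕ → Fin b → G) (T : Finset (EdgeQ k r L G b)) :
    AdmQ μ T ↔ ∀ i, ∃ c, ∃ u w, reqU μ u w ⊆ sliceS c (sliceS i T) := by
  simp only [AdmQ, Finset.subset_iff, sliceS, mem_filter, mem_univ, true_and]

open Classical in
/-- The weight of the admissible sets. -/
theorem mass_adm_ge (μ : ℕ → Fin b → G) {z π : ℚ} (hz : 0 ≤ z) (hπ : π ≤ 1) (hπ0 : 0 ≤ π)
    (hm : (1 + z) ^ Fintype.card (EdgeW L G b) * π ≤
      ∑ T ∈ univ.filter (fun T : Finset (EdgeW L G b) => ∃ u w, reqU μ u w ⊆ T), z ^ T.card) :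
    (1 + z) ^ Fintype.card (EdgeQ k r L G b) * (1 - (1 - π) ^ r) ^ k ≤
      ∑ T ∈ univ.filter (fun T : Finset (EdgeQ k r L G b) => AdmQ μ T), z ^ T.card := by
  set N := Fintype.card (EdgeW L G b) with hN
  have hZ : (0 : ℚ) < (1 + z) ^ N := by positivity
  have h3 : ∑ S : Finset (EdgeW L G b), (if ∃ u w, reqU μ u w ⊆ S then 0 else z ^ S.card) =
      (1 + z) ^ N - ∑ T ∈ univ.filter (fun T : Finset (EdgeW L G b) => ∃ u w, reqU μ u w ⊆ T),
        z ^ T.card := by
    have h4 := sum_pow_card (E := EdgeW L G b) z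
    rw [← hN] at h4
    rw [← h4, Finset.sum_filter, ← Finset.sum_sub_distrib]
    apply Finset.sum_congr rfl
    intro T _
    split_ifs <;> simp
  have h0 : ∑ T ∈ univ.filter (fun T : Finset (EdgeQ k r L G b) => AdmQ μ T), z ^ T.card =
      ((1 + z) ^ (r * N) - ((1 + z) ^ N -
        ∑ T ∈ univ.filter (fun T : Finset (EdgeW L G b) => ∃ u w, reqU μ u w ⊆ T), z ^ T.card) ^ r) ^ k := by
    have h1 := mass_forall_slice (β := Fin r × EdgeW L G b) k
      (fun S => ∃ c, ∃ u w, reqU μ u w ⊆ sliceS c S) z
    have h2 := mass_exists_slice (β := EdgeW L G b) r (fun S => ∃ u w, reqU μ u w ⊆ S) z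
    rw [← hN] at h2
    rw [← h3, Finset.sum_filter]
    refine Eq.trans ?_ (h1.trans ?_)
    · apply Finset.sum_congr rfl
      intro T _
      by_cases h : AdmQ μ T
      · rw [if_pos h, if_pos ((admQ_iff μ T).mp h)]
      · rw [if_neg h, if_neg (fun h' => h ((admQ_iff μ T).mpr h'))]
    congr 1
    refine Eq.trans ?_ (h2.trans ?_)
    · apply Finset.sum_congr rfl
      intro T _
      by_cases h : ∃ c, ∃ u w, reqU μ u w ⊆ sliceS c T
      · rw [if_pos h, if_pos h]
      · rw [if_neg h, if_neg h]
    · congr 2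
      apply Finset.sum_congr rfl
      intro T _
      by_cases h : ∃ u w, reqU μ u w ⊆ T
      · rw [if_pos h, if_pos h]
      · rw [if_neg h, if_neg h]
  rw [h0]
  set m1 := ∑ T ∈ univ.filter (fun T : Finset (EdgeW L G b) => ∃ u w, reqU μ u w ⊆ T), z ^ T.card with hm1
  have hcard : Fintype.card (EdgeQ k r L G b) = k * (r * N) := by
    simp only [Fintype.card_prod, Fintype.card_fin, hN]
  rw [hcard, mul_comm k, pow_mul]
  rw [← mul_pow]
  have hZr : 0 < (1 + z) ^ (r * N) := by positivity
  have hπ1 : 0 ≤ 1 - π := by linarith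
  have hm1le : m1 ≤ (1 + z) ^ N := by
    have h4 := sum_pow_card (E := EdgeW L G b) z
    rw [← hN] at h4
    rw [← h4]
    exact Finset.sum_le_sum_of_subset_of_nonneg (subset_univ _) (fun _ _ _ => by positivity)
  have hn1 : 0 ≤ (1 + z) ^ N - m1 := by linarith
  have hn2 : (1 + z) ^ N - m1 ≤ (1 + z) ^ N * (1 - π) := by nlinarith
  have hpowr : ((1 + z) ^ N - m1) ^ r ≤ (1 + z) ^ (r * N) * (1 - π) ^ r := by
    have := pow_le_pow_left₀ hn1 hn2 r
    rw [mul_pow, ← pow_mul, mul_comm N r] at this
    exact this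
  have hbase : (1 + z) ^ (r * N) * (1 - (1 - π) ^ r) ≤ (1 + z) ^ (r * N) - ((1 + z) ^ N - m1) ^ r := by
    nlinarith
  have h5 : 0 ≤ (1 + z) ^ (r * N) * (1 - (1 - π) ^ r) := by
    apply mul_nonneg hZr.le
    have : (1 - π) ^ r ≤ 1 := pow_le_one₀ hπ1 (by linarith)
    linarith
  exact pow_le_pow_left₀ h5 hbase k

end Whole

end Vale.Agent.Lib.P346.Fq
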