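import Vale.Agent.Lib.P346.Fq.HomDef
import Vale.Agent.Lib.P346.Fq.Slices

/-!
A syntactically homogeneous circuit computing `IMM_{n,n}` has formal degree `n`.
-/

namespace Vale.Agent.Lib.P346.Fq

open Finset MvPolynomial
open Vale.Agent.Lib.P346 (Circuit ImmVar imm immMatrix)

set_option linter.unusedSectionVars false

variable {K : Type} [Field K] {n : ℕ}

/-- The entries of a product of matrices with entries of degree one have the degree given by the number of
factors. -/
lemma isHomogeneous_list_prod {σ : Type} [NeZero n] (l : List (Matrix (Fin n) (Fin n) (MvPolynomial σ K)))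
    (hl : ∀ M ∈ l, ∀ p q, (M p q).IsHomogeneous 1) (p q : Fin n) :
    (l.prod p q).IsHomogeneous l.length := by
  induction l generalizing p q with
  | nil =>
    simp only [List.prod_nil, List.length_nil, Matrix.one_apply]
    split_ifs
    · exact isHomogeneous_one _ _
    · exact isHomogeneous_zero _ _ _
  | cons M l ih =>
    simp only [List.prod_cons, Matrix.mul_apply, List.length_cons]
    apply IsHomogeneous.sum
    intro r _
    rw [add_comm]
    exact (hl M (by simp) p r).mul (ih (fun M' hM' => hl M' (List.mem_cons_of_mem _ hM')) r q)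

lemma imm_isHomogeneous [NeZero n] : (imm K n).IsHomogeneous n := by
  have h := isHomogeneous_list_prod (List.ofFn (immMatrix K n)) (by
    intro M hM p q
    obtain ⟨l, rfl⟩ := List.mem_ofFn.mp hM
    exact isHomogeneous_X _ _) 0 0
  simpa [imm] using h

lemma imm_ne_zero [NeZero n] : imm K n ≠ 0 := by
  intro h0
  let y : ImmVar n → K := fun v => if v.2.1 = v.2.2 then 1 else 0
  have h1 : eval y (imm K n) = 1 := by
    rw [imm]
    have h2 := map_list_prod (RingHom.mapMatrix (eval y)) (List.ofFn (immMatrix K n))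
    have h3 : (RingHom.mapMatrix (eval y)) (List.ofFn (immMatrix K n)).prod 0 0 =
        eval y ((List.ofFn (immMatrix K n)).prod 0 0) := by
      simp [RingHom.mapMatrix_apply]
    rw [← h3, h2, List.map_ofFn]
    have h4 : (⇑(RingHom.mapMatrix (eval y)) ∘ immMatrix K n) = fun _ : Fin n => 1 := by
      funext t
      ext p q
      simp [immMatrix, RingHom.mapMatrix_apply, y, Matrix.one_apply]
    rw [h4, List.prod_eq_one]
    · simp
    · intro M hM
      obtain ⟨l, rfl⟩ := List.mem_ofFn.mp hM
      rfl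
  rw [h0] at h1
  simp at h1

variable {σ : Type} [Fintype σ]

/-- A syntactically homogeneous circuit computing `IMM_{n,n}` has formal degree `n`. -/
theorem formalDeg_of_synHom [NeZero n] (C : Circuit K (ImmVar n)) (hH : C.IsSynHom)
    (hC : C.output = imm K n) : Nonempty (FormalDeg C n) := by
  obtain ⟨d5, d3, D, h5, h3, h2⟩ := hH
  have g5 : ∀ k, (C.gateS5 k).IsHomogeneous (d5 k) := by
    intro k
    rcases h5 k with ⟨h1, h0⟩ | ⟨h1, h0⟩
    · rw [h1, Circuit.gateS5, h0]
      simp only [map_zero, add_zero]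
      apply IsHomogeneous.sum
      intro v _
      have := (isHomogeneous_C_mul_X (C.coeffVar k v) v)
      exact this
    · rw [h1, Circuit.gateS5]
      simp only [h0, map_zero, zero_mul, Finset.sum_const_zero, zero_add]
      exact isHomogeneous_C _ _
  have g4 : ∀ j, (C.gateP4 j).IsHomogeneous (∑ k, C.expP4 j k * d5 k) := by
    intro j
    apply IsHomogeneous.prod
    intro k _
    rw [mul_comm]
    exact (g5 k).pow _
  have g3 : ∀ i, (C.gateS3 i).IsHomogeneous (d3 i) := by
    intro i
    apply IsHomogeneous.sum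
    intro j _
    by_cases hc : C.coeffS3 i j = 0
    · rw [hc]
      simp only [map_zero, zero_mul]
      exact isHomogeneous_zero _ _ _
    · rw [← h3 i j hc]
      have := (g4 j).C_mul (C.coeffS3 i j)
      exact this
  have g2 : ∀ t, (C.gateP2 t).IsHomogeneous (∑ i, C.expP2 t i * d3 i) := by
    intro t
    apply IsHomogeneous.prod
    intro i _
    rw [mul_comm]
    exact (g3 i).pow _
  have g1 : (C.output).IsHomogeneous D := by
    apply IsHomogeneous.sum
    intro t _
    by_cases hc : C.coeffTop t = 0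
    · rw [hc]
      simp only [map_zero, zero_mul]
      exact isHomogeneous_zero _ _ _
    · rw [← h2 t hc]
      exact (g2 t).C_mul _
  have hD : D = n := by
    rw [hC] at g1
    exact g1.inj_right imm_isHomogeneous imm_ne_zero
  subst hD
  refine ⟨⟨d5, d3, ?_, ?_, ?_⟩⟩
  · intro k hk
    rcases h5 k with ⟨h1, _⟩ | ⟨_, h0⟩
    · exact h1.ge
    · obtain ⟨v, hv⟩ := hk
      exact absurd (h0 v) hv
  · intro i j hc
    exact (h3 i j hc).le
  · intro t hc
    exact (h2 t hc).le

/-- The groups of factors of the product gates of layer two. -/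
theorem exists_groups_all (C : Circuit K σ) {n : ℕ} (F : FormalDeg C n) (e0 : ℕ) (he0 : 0 < e0) :
    ∃ G' : Fin C.nP2 → Fin (n / e0 + 1) → MvPolynomial σ K,
      (∀ t, C.coeffTop t ≠ 0 → ∏ j, G' t j = C.gateP2 t) ∧
      (∀ t, C.coeffTop t ≠ 0 → ∀ j, (∃ i, G' t j = C.gateS3 i) ∨
        ∃ I : Finset (Σ i : Fin C.nS3, Fin (C.expP2 t i)),
          G' t j = ∏ z ∈ I, C.gateS3 z.1 ∧ ∑ z ∈ I, F.d3 z.1 < 2 * e0) := by
  classical
  have h : ∀ t, ∃ G0 : Fin (n / e0 + 1) → MvPolynomial σ K, C.coeffTop t ≠ 0 →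
      (∏ j, G0 j = C.gateP2 t) ∧ ∀ j, (∃ i, G0 j = C.gateS3 i) ∨
        ∃ I : Finset (Σ i : Fin C.nS3, Fin (C.expP2 t i)),
          G0 j = ∏ z ∈ I, C.gateS3 z.1 ∧ ∑ z ∈ I, F.d3 z.1 < 2 * e0 := by
    intro t
    by_cases ht : C.coeffTop t = 0
    · exact ⟨fun _ => 1, fun h => absurd ht h⟩
    · obtain ⟨G0, h1, h2⟩ := exists_groups C F.d3 n e0 he0 t (F.h2 t ht)
      exact ⟨G0, fun _ => ⟨h1, h2⟩⟩
  choose G' hG' using h
  exact ⟨G', fun t ht => (hG' t ht).1, fun t ht => (hG' t ht).2⟩

end Vale.Agent.Lib.P346.Fq
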