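import Vale.Agent.Lib.P346.Fq.Weighted
import Vale.Agent.Lib.P346.Moments

/-!
The substitution into `IMM_{n,n}` of a layered graph made of blocks separated by cuts: the cuts carry the
auxiliary variables, the blocks carry the shifted edges of a walk in one class, the rest is the identity.
The top coefficient of the substitution is the product of the sums over the walks of the blocks.
-/

namespace Vale.Agent.Lib.P346.Fq

open Finset MvPolynomial
open Vale.Agent.Lib.P346 (Circuit ImmVar imm immMatrix)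

set_option linter.unusedSectionVars false

section Arith

lemma block_layer_lt {i l k L : ℕ} (hi : i < k) (hl : l < L) : i * (L + 1) + 1 + l < k * (L + 1) := by
  have h : (i + 1) * (L + 1) ≤ k * (L + 1) := Nat.mul_le_mul_right _ hi
  rw [add_mul, one_mul] at h
  omega

lemma block_layer_inj {i i' l l' L : ℕ} (hl : l < L) (hl' : l' < L)
    (h : i * (L + 1) + 1 + l = i' * (L + 1) + 1 + l') : i = i' ∧ l = l' := by
  have h1 : i = i' := by
    rcases lt_trichotomy i i' with hlt | heq | hgt
    · have h2 : (i + 1) * (L + 1) ≤ i' * (L + 1) := Nat.mul_le_mul_right _ hlt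
      rw [add_mul, one_mul] at h2
      omega
    · exact heq
    · have h2 : (i' + 1) * (L + 1) ≤ i * (L + 1) := Nat.mul_le_mul_right _ hgt
      rw [add_mul, one_mul] at h2
      omega
  subst h1
  exact ⟨rfl, by omega⟩

lemma block_ne_cut {i i' l L : ℕ} (hl : l < L) : i * (L + 1) + 1 + l ≠ i' * (L + 1) := by
  intro h
  rcases le_or_gt i' i with hle | hgt
  · have h2 : i' * (L + 1) ≤ i * (L + 1) := Nat.mul_le_mul_right _ hle
    omega
  · have h2 : (i + 1) * (L + 1) ≤ i' * (L + 1) := Nat.mul_le_mul_right _ hgt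
    rw [add_mul, one_mul] at h2
    omega

lemma cut_inj {i i' L : ℕ} (h : i * (L + 1) = i' * (L + 1)) : i = i' :=
  Nat.eq_of_mul_eq_mul_right (Nat.succ_pos L) h

end Arith

section Walk

variable {G X : Type} [AddCommGroup G] [Fintype X] {R : Type} [CommSemiring R]

/-- The end of the walk started at `u` at time `t`, with the letters `w`. -/
def endW (μ : ℕ → X → G) (t : ℕ) (u : G) {L : ℕ} (w : Fin L → X) : G :=
  u + ∑ j : Fin L, μ (t + j.1) (w j)

lemma endW_cons (μ : ℕ → X → G) (t : ℕ) (u : G) {L : ℕ} (a : X) (w : Fin L → X) :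
    endW μ t u (Fin.cons a w : Fin (L + 1) → X) = endW μ (t + 1) (u + μ t a) w := by
  simp only [endW]
  rw [Fin.sum_univ_succ]
  simp only [Fin.cons_zero, Fin.cons_succ, Fin.val_zero, add_zero, Fin.val_succ, add_assoc]
  congr 2
  apply Finset.sum_congr rfl
  intro j _
  rw [add_comm 1 j.1]

/-- The iterated sum over walks of length `L` from time `t` at `u`, with a terminal weight. -/
def pathT (μ : ℕ → X → G) (c : ℕ → G → X → R) (g : G → R) : ℕ → ℕ → G → R
  | 0, _, u => g u
  | L + 1, t, u => ∑ a, c t u a * pathT μ c g L (t + 1) (u + μ t a)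

theorem pathT_eq (μ : ℕ → X → G) (c : ℕ → G → X → R) (g : G → R) (L t : ℕ) (u : G) :
    pathT μ c g L t u =
      ∑ w : Fin L → X, (∏ i, c (t + i.1) (pos μ t u w i) (w i)) * g (endW μ t u w) := by
  induction L generalizing t u with
  | zero => simp [pathT, endW]
  | succ L ih =>
    rw [sum_fin_succ]
    simp only [pathT]
    apply Finset.sum_congr rfl
    intro a _
    rw [ih, Finset.mul_sum]
    apply Finset.sum_congr rfl
    intro v _
    rw [Fin.prod_univ_succ, endW_cons]
    simp only [Fin.val_zero, add_zero, pos_cons_zero, Fin.cons_zero, Fin.cons_succ, pos_cons_succ,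
      Fin.val_succ]
    rw [mul_assoc]
    congr 2
    apply Finset.prod_congr rfl
    intro i _
    rw [show t + (i.1 + 1) = t + 1 + i.1 by ring]

end Walk

section Matrix

variable {K : Type} [Field K] {n m : ℕ} [NeZero n]

/-- The matrix of a layer under a substitution, extended by the identity. -/
noncomputable def layQ (y : ImmVar n → K) (lam : ImmVar n → MvPolynomial (Fin m) K) (t : ℕ) :
    Matrix (Fin n) (Fin n) (MvPolynomial (Fin m) K) :=
  if ht : t < n then Matrix.of fun p q => MvPolynomial.C (y (⟨t, ht⟩, p, q)) + lam (⟨t, ht⟩, p, q)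
  else 1

/-- The product of the first `t` layers. -/
noncomputable def prdQ (y : ImmVar n → K) (lam : ImmVar n → MvPolynomial (Fin m) K) (t : ℕ) :
    Matrix (Fin n) (Fin n) (MvPolynomial (Fin m) K) :=
  ((List.range t).map (layQ y lam)).prod

lemma prdQ_succ (y : ImmVar n → K) (lam : ImmVar n → MvPolynomial (Fin m) K) (t : ℕ) (q : Fin n) :
    prdQ y lam (t + 1) 0 q = ∑ p, prdQ y lam t 0 p * layQ y lam t p q := by
  simp only [prdQ]
  rw [List.range_succ, List.map_append, List.prod_append]
  simp [Matrix.mul_apply]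

lemma prdQ_zero (y : ImmVar n → K) (lam : ImmVar n → MvPolynomial (Fin m) K) (q : Fin n) :
    prdQ y lam 0 0 q = if q = 0 then 1 else 0 := by
  simp only [prdQ, List.range_zero, List.map_nil, List.prod_nil, Matrix.one_apply]
  simp only [eq_comm]

lemma psi_imm (y : ImmVar n → K) (lam : ImmVar n → MvPolynomial (Fin m) K) :
    psi y lam (imm K n) = prdQ y lam n 0 0 := by
  have h1 : prdQ y lam n = (List.ofFn (fun t : Fin n => layQ y lam t.1)).prod := by
    simp only [prdQ]
    congr 1
    apply List.ext_getElem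
    · simp
    · intro i h2 h3
      simp
  rw [h1, imm]
  have h2 := map_list_prod (RingHom.mapMatrix (psi y lam).toRingHom) (List.ofFn (immMatrix K n))
  have h3 : (RingHom.mapMatrix (psi y lam).toRingHom) (List.ofFn (immMatrix K n)).prod 0 0 =
      psi y lam ((List.ofFn (immMatrix K n)).prod 0 0) := by
    simp [RingHom.mapMatrix_apply]
  rw [← h3, h2, List.map_ofFn]
  have h4 : (⇑(RingHom.mapMatrix (psi y lam).toRingHom) ∘ immMatrix K n) =
      fun t : Fin n => layQ y lam t.1 := by
    funext t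
    ext p q
    simp [immMatrix, layQ, t.2, RingHom.mapMatrix_apply, psi_X]
  rw [h4]

/-- The sums over walks, from the back, for a given sequence of constant matrices. -/
def bkM (Y : ℕ → Fin n → Fin n → K) (g : Fin n → K) : ℕ → ℕ → Fin n → K
  | 0, _, p => g p
  | m + 1, t, p => ∑ q, Y t p q * bkM Y g m (t + 1) q

/-- Moving the row vector along layers with constant matrices. -/
lemma row_back (y : ImmVar n → K) (lam : ImmVar n → MvPolynomial (Fin m) K)
    (Y : ℕ → Fin n → Fin n → K) (g : Fin n → K) (c t : ℕ)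
    (hY : ∀ j < c, ∀ p q, layQ y lam (t + j) p q = MvPolynomial.C (Y (t + j) p q)) :
    ∑ q, prdQ y lam (t + c) 0 q * MvPolynomial.C (g q) =
      ∑ q, prdQ y lam t 0 q * MvPolynomial.C (bkM Y g c t q) := by
  induction c generalizing t with
  | zero => simp [bkM]
  | succ c ih =>
    have h1 := ih (t + 1) (fun j hj p q => by
      have := hY (j + 1) (by omega) p q
      rwa [show t + (j + 1) = t + 1 + j by ring] at this)
    rw [show t + (c + 1) = t + 1 + c by ring, h1]
    simp only [prdQ_succ, Finset.sum_mul]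
    rw [Finset.sum_comm]
    apply Finset.sum_congr rfl
    intro p _
    simp only [bkM, map_sum, map_mul, Finset.mul_sum]
    apply Finset.sum_congr rfl
    intro q _
    have h2 := hY 0 (by omega) p q
    rw [add_zero] at h2
    rw [h2]
    ring

end Matrix

section Concrete

variable {K : Type} [Field K] {n k r L b : ℕ} {G : Type} [AddCommGroup G] [Fintype G] [DecidableEq G]

/-- The edges: a block, a class, a level, a vertex and a letter. -/
abbrev EdgeQ (k r L : ℕ) (G : Type) (b : ℕ) : Type := Fin k × Fin r × EdgeW L G b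

/-- The data of the layered graph. -/
structure Lay (n k r L b : ℕ) (G : Type) where
  hn : k * (L + 1) + 1 ≤ n
  ι : Fin r × G → Fin n
  hι : Function.Injective ι
  μ : ℕ → Fin b → G

/-- The variable of `IMM_{n,n}` of an edge. -/
def Lay.var (Λ : Lay n k r L b G) (e : EdgeQ k r L G b) : ImmVar n :=
  (⟨e.1.1 * (L + 1) + 1 + e.2.2.1.1, by
      have h1 := block_layer_lt e.1.2 e.2.2.1.2
      have h2 := Λ.hn
      omega⟩,
    Λ.ι (e.2.1, e.2.2.2.1), Λ.ι (e.2.1, e.2.2.2.1 + Λ.μ e.2.2.1.1 e.2.2.2.2))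

/-- The constant part of the substitution: the identity beyond all the blocks. -/
def padβ (K : Type) [Field K] (k L : ℕ) (v : ImmVar n) : K :=
  if k * (L + 1) + 1 ≤ v.1.1 ∧ v.2.1 = v.2.2 then 1 else 0

/-- The auxiliary part of the substitution: one variable in each cut. -/
noncomputable def cutLam (K : Type) [Field K] (k L : ℕ) (s t : ℕ → Fin n) (v : ImmVar n) :
    MvPolynomial (Fin (k + 1)) K :=
  ∑ i : Fin (k + 1), if v.1.1 = i.1 * (L + 1) ∧ v.2.1 = s i.1 ∧ v.2.2 = t i.1 then X i else 0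

lemma constantCoeff_cutLam (s t : ℕ → Fin n) (v : ImmVar n) :
    constantCoeff (cutLam K k L s t v) = 0 := by
  simp only [cutLam, map_sum]
  apply Finset.sum_eq_zero
  intro i _
  split_ifs <;> simp

variable [Fintype K]

/-- The value of an edge at a point. -/
def vl (cc : EdgeQ k r L G b → K) (x : Finset (EdgeQ k r L G b)) (e : EdgeQ k r L G b) : K :=
  cc e + if e ∈ x then 1 else 0

lemma cutLam_cut (s t : ℕ → Fin n) {i : ℕ} (hi : i < k + 1) (h : i * (L + 1) < n) (p q : Fin n) :
    cutLam K k L s t (⟨i * (L + 1), h⟩, p, q) =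
      if p = s i ∧ q = t i then X ⟨i, hi⟩ else 0 := by
  simp only [cutLam]
  rw [Finset.sum_eq_single (⟨i, hi⟩ : Fin (k + 1))]
  · simp
  · intro j _ hj
    rw [if_neg]
    rintro ⟨h1, _⟩
    apply hj
    apply Fin.ext
    exact (cut_inj h1).symm
  · intro hc
    exact absurd (mem_univ _) hc

lemma cutLam_noncut (s t : ℕ → Fin n) (v : ImmVar n) (h : ∀ i, i ≤ k → v.1.1 ≠ i * (L + 1)) :
    cutLam K k L s t v = 0 := by
  simp only [cutLam]
  apply Finset.sum_eq_zero
  intro i _
  rw [if_neg]
  rintro ⟨h1, _⟩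
  exact h _ (Nat.lt_succ_iff.mp i.2) h1

lemma var_layer (Λ : Lay n k r L b G) (e : EdgeQ k r L G b) :
    (Λ.var e).1.1 = e.1.1 * (L + 1) + 1 + e.2.2.1.1 := rfl

lemma yy_noedge (Λ : Lay n k r L b G) (cc : EdgeQ k r L G b → K) (x : Finset (EdgeQ k r L G b))
    (v : ImmVar n) (h : ∀ e : EdgeQ k r L G b, (Λ.var e).1.1 ≠ v.1.1) :
    yy (padβ K k L) Λ.var cc x v = padβ K k L v := by
  simp only [yy]
  rw [Finset.sum_eq_zero, add_zero]
  intro e _
  rw [if_neg]
  intro h2
  exact h e (by rw [h2])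

lemma yy_cut (Λ : Lay n k r L b G) (cc : EdgeQ k r L G b → K) (x : Finset (EdgeQ k r L G b))
    {i : ℕ} (hi : i < k + 1) (h : i * (L + 1) < n) (p q : Fin n) :
    yy (padβ K k L) Λ.var cc x (⟨i * (L + 1), h⟩, p, q) = 0 := by
  rw [yy_noedge]
  · have h1 : i * (L + 1) ≤ k * (L + 1) := Nat.mul_le_mul_right _ (by omega)
    simp only [padβ]
    rw [if_neg]
    rintro ⟨h2, _⟩
    omega
  · intro e
    rw [var_layer]
    exact block_ne_cut e.2.2.1.2

lemma yy_pad (Λ : Lay n k r L b G) (cc : EdgeQ k r L G b → K) (x : Finset (EdgeQ k r L G b))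
    {t : ℕ} (ht : t < n) (hk : k * (L + 1) + 1 ≤ t) (p q : Fin n) :
    yy (padβ K k L) Λ.var cc x (⟨t, ht⟩, p, q) = if p = q then 1 else 0 := by
  rw [yy_noedge]
  · simp only [padβ]
    by_cases h : p = q
    · simp [h, hk]
    · simp [h]
  · intro e
    rw [var_layer]
    have := block_layer_lt e.1.2 e.2.2.1.2
    intro h
    simp only at h
    omega

/-- The action of a layer of a block on a function of the vertices. -/
lemma sum_yy_block (Λ : Lay n k r L b G) (cc : EdgeQ k r L G b → K) (x : Finset (EdgeQ k r L G b))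
    (i : Fin k) (l : Fin L) (ht : i.1 * (L + 1) + 1 + l.1 < n) (c : Fin r) (u : G) (h : Fin n → K) :
    ∑ q, yy (padβ K k L) Λ.var cc x (⟨i.1 * (L + 1) + 1 + l.1, ht⟩, Λ.ι (c, u), q) * h q =
      ∑ a : Fin b, vl cc x (i, c, l, u, a) * h (Λ.ι (c, u + Λ.μ l.1 a)) := by
  have hpad : ∀ q, padβ K k L ((⟨i.1 * (L + 1) + 1 + l.1, ht⟩, Λ.ι (c, u), q) : ImmVar n) = 0 := by
    intro q
    have := block_layer_lt i.2 l.2
    simp only [padβ]
    rw [if_neg]
    rintro ⟨h2, _⟩
    omega
  simp only [yy, hpad, zero_add, Finset.sum_mul]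
  rw [Finset.sum_comm]
  -- only the edges of this block, class, level and vertex contribute
  let mk : Fin b → EdgeQ k r L G b := fun a => (i, c, l, u, a)
  have hmk : Function.Injective mk := by
    intro a a' haa
    simp only [mk, Prod.mk.injEq] at haa
    exact haa.2.2.2.2
  have h1 : ∀ e : EdgeQ k r L G b, ∑ q, (if Λ.var e =
        ((⟨i.1 * (L + 1) + 1 + l.1, ht⟩, Λ.ι (c, u), q) : ImmVar n) then
        cc e + (if e ∈ x then (1 : K) else 0) else 0) * h q =
      if (Λ.var e).1.1 = i.1 * (L + 1) + 1 + l.1 ∧ (Λ.var e).2.1 = Λ.ι (c, u) then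
        vl cc x e * h (Λ.var e).2.2 else 0 := by
    intro e
    by_cases hcond : (Λ.var e).1.1 = i.1 * (L + 1) + 1 + l.1 ∧ (Λ.var e).2.1 = Λ.ι (c, u)
    · rw [if_pos hcond, Finset.sum_eq_single (Λ.var e).2.2]
      · have : Λ.var e = ((⟨i.1 * (L + 1) + 1 + l.1, ht⟩, Λ.ι (c, u), (Λ.var e).2.2) : ImmVar n) := by
          apply Prod.ext
          · exact Fin.ext hcond.1
          · apply Prod.ext
            · exact hcond.2
            · rfl
        rw [if_pos this]
        rfl
      · intro q _ hq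
        rw [if_neg, zero_mul]
        intro h2
        apply hq
        rw [h2]
      · intro hc
        exact absurd (mem_univ _) hc
    · rw [if_neg hcond]
      apply Finset.sum_eq_zero
      intro q _
      rw [if_neg, zero_mul]
      intro h2
      apply hcond
      rw [h2]
      exact ⟨rfl, rfl⟩
  rw [Finset.sum_congr rfl (fun e _ => h1 e)]
  have h2 : ∑ a : Fin b, vl cc x (i, c, l, u, a) * h (Λ.ι (c, u + Λ.μ l.1 a)) =
      ∑ e ∈ univ.image mk, if (Λ.var e).1.1 = i.1 * (L + 1) + 1 + l.1 ∧ (Λ.var e).2.1 = Λ.ι (c, u) then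
        vl cc x e * h (Λ.var e).2.2 else 0 := by
    rw [Finset.sum_image (fun a _ a' _ haa => hmk haa)]
    apply Finset.sum_congr rfl
    intro a _
    rw [if_pos ⟨rfl, rfl⟩]
    rfl
  rw [h2]
  symm
  apply Finset.sum_subset (subset_univ _)
  intro e _ he
  rw [if_neg]
  rintro ⟨h3, h4⟩
  apply he
  obtain ⟨i', c', l', u', a'⟩ := e
  rw [var_layer] at h3
  simp only at h3
  obtain ⟨h5, h6⟩ := block_layer_inj l'.2 l.2 h3
  have h7 : (c', u') = (c, u) := Λ.hι h4
  simp only [Prod.mk.injEq] at h7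
  refine mem_image.mpr ⟨a', mem_univ _, ?_⟩
  simp only [mk, Prod.mk.injEq]
  exact ⟨(Fin.ext h5).symm, h7.1.symm, (Fin.ext h6).symm, h7.2.symm, trivial⟩

section Row

variable [NeZero n] (Λ : Lay n k r L b G) (cc : EdgeQ k r L G b → K) (x : Finset (EdgeQ k r L G b))
  (s t : ℕ → Fin n)

/-- The entries of the matrices of the layers at a point. -/
def Yq (τ : ℕ) (p q : Fin n) : K :=
  if ht : τ < n then yy (padβ K k L) Λ.var cc x (⟨τ, ht⟩, p, q) else 0

lemma lay_cut {i : ℕ} (hi : i < k + 1) (p q : Fin n) :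
    layQ (yy (padβ K k L) Λ.var cc x) (cutLam K k L s t) (i * (L + 1)) p q =
      if p = s i ∧ q = t i then X ⟨i, hi⟩ else 0 := by
  have h : i * (L + 1) < n := by
    have h1 : i * (L + 1) ≤ k * (L + 1) := Nat.mul_le_mul_right _ (by omega)
    have h2 := Λ.hn
    omega
  simp only [layQ, dif_pos h, Matrix.of_apply]
  rw [yy_cut Λ cc x hi h, cutLam_cut s t hi h]
  simp

lemma lay_block (i : Fin k) (l : ℕ) (hl : l < L) (p q : Fin n) :
    layQ (yy (padβ K k L) Λ.var cc x) (cutLam K k L s t) (i.1 * (L + 1) + 1 + l) p q =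
      MvPolynomial.C (Yq Λ cc x (i.1 * (L + 1) + 1 + l) p q) := by
  have h : i.1 * (L + 1) + 1 + l < n := by
    have h1 := block_layer_lt i.2 hl
    have h2 := Λ.hn
    omega
  simp only [layQ, dif_pos h, Matrix.of_apply, Yq]
  rw [cutLam_noncut s t _ (fun i' _ => block_ne_cut hl), add_zero]

lemma lay_pad {τ : ℕ} (hk : k * (L + 1) + 1 ≤ τ) :
    layQ (yy (padβ K k L) Λ.var cc x) (cutLam K k L s t) τ = 1 := by
  by_cases h : τ < n
  · ext p q
    simp only [layQ, dif_pos h, Matrix.of_apply]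
    rw [yy_pad Λ cc x h hk, cutLam_noncut]
    · by_cases hpq : p = q
      · subst hpq
        simp
      · simp [hpq, Matrix.one_apply_ne hpq]
    · intro i' hi' h2
      simp only at h2
      have h3 : i' * (L + 1) ≤ k * (L + 1) := Nat.mul_le_mul_right _ hi'
      omega
  · simp [layQ, h]

/-- The step at a cut. -/
lemma prd_cut {i : ℕ} (hi : i < k + 1) (q : Fin n) :
    prdQ (yy (padβ K k L) Λ.var cc x) (cutLam K k L s t) (i * (L + 1) + 1) 0 q =
      prdQ (yy (padβ K k L) Λ.var cc x) (cutLam K k L s t) (i * (L + 1)) 0 (s i) *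
        (if q = t i then X ⟨i, hi⟩ else 0) := by
  rw [prdQ_succ, Finset.sum_eq_single (s i)]
  · rw [lay_cut Λ cc x s t hi]
    simp
  · intro p _ hp
    rw [lay_cut Λ cc x s t hi, if_neg, mul_zero]
    rintro ⟨h, _⟩
    exact hp h
  · intro hc
    exact absurd (mem_univ _) hc

/-- Beyond the blocks the row does not change. -/
lemma prd_pad {c : ℕ} (hc : k * (L + 1) + 1 + c ≤ n) (q : Fin n) :
    prdQ (yy (padβ K k L) Λ.var cc x) (cutLam K k L s t) (k * (L + 1) + 1 + c) 0 q =
      prdQ (yy (padβ K k L) Λ.var cc x) (cutLam K k L s t) (k * (L + 1) + 1) 0 q := by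
  induction c with
  | zero => rfl
  | succ c ih =>
    rw [← add_assoc, prdQ_succ, lay_pad Λ cc x s t (by omega)]
    rw [Finset.sum_eq_single q]
    · rw [Matrix.one_apply_eq, mul_one]
      exact ih (by omega)
    · intro p _ hp
      rw [Matrix.one_apply_ne hp, mul_zero]
    · intro hc
      exact absurd (mem_univ _) hc

/-- The sums over walks of a block in a class, from the back. -/
lemma bk_eq_path (i : Fin k) (c0 : Fin r) (g : Fin n → K) (c l : ℕ) (u : G) (hcl : c + l ≤ L) :
    bkM (Yq Λ cc x) g c (i.1 * (L + 1) + 1 + l) (Λ.ι (c0, u)) =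
      pathT Λ.μ (fun l' u' a => if h : l' < L then vl cc x (i, c0, ⟨l', h⟩, u', a) else 0)
        (fun u' => g (Λ.ι (c0, u'))) c l u := by
  induction c generalizing l u with
  | zero => rfl
  | succ c ih =>
    have hl : l < L := by omega
    have ht : i.1 * (L + 1) + 1 + l < n := by
      have h1 := block_layer_lt i.2 hl
      have h2 := Λ.hn
      omega
    simp only [bkM, pathT]
    have h1 := sum_yy_block Λ cc x i ⟨l, hl⟩ ht c0 u
      (bkM (Yq Λ cc x) g c (i.1 * (L + 1) + 1 + l + 1))
    simp only [Yq, dif_pos ht]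
    refine h1.trans ?_
    apply Finset.sum_congr rfl
    intro a _
    rw [dif_pos hl]
    congr 1
    exact ih (l + 1) (u + Λ.μ l a) (by omega)

/-- The sum over the walks of a block. -/
def blockF (c0 : Fin r) (u : G) (i : Fin k) (e : Fin n) : K :=
  ∑ w : Fin L → Fin b, (∏ l : Fin L, vl cc x (i, c0, l, pos Λ.μ 0 u w l, w l)) *
    if Λ.ι (c0, endW Λ.μ 0 u w) = e then 1 else 0

/-- The step along a block. -/
lemma prd_block (i : Fin k) (c0 : Fin r) (u : G) (ht : t i.1 = Λ.ι (c0, u)) :
    prdQ (yy (padβ K k L) Λ.var cc x) (cutLam K k L s t) ((i.1 + 1) * (L + 1)) 0 (s (i.1 + 1)) =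
      prdQ (yy (padβ K k L) Λ.var cc x) (cutLam K k L s t) (i.1 * (L + 1)) 0 (s i.1) *
        (X ⟨i.1, by have := i.2; omega⟩ * MvPolynomial.C (blockF Λ cc x c0 u i (s (i.1 + 1)))) := by
  have h1 := row_back (yy (padβ K k L) Λ.var cc x) (cutLam K k L s t) (Yq Λ cc x)
    (fun q => if q = s (i.1 + 1) then 1 else 0) L (i.1 * (L + 1) + 1)
    (fun j hj p q => lay_block Λ cc x s t i j hj p q)
  have e1 : i.1 * (L + 1) + 1 + L = (i.1 + 1) * (L + 1) := by ring
  rw [e1] at h1
  have h2 : ∑ q, prdQ (yy (padβ K k L) Λ.var cc x) (cutLam K k L s t) ((i.1 + 1) * (L + 1)) 0 q *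
      MvPolynomial.C (if q = s (i.1 + 1) then (1 : K) else 0) =
      prdQ (yy (padβ K k L) Λ.var cc x) (cutLam K k L s t) ((i.1 + 1) * (L + 1)) 0 (s (i.1 + 1)) := by
    rw [Finset.sum_eq_single (s (i.1 + 1))]
    · simp
    · intro q _ hq
      simp [hq]
    · intro hc
      exact absurd (mem_univ _) hc
  rw [h2] at h1
  rw [h1]
  have hi : i.1 < k + 1 := by
    have := i.2
    omega
  simp only [prd_cut Λ cc x s t hi]
  rw [Finset.sum_eq_single (t i.1)]
  · rw [if_pos rfl, ht, mul_assoc]
    congr 2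
    congr 1
    have h3 := bk_eq_path Λ cc x i c0 (fun q => if q = s (i.1 + 1) then 1 else 0) L 0 u (by omega)
    simp only [add_zero] at h3
    rw [h3, pathT_eq, blockF]
    apply Finset.sum_congr rfl
    intro w _
    congr 1
    apply Finset.prod_congr rfl
    intro l _
    simp only [zero_add, dif_pos l.2, Fin.eta]
  · intro q _ hq
    rw [if_neg hq]
    simp
  · intro hc
    exact absurd (mem_univ _) hc

/-- The top coefficient of `IMM_{n,n}` under the substitution. -/
theorem co_imm (cl : Fin k → Fin r) (st : Fin k → G) (hs0 : s 0 = 0) (htk : t k = 0)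
    (ht : ∀ i : Fin k, t i.1 = Λ.ι (cl i, st i)) :
    co univ (psi (yy (padβ K k L) Λ.var cc x) (cutLam K k L s t) (imm K n)) =
      ∏ i : Fin k, blockF Λ cc x (cl i) (st i) i (s (i.1 + 1)) := by
  classical
  let Xn : ℕ → MvPolynomial (Fin (k + 1)) K := fun j => if h : j < k + 1 then X ⟨j, h⟩ else 1
  let Fv : ℕ → K := fun j => if h : j < k then blockF Λ cc x (cl ⟨j, h⟩) (st ⟨j, h⟩) ⟨j, h⟩ (s (j + 1)) else 1
  have hrow : ∀ i, i ≤ k →
      prdQ (yy (padβ K k L) Λ.var cc x) (cutLam K k L s t) (i * (L + 1)) 0 (s i) =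
        ∏ j ∈ range i, (Xn j * MvPolynomial.C (Fv j)) := by
    intro i
    induction i with
    | zero =>
      intro _
      rw [zero_mul, prdQ_zero, hs0]
      simp
    | succ i ih =>
      intro hi
      have hi' : i < k := by omega
      have h1 := prd_block Λ cc x s t ⟨i, hi'⟩ (cl ⟨i, hi'⟩) (st ⟨i, hi'⟩) (ht ⟨i, hi'⟩)
      simp only at h1
      rw [h1, ih (by omega), Finset.prod_range_succ]
      congr 2
      · simp only [Xn, dif_pos (show i < k + 1 by omega)]
      · simp only [Fv, dif_pos hi']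
  have hk1 : k < k + 1 := by omega
  have hlast : prdQ (yy (padβ K k L) Λ.var cc x) (cutLam K k L s t) n 0 0 =
      (∏ j ∈ range k, (Xn j * MvPolynomial.C (Fv j))) * X ⟨k, hk1⟩ := by
    have hn := Λ.hn
    have h1 := prd_pad Λ cc x s t (c := n - (k * (L + 1) + 1)) (by omega) 0
    rw [show k * (L + 1) + 1 + (n - (k * (L + 1) + 1)) = n by omega] at h1
    rw [h1, prd_cut Λ cc x s t hk1, hrow k le_rfl, htk]
    simp
  rw [psi_imm, hlast]
  have hprod : (∏ j ∈ range k, (Xn j * MvPolynomial.C (Fv j))) * X ⟨k, hk1⟩ =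
      MvPolynomial.C (∏ j ∈ range k, Fv j) * monomial (monoB (univ : Finset (Fin (k + 1)))) 1 := by
    have h1 : monomial (monoB (univ : Finset (Fin (k + 1)))) (1 : K) = ∏ j : Fin (k + 1), X j := by
      rw [← prod_X_pow_eq_monomial, monoB_support]
      apply Finset.prod_congr rfl
      intro j _
      rw [monoB_apply, if_pos (mem_univ _), pow_one]
    have h2 : ∏ j : Fin (k + 1), (X j : MvPolynomial (Fin (k + 1)) K) = ∏ j ∈ range (k + 1), Xn j := by
      rw [Finset.prod_range]
      apply Finset.prod_congr rfl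
      intro j _
      simp only [Xn, dif_pos j.2, Fin.eta]
    rw [h1, h2, Finset.prod_range_succ, Finset.prod_mul_distrib, map_prod]
    simp only [Xn, dif_pos hk1]
    ring
  rw [hprod, co_C_mul, co, coeff_monomial, if_pos rfl, mul_one, Finset.prod_range]
  apply Finset.prod_congr rfl
  intro i _
  simp only [Fv, dif_pos i.2, Fin.eta]

end Row

end Concrete

end Vale.Agent.Lib.P346.Fq
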