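import Vale.Agent.Lib.P346.Fq.Rand

/-!
The dichotomy for the product gates of layer four: high rank gates have vanishing coefficients at good
points, low rank gates have coefficients of low degree.
-/

namespace Vale.Agent.Lib.P346.Fq

open Finset MvPolynomial
open Vale.Agent.Lib.P346 (Circuit)

set_option linter.unusedSectionVars false

variable {K σ E : Type} [Field K] [Fintype K] [DecidableEq K] [Fintype σ] [DecidableEq σ]
  [Fintype E] [DecidableEq E] {m : ℕ}

/-- A finite family of vectors contains a maximal independent subfamily. -/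
lemma exists_basis {ι V : Type} [DecidableEq ι] [AddCommGroup V] [Module K V] (α : ι → V) (I : Finset ι) :
    ∃ J ⊆ I, LinearIndepOn K α (J : Set ι) ∧ ∀ k ∈ I, α k ∈ Submodule.span K (α '' (J : Set ι)) := by
  induction I using Finset.induction_on with
  | empty =>
    refine ⟨∅, Subset.refl _, ?_, ?_⟩
    · simp
    · intro k hk
      exact absurd hk (notMem_empty _)
  | insert a I ha ih =>
    obtain ⟨J, hJI, hJ, hspan⟩ := ih
    by_cases hmem : α a ∈ Submodule.span K (α '' (J : Set ι))
    · refine ⟨J, hJI.trans (subset_insert _ _), hJ, ?_⟩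
      intro k hk
      rcases mem_insert.mp hk with rfl | hk
      · exact hmem
      · exact hspan k hk
    · refine ⟨insert a J, insert_subset_insert _ hJI, ?_, ?_⟩
      · rw [coe_insert]
        exact hJ.insert hmem
      · have hmono : Submodule.span K (α '' (J : Set ι)) ≤
            Submodule.span K (α '' ((insert a J : Finset ι) : Set ι)) := by
          apply Submodule.span_mono
          apply Set.image_mono
          exact_mod_cast subset_insert _ _
        intro k hk
        rcases mem_insert.mp hk with rfl | hk
        · apply Submodule.subset_span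
          exact Set.mem_image_of_mem _ (by simp)
        · exact hmono (hspan k hk)

/-- The data of the dichotomy. -/
structure GateData (C : Circuit K σ) (var : E → σ) where
  /-- a maximal independent family among the inputs of a product gate -/
  J : Fin C.nP4 → Finset (Fin C.nS5)
  /-- a part of it, whose size is a multiple of `2 * q` -/
  s : Fin C.nP4 → Finset (Fin C.nS5)
  hJ1 : ∀ j, ∀ k ∈ J j, 0 < C.expP4 j k
  hJ2 : ∀ j, LinearIndepOn K (alphaS5 C var) (J j : Set (Fin C.nS5))
  hJ3 : ∀ j k, 0 < C.expP4 j k →
    alphaS5 C var k ∈ Submodule.span K (alphaS5 C var '' (J j : Set (Fin C.nS5)))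
  hs1 : ∀ j, s j ⊆ J j
  hs2 : ∀ j, (s j).card = 2 * Fintype.card K * ((J j).card / (2 * Fintype.card K))

lemma exists_gateData (C : Circuit K σ) (var : E → σ) : Nonempty (GateData C var) := by
  classical
  have h := fun j : Fin C.nP4 => exists_basis (K := K) (alphaS5 C var)
    (univ.filter (fun k => 0 < C.expP4 j k))
  choose J hJsub hJ2 hJ3 using h
  have hs := fun j : Fin C.nP4 => Finset.exists_subset_card_eq (s := J j)
    (n := 2 * Fintype.card K * ((J j).card / (2 * Fintype.card K))) (Nat.mul_div_le _ _)
  choose s hs1 hs2 using hs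
  exact ⟨⟨J, s, fun j k hk => (mem_filter.mp (hJsub j hk)).2, hJ2,
    fun j k hk => hJ3 j k (mem_filter.mpr ⟨mem_univ _, hk⟩), hs1, hs2⟩⟩

/-- The point `x` is good for the shift `cc`: in each product gate of high rank, many inputs vanish. -/
def GoodPt (C : Circuit K σ) (β : σ → K) (var : E → σ) (D : GateData C var) (j0 : ℕ) (cc : E → K)
    (x : Finset E) : Prop :=
  ∀ j, 2 * Fintype.card K * j0 ≤ (D.J j).card →
    (D.J j).card / (2 * Fintype.card K) <
      ((D.s j).filter (fun k => valS5 C (yy β var cc x) k = 0)).card

open Classical in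
/-- For each point, few shifts are bad. -/
theorem card_not_good (C : Circuit K σ) (β : σ → K) (var : E → σ) (D : GateData C var) (j0 : ℕ)
    (x : Finset E) :
    (((univ : Finset (E → K)).filter (fun cc => ¬ GoodPt C β var D j0 cc x)).card : ℚ) ≤
      C.nP4 * ((3 / 4) ^ j0 * (Fintype.card K : ℚ) ^ Fintype.card E) := by
  classical
  have hq : 0 < Fintype.card K := Fintype.card_pos
  let Bad : Fin C.nP4 → Finset (E → K) := fun j =>
    if 2 * Fintype.card K * j0 ≤ (D.J j).card then
      univ.filter (fun cc => ((D.s j).filter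
        (fun k => (baseS5 C β k + aff (alphaS5 C var k) x) + dot (alphaS5 C var k) cc = 0)).card ≤
          (D.J j).card / (2 * Fintype.card K))
    else ∅
  have hsub : (univ : Finset (E → K)).filter (fun cc => ¬ GoodPt C β var D j0 cc x) ⊆
      univ.biUnion Bad := by
    intro cc hcc
    have h1 := (mem_filter.mp hcc).2
    simp only [GoodPt, not_forall, not_lt] at h1
    obtain ⟨j, hj, hj2⟩ := h1
    simp only [mem_biUnion, mem_univ, true_and]
    refine ⟨j, ?_⟩
    simp only [Bad, if_pos hj, mem_filter, mem_univ, true_and]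
    have h3 : ∀ k, (baseS5 C β k + aff (alphaS5 C var k) x) + dot (alphaS5 C var k) cc = 0 ↔
        valS5 C (yy β var cc x) k = 0 := by
      intro k
      rw [valS5_yy]
      constructor <;> intro h <;> rw [← h] <;> ring
    simp only [h3]
    exact hj2
  have hone : ∀ j, ((Bad j).card : ℚ) ≤ (3 / 4) ^ j0 * (Fintype.card K : ℚ) ^ Fintype.card E := by
    intro j
    by_cases hj : 2 * Fintype.card K * j0 ≤ (D.J j).card
    · simp only [Bad, if_pos hj]
      have hli : LinearIndepOn K (alphaS5 C var) ((D.s j : Finset _) : Set (Fin C.nS5)) :=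
        (D.hJ2 j).mono (by exact_mod_cast D.hs1 j)
      have h2 := card_few_zeros (alphaS5 C var)
        (fun k => baseS5 C β k + aff (alphaS5 C var k) x) (D.s j) hli
        ((D.J j).card / (2 * Fintype.card K)) (D.hs2 j)
      refine h2.trans (mul_le_mul_of_nonneg_right ?_ (by positivity))
      apply pow_le_pow_of_le_one (by norm_num) (by norm_num)
      rw [Nat.le_div_iff_mul_le (by omega)]
      rw [mul_comm]
      exact hj
    · simp only [Bad, if_neg hj]
      simp only [card_empty, Nat.cast_zero]
      positivity
  have h4 : (((univ : Finset (E → K)).filter (fun cc => ¬ GoodPt C β var D j0 cc x)).card : ℚ) ≤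
      ((univ.biUnion Bad).card : ℚ) := by
    exact_mod_cast card_le_card hsub
  have h5 : ((univ.biUnion Bad).card : ℚ) ≤ ∑ j, ((Bad j).card : ℚ) := by
    exact_mod_cast card_biUnion_le
  have h6 : ∑ j, ((Bad j).card : ℚ) ≤
      ∑ _j : Fin C.nP4, (3 / 4) ^ j0 * (Fintype.card K : ℚ) ^ Fintype.card E :=
    Finset.sum_le_sum (fun j _ => hone j)
  rw [Finset.sum_const, nsmul_eq_mul, card_univ, Fintype.card_fin] at h6
  exact h4.trans (h5.trans h6)

/-- A coefficient of a product gate of low rank has low degree. -/
lemma coeff_low_degree (C : Circuit K σ) (β : σ → K) (var : E → σ) (D : GateData C var) (cc : E → K)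
    (lam : σ → MvPolynomial (Fin m) K) (B : Finset (Fin m)) (j : Fin C.nP4) :
    (fun x => co B (psi (yy β var cc x) lam (C.gateP4 j))) ∈
      DegK K E ((Fintype.card K - 1) * (D.J j).card) := by
  apply deg_of_factor (D.J j) (fun k => aff (alphaS5 C var k)) (fun k _ => aff_mem_DegK _)
  intro x x' hxx
  have h0 : ∀ a ∈ Submodule.span K (alphaS5 C var '' (D.J j : Set (Fin C.nS5))),
      aff a x = aff a x' := by
    intro a h2
    induction h2 using Submodule.span_induction with
    | mem v hv =>
      obtain ⟨k', hk', rfl⟩ := hv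
      exact hxx k' (by exact_mod_cast hk')
    | zero => simp [aff]
    | add u v _ _ hu hv =>
      have hadd : ∀ w : Finset E, aff (u + v) w = aff u w + aff v w := by
        intro w
        simp [aff, add_mul, Finset.sum_add_distrib]
      rw [hadd, hadd, hu, hv]
    | smul c u _ hu =>
      have hsmul : ∀ w : Finset E, aff (c • u) w = c * aff u w := by
        intro w
        simp [aff, Finset.mul_sum, mul_assoc]
      rw [hsmul, hsmul, hu]
  have h1 : ∀ k, 0 < C.expP4 j k → aff (alphaS5 C var k) x = aff (alphaS5 C var k) x' :=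
    fun k hk => h0 _ (D.hJ3 j k hk)
  have h3 : psi (yy β var cc x) lam (C.gateP4 j) = psi (yy β var cc x') lam (C.gateP4 j) := by
    apply psi_gateP4_congr
    intro k hk
    rw [valS5_yy, valS5_yy, h1 k hk]
  rw [h3]

/-- The dichotomy at a sum gate of layer three. -/
theorem large_S3 (C : Circuit K σ) (β : σ → K) (var : E → σ) (D : GateData C var) (j0 : ℕ) (cc : E → K)
    (lam : σ → MvPolynomial (Fin m) K) (hlam : ∀ v, constantCoeff (lam v) = 0)
    (i : Fin C.nS3) (B : Finset (Fin m)) :
    ∃ h ∈ DegK K E ((Fintype.card K - 1) * (2 * Fintype.card K * max j0 B.card)),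
      ∀ x, GoodPt C β var D j0 cc x → co B (psi (yy β var cc x) lam (C.gateS3 i)) = h x := by
  classical
  have hq : 0 < Fintype.card K := Fintype.card_pos
  set M := 2 * Fintype.card K * max j0 B.card with hM
  let F : Fin C.nP4 → Finset E → K := fun j x => co B (psi (yy β var cc x) lam (C.gateP4 j))
  refine ⟨∑ j, (if (D.J j).card < M then C.coeffS3 i j else 0) • F j, ?_, ?_⟩
  · apply Submodule.sum_mem
    intro j _
    by_cases hj : (D.J j).card < M
    · rw [if_pos hj]
      apply Submodule.smul_mem
      exact DegK_mono (Nat.mul_le_mul_left _ hj.le) (coeff_low_degree C β var D cc lam B j)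
    · rw [if_neg hj, zero_smul]
      exact Submodule.zero_mem _
  · intro x hx
    rw [co_gateS3]
    simp only [Finset.sum_apply, Pi.smul_apply, smul_eq_mul]
    apply Finset.sum_congr rfl
    intro j _
    by_cases hj : (D.J j).card < M
    · rw [if_pos hj]
    · rw [if_neg hj, zero_mul]
      have hj' : M ≤ (D.J j).card := by omega
      have h1 : 2 * Fintype.card K * j0 ≤ (D.J j).card :=
        (Nat.mul_le_mul_left _ (le_max_left _ _)).trans hj'
      have h2 : 2 * Fintype.card K * B.card ≤ (D.J j).card :=
        (Nat.mul_le_mul_left _ (le_max_right _ _)).trans hj'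
      have h3 := hx j h1
      have h4 : B.card ≤ (D.J j).card / (2 * Fintype.card K) := by
        rw [Nat.le_div_iff_mul_le (by omega), mul_comm]
        exact h2
      have h5 := co_gateP4_eq_zero C (yy β var cc x) lam hlam j
        ((D.s j).filter (fun k => valS5 C (yy β var cc x) k = 0))
        (fun k hk => ⟨(mem_filter.mp hk).2, D.hJ1 j k (D.hs1 j (mem_filter.mp hk).1)⟩) B (by omega)
      rw [h5, mul_zero]

end Vale.Agent.Lib.P346.Fq
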