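import Vale.Agent.Lib.P346.Fq.Imm

/-!
The rows of the rank argument: for each admissible set of edges, a monomial function times the top
coefficient of the substitution determined by the walks chosen in the set. The coefficients of the monomial
functions in these rows are triangular.
-/

namespace Vale.Agent.Lib.P346.Fq

open Finset MvPolynomial
open Vale.Agent.Lib.P346 (Circuit ImmVar imm immMatrix)

set_option linter.unusedSectionVars false

section MobMono

variable {K E : Type} [Field K] [Fintype E] [DecidableEq E]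

/-- The coefficient of a monomial function of top degree in a product of shifted indicators. -/
lemma mob_mo_mul_prod (cc : E → K) (S M V : Finset E) (hcard : S.card + M.card ≤ V.card) :
    mob K V (mo K S * ∏ e ∈ M, (fun x : Finset E => cc e + if e ∈ x then 1 else 0)) =
      if S ∪ M = V then 1 else 0 := by
  have h1 : (∏ e ∈ M, (fun x : Finset E => cc e + if e ∈ x then (1 : K) else 0)) =
      ∑ N ∈ M.powerset, (∏ e ∈ M \ N, cc e) • mo K N := by
    have h2 : ∀ e ∈ M, (fun x : Finset E => cc e + if e ∈ x then (1 : K) else 0) =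
        mo K {e} + (fun _ => cc e) := by
      intro e _
      funext x
      simp only [Pi.add_apply, mo, singleton_subset_iff]
      ring
    rw [Finset.prod_congr rfl h2, Finset.prod_add]
    apply Finset.sum_congr rfl
    intro N _
    have h3 : ∏ e ∈ N, mo K {e} = mo K N := by
      funext x
      simp only [Finset.prod_apply, mo, singleton_subset_iff]
      rw [Finset.prod_ite_zero]
      simp [Finset.subset_iff]
    have h4 : ∏ e ∈ M \ N, (fun _ : Finset E => cc e) = (∏ e ∈ M \ N, cc e) • (1 : Finset E → K) := by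
      funext x
      simp [Finset.prod_apply]
    rw [h3, h4]
    funext x
    simp only [Pi.mul_apply, Pi.smul_apply, smul_eq_mul, Pi.one_apply]
    ring
  rw [h1, Finset.mul_sum, map_sum]
  have h5 : ∀ N ∈ M.powerset, mob K V (mo K S * (∏ e ∈ M \ N, cc e) • mo K N) =
      if N = M then (if S ∪ M = V then 1 else 0) else 0 := by
    intro N hN
    have hN' := mem_powerset.mp hN
    rw [mul_smul_comm, map_smul, mo_mul, mob_mo, smul_eq_mul]
    by_cases hNM : N = M
    · subst hNM
      simp
    · rw [if_neg hNM, if_neg, mul_zero]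
      intro h6
      have h7 : N.card < M.card := card_lt_card (ssubset_of_subset_of_ne hN' hNM)
      have h8 : (S ∪ N).card ≤ S.card + N.card := card_union_le _ _
      rw [h6] at h8
      omega
  rw [Finset.sum_congr rfl h5, Finset.sum_ite_eq' M.powerset M]
  simp

end MobMono

section Walks

variable {G : Type} [AddCommGroup G] [Fintype G] [DecidableEq G] {k r L b : ℕ}

/-- The edges that a set of one class must contain for a word started at `u`. -/
def reqU (μ : ℕ → Fin b → G) (u : G) (w : Fin L → Fin b) : Finset (EdgeW L G b) :=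
  univ.filter (fun e => e.2.1 = pos μ 0 u w e.1 ∧ e.2.2 ≤ w e.1)

/-- The position of a level of a block in the order of all levels. -/
def tauQ (L : ℕ) (i : ℕ) (l : ℕ) : ℕ := i * L + l

lemma tauQ_lt {i l : ℕ} (hi : i < k) (hl : l < L) : tauQ L i l < k * L := by
  have h : (i + 1) * L ≤ k * L := Nat.mul_le_mul_right _ hi
  rw [add_mul, one_mul] at h
  simp only [tauQ]
  omega

lemma tauQ_inj {i i' l l' : ℕ} (hl : l < L) (hl' : l' < L) (h : tauQ L i l = tauQ L i' l') :
    i = i' ∧ l = l' := by
  simp only [tauQ] at h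
  have h1 : i = i' := by
    rcases lt_trichotomy i i' with hlt | heq | hgt
    · have h2 : (i + 1) * L ≤ i' * L := Nat.mul_le_mul_right _ hlt
      rw [add_mul, one_mul] at h2
      omega
    · exact heq
    · have h2 : (i' + 1) * L ≤ i * L := Nat.mul_le_mul_right _ hgt
      rw [add_mul, one_mul] at h2
      omega
  subst h1
  exact ⟨rfl, by omega⟩

/-- The edges of the words of all blocks, given the classes and the starting points. -/
def monoQ (μ : ℕ → Fin b → G) (cl : Fin k → Fin r) (st : Fin k → G) (W : Fin k → Fin L → Fin b) :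
    Finset (EdgeQ k r L G b) :=
  univ.image (fun il : Fin k × Fin L =>
    (il.1, cl il.1, il.2, pos μ 0 (st il.1) (W il.1) il.2, W il.1 il.2))

lemma mem_monoQ (μ : ℕ → Fin b → G) (cl : Fin k → Fin r) (st : Fin k → G)
    (W : Fin k → Fin L → Fin b) (e : EdgeQ k r L G b) :
    e ∈ monoQ μ cl st W ↔ e.2.1 = cl e.1 ∧ e.2.2.2.1 = pos μ 0 (st e.1) (W e.1) e.2.2.1 ∧
      e.2.2.2.2 = W e.1 e.2.2.1 := by
  simp only [monoQ, mem_image, mem_univ, true_and]
  constructor
  · rintro ⟨il, rfl⟩
    exact ⟨rfl, rfl, rfl⟩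
  · rintro ⟨h1, h2, h3⟩
    refine ⟨(e.1, e.2.2.1), ?_⟩
    obtain ⟨i, c, l, u, a⟩ := e
    simp only at h1 h2 h3
    simp only [Prod.mk.injEq, true_and]
    exact ⟨h1.symm, h2.symm, h3.symm⟩

lemma card_monoQ (μ : ℕ → Fin b → G) (cl : Fin k → Fin r) (st : Fin k → G)
    (W : Fin k → Fin L → Fin b) : (monoQ μ cl st W).card = k * L := by
  rw [monoQ, card_image_of_injective]
  · simp
  · rintro ⟨i, l⟩ ⟨i', l'⟩ h
    simp only [Prod.mk.injEq] at h
    exact Prod.ext h.1 h.2.2.1

lemma prod_monoQ {R : Type} [CommMonoid R] (μ : ℕ → Fin b → G) (cl : Fin k → Fin r) (st : Fin k → G)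
    (W : Fin k → Fin L → Fin b) (f : EdgeQ k r L G b → R) :
    ∏ e ∈ monoQ μ cl st W, f e =
      ∏ i : Fin k, ∏ l : Fin L, f (i, cl i, l, pos μ 0 (st i) (W i) l, W i l) := by
  rw [monoQ, Finset.prod_image]
  · rw [← Finset.univ_product_univ, Finset.prod_product]
  · rintro ⟨i, l⟩ _ ⟨i', l'⟩ _ h
    simp only [Prod.mk.injEq] at h
    exact Prod.ext h.1 h.2.2.1

/-- The rank of an edge: earlier levels come first, then smaller letters. -/
noncomputable def rkQ (e : EdgeQ k r L G b) : ℕ :=
  ((k * L - 1 - tauQ L e.1.1 e.2.2.1.1) * Fintype.card (Fin r × G) +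
    (Fintype.equivFin (Fin r × G) (e.2.1, e.2.2.2.1)).1) * b + (b - 1 - e.2.2.2.2.1)

lemma rkQ_lt_level {i i' : Fin k} {l l' : Fin L} (h : tauQ L i.1 l.1 < tauQ L i'.1 l'.1) (c c' : Fin r)
    (u u' : G) (a a' : Fin b) :
    rkQ ((i', c', l', u', a') : EdgeQ k r L G b) < rkQ ((i, c, l, u, a) : EdgeQ k r L G b) :=
  rk_arith h (tauQ_lt i'.2 l'.2) a'.2 (Fintype.equivFin (Fin r × G) (c', u')).2

lemma rkQ_lt_letter (i : Fin k) (l : Fin L) (c : Fin r) (u : G) {a a' : Fin b} (h : a < a') :
    rkQ ((i, c, l, u, a') : EdgeQ k r L G b) < rkQ ((i, c, l, u, a) : EdgeQ k r L G b) := by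
  simp only [rkQ]
  have ha : a.1 < a'.1 := h
  have ha' := a'.2
  omega

lemma rkQ_injective : Function.Injective (rkQ : EdgeQ k r L G b → ℕ) := by
  rintro ⟨i, c, l, u, a⟩ ⟨i', c', l', u', a'⟩ h
  have h1 : tauQ L i.1 l.1 = tauQ L i'.1 l'.1 := by
    rcases lt_trichotomy (tauQ L i.1 l.1) (tauQ L i'.1 l'.1) with hlt | heq | hgt
    · have := rkQ_lt_level hlt c c' u u' a a'
      omega
    · exact heq
    · have := rkQ_lt_level hgt c' c u' u a' a
      omega
  obtain ⟨h2, h3⟩ := tauQ_inj l.2 l'.2 h1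
  have h2' : i = i' := Fin.ext h2
  have h3' : l = l' := Fin.ext h3
  subst h2'
  subst h3'
  have h4 : (Fintype.equivFin (Fin r × G) (c, u)).1 = (Fintype.equivFin (Fin r × G) (c', u')).1 := by
    simp only [rkQ] at h
    have ha := a.2
    have ha' := a'.2
    have h5 : ((k * L - 1 - tauQ L i.1 l.1) * Fintype.card (Fin r × G) +
        (Fintype.equivFin (Fin r × G) (c, u)).1) * b + (b - 1 - a.1) =
      ((k * L - 1 - tauQ L i.1 l.1) * Fintype.card (Fin r × G) +
        (Fintype.equivFin (Fin r × G) (c', u')).1) * b + (b - 1 - a'.1) := h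
    rcases lt_trichotomy (Fintype.equivFin (Fin r × G) (c, u)).1 (Fintype.equivFin (Fin r × G) (c', u')).1
      with hlt | heq | hgt
    · have h6 : ((k * L - 1 - tauQ L i.1 l.1) * Fintype.card (Fin r × G) +
          (Fintype.equivFin (Fin r × G) (c, u)).1) + 1 ≤
          (k * L - 1 - tauQ L i.1 l.1) * Fintype.card (Fin r × G) +
          (Fintype.equivFin (Fin r × G) (c', u')).1 := by omega
      have h7 := Nat.mul_le_mul_right b h6
      rw [add_mul, one_mul] at h7
      omega
    · exact heq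
    · have h6 : ((k * L - 1 - tauQ L i.1 l.1) * Fintype.card (Fin r × G) +
          (Fintype.equivFin (Fin r × G) (c', u')).1) + 1 ≤
          (k * L - 1 - tauQ L i.1 l.1) * Fintype.card (Fin r × G) +
          (Fintype.equivFin (Fin r × G) (c, u)).1 := by omega
      have h7 := Nat.mul_le_mul_right b h6
      rw [add_mul, one_mul] at h7
      omega
  have h8 : (c, u) = (c', u') := (Fintype.equivFin (Fin r × G)).injective (Fin.ext h4)
  simp only [Prod.mk.injEq] at h8
  obtain ⟨rfl, rfl⟩ := h8
  have h9 : a = a' := by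
    rcases lt_trichotomy a a' with hlt | heq | hgt
    · have := rkQ_lt_letter i l c u hlt
      omega
    · exact heq
    · have := rkQ_lt_letter i l c u hgt
      omega
  rw [h9]

/-- The first difference of two families of words. -/
theorem first_diff (μ : ℕ → Fin b → G) {T : Finset (EdgeQ k r L G b)} {cl : Fin k → Fin r} {st : Fin k → G}
    {W V : Fin k → Fin L → Fin b} (hreq : ∀ i, ∀ e ∈ reqU μ (st i) (W i), (i, cl i, e) ∈ T)
    (hVW : V ≠ W) (hdj : Disjoint (T \ monoQ μ cl st W) (monoQ μ cl st V)) :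
    ∃ estar ∈ T, estar ∉ (T \ monoQ μ cl st W) ∪ monoQ μ cl st V ∧
      ∀ e' ∈ (T \ monoQ μ cl st W) ∪ monoQ μ cl st V, e' ∉ T → rkQ e' < rkQ estar := by
  classical
  have hs : (univ.filter (fun il : Fin k × Fin L => W il.1 il.2 ≠ V il.1 il.2)).Nonempty := by
    obtain ⟨i, hi⟩ := Function.ne_iff.mp hVW
    obtain ⟨l, hl⟩ := Function.ne_iff.mp hi
    exact ⟨(i, l), mem_filter.mpr ⟨mem_univ _, fun h => hl h.symm⟩⟩
  obtain ⟨⟨i0, l0⟩, hi0, hmin⟩ := exists_min_image _ (fun il : Fin k × Fin L => tauQ L il.1.1 il.2.1) hs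
  have hne : W i0 l0 ≠ V i0 l0 := (mem_filter.mp hi0).2
  have hbefore : ∀ i l, tauQ L i.1 l.1 < tauQ L i0.1 l0.1 → W i l = V i l := by
    intro i l hlt
    by_contra hcon
    have := hmin (i, l) (mem_filter.mpr ⟨mem_univ _, hcon⟩)
    simp only at this
    omega
  have hpos : ∀ i (l : Fin L), tauQ L i.1 l.1 ≤ tauQ L i0.1 l0.1 →
      pos μ 0 (st i) (W i) l = pos μ 0 (st i) (V i) l := by
    intro i l hle
    apply pos_congr
    intro j hj
    apply hbefore
    have : j.1 < l.1 := hj
    simp only [tauQ] at hle ⊢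
    omega
  have hT : monoQ μ cl st W ⊆ T := by
    intro e he
    obtain ⟨h1, h2, h3⟩ := (mem_monoQ μ cl st W e).mp he
    obtain ⟨i, c, l, u, a⟩ := e
    simp only at h1 h2 h3
    subst h1 h2 h3
    exact hreq i _ (mem_filter.mpr ⟨mem_univ _, rfl, le_rfl⟩)
  have hlt : W i0 l0 < V i0 l0 := by
    by_contra hcon
    have hle : V i0 l0 < W i0 l0 := lt_of_le_of_ne (not_lt.mp hcon) hne.symm
    have hmem : ((i0, cl i0, l0, pos μ 0 (st i0) (V i0) l0, V i0 l0) : EdgeQ k r L G b) ∈
        monoQ μ cl st V := (mem_monoQ μ cl st V _).mpr ⟨rfl, rfl, rfl⟩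
    have hin : ((i0, cl i0, l0, pos μ 0 (st i0) (V i0) l0, V i0 l0) : EdgeQ k r L G b) ∈ T :=
      hreq i0 _ (mem_filter.mpr ⟨mem_univ _, (hpos i0 l0 le_rfl).symm, hle.le⟩)
    have hnot : ((i0, cl i0, l0, pos μ 0 (st i0) (V i0) l0, V i0 l0) : EdgeQ k r L G b) ∉
        monoQ μ cl st W := by
      intro h
      exact hne ((mem_monoQ μ cl st W _).mp h).2.2.symm
    exact (Finset.disjoint_left.mp hdj) (mem_sdiff.mpr ⟨hin, hnot⟩) hmem
  refine ⟨(i0, cl i0, l0, pos μ 0 (st i0) (W i0) l0, W i0 l0), ?_, ?_, ?_⟩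
  · exact hT ((mem_monoQ μ cl st W _).mpr ⟨rfl, rfl, rfl⟩)
  · intro h
    rcases mem_union.mp h with h | h
    · exact (mem_sdiff.mp h).2 ((mem_monoQ μ cl st W _).mpr ⟨rfl, rfl, rfl⟩)
    · exact hne ((mem_monoQ μ cl st V _).mp h).2.2
  · intro e he heT
    have hev : e ∈ monoQ μ cl st V := by
      rcases mem_union.mp he with h | h
      · exact absurd (mem_sdiff.mp h).1 heT
      · exact h
    obtain ⟨h1, h2, h3⟩ := (mem_monoQ μ cl st V e).mp hev
    obtain ⟨i, c, l, u, a⟩ := e
    simp only at h1 h2 h3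
    subst h1 h2 h3
    rcases lt_trichotomy (tauQ L i.1 l.1) (tauQ L i0.1 l0.1) with hlt' | heq | hgt
    · exfalso
      apply heT
      apply hT
      apply (mem_monoQ μ cl st W _).mpr
      exact ⟨rfl, (hpos i l hlt'.le).symm, (hbefore i l hlt').symm⟩
    · obtain ⟨h4, h5⟩ := tauQ_inj l.2 l0.2 heq
      have h4' : i = i0 := Fin.ext h4
      have h5' : l = l0 := Fin.ext h5
      subst h4' h5'
      rw [hpos i l le_rfl]
      exact rkQ_lt_letter _ _ _ _ hlt
    · exact rkQ_lt_level hgt _ _ _ _ _ _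

end Walks

section Key

variable {E : Type} [Fintype E] [DecidableEq E]

lemma keyOf_injective {rk : E → ℕ} (hrk : Function.Injective rk) :
    Function.Injective (keyOf rk) := by
  classical
  intro T V hTV
  by_contra hne
  have hs : (symmDiff T V).Nonempty := by
    rw [Finset.nonempty_iff_ne_empty]
    intro h
    exact hne (symmDiff_eq_bot.mp h)
  obtain ⟨e, he, hmax⟩ := exists_max_image _ rk hs
  rcases Finset.mem_symmDiff.mp he with ⟨h1, h2⟩ | ⟨h1, h2⟩
  · have := keyOf_lt hrk h1 h2 (by
      intro e' he' he'T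
      have h3 : e' ∈ symmDiff T V := Finset.mem_symmDiff.mpr (Or.inr ⟨he', he'T⟩)
      have h4 := hmax e' h3
      have h5 : e' ≠ e := fun h => h2 (h ▸ he')
      have h6 : rk e' ≠ rk e := fun h => h5 (hrk h)
      omega)
    omega
  · have := keyOf_lt hrk h1 h2 (by
      intro e' he' he'T
      have h3 : e' ∈ symmDiff T V := Finset.mem_symmDiff.mpr (Or.inl ⟨he', he'T⟩)
      have h4 := hmax e' h3
      have h5 : e' ≠ e := fun h => h2 (h ▸ he')
      have h6 : rk e' ≠ rk e := fun h => h5 (hrk h)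
      omega)
    omega

/-- An order on sets of edges: first by size, then by key. -/
def ordK (rk : E → ℕ) (T : Finset E) : ℕ := T.card * (keyOf rk univ + 1) + keyOf rk T

lemma keyOf_le_univ (rk : E → ℕ) (T : Finset E) : keyOf rk T ≤ keyOf rk univ :=
  Finset.sum_le_sum_of_subset (subset_univ _)

lemma ordK_lt {rk : E → ℕ} {T V : Finset E} (h : ordK rk T < ordK rk V) :
    T.card ≤ V.card ∧ (T.card = V.card → keyOf rk T < keyOf rk V) := by
  simp only [ordK] at h
  constructor
  · by_contra hcon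
    have h1 : V.card + 1 ≤ T.card := by omega
    have h2 := Nat.mul_le_mul_right (keyOf rk univ + 1) h1
    rw [add_mul, one_mul] at h2
    have h3 := keyOf_le_univ rk V
    omega
  · intro heq
    rw [heq] at h
    omega

lemma ordK_injective {rk : E → ℕ} (hrk : Function.Injective rk) : Function.Injective (ordK rk) := by
  intro T V h
  have h1 : T.card = V.card := by
    rcases lt_trichotomy T.card V.card with hlt | heq | hgt
    · have h2 := Nat.mul_le_mul_right (keyOf rk univ + 1) (show T.card + 1 ≤ V.card from hlt)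
      rw [add_mul, one_mul] at h2
      have h3 := keyOf_le_univ rk T
      simp only [ordK] at h
      omega
    · exact heq
    · have h2 := Nat.mul_le_mul_right (keyOf rk univ + 1) (show V.card + 1 ≤ T.card from hgt)
      rw [add_mul, one_mul] at h2
      have h3 := keyOf_le_univ rk V
      simp only [ordK] at h
      omega
  have h2 : keyOf rk T = keyOf rk V := by
    simp only [ordK, h1] at h
    omega
  exact keyOf_injective hrk h2

end Key

end Vale.Agent.Lib.P346.Fq
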