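import Vale.Agent.Lib.P346.Fq.ShiftP
import Vale.Agent.Lib.P346.Fq.Lead

/-!
The first and second moments of the number of walks admissible for a set of edges, under the product
measure which gives a set `T` a weight proportional to `z ^ T.card`.
-/

namespace Vale.Agent.Lib.P346.Fq

open Finset

set_option linter.unusedSectionVars false

section Superset

variable {E : Type} [Fintype E] [DecidableEq E]

/-- The weight of the sets containing a given set. -/
lemma sum_superset (z : ℚ) (hz : 0 ≤ z) (R : Finset E) :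
    ∑ T : Finset E, (if R ⊆ T then z ^ T.card else 0) =
      (1 + z) ^ Fintype.card E * (z / (1 + z)) ^ R.card := by
  have hz1 : (1 + z) ≠ 0 := by positivity
  have hle : R.card ≤ Fintype.card E := card_le_univ R
  have h1 : ∑ T : Finset E, (if R ⊆ T then z ^ T.card else 0) =
      ∑ T ∈ univ.filter (fun T : Finset E => R ⊆ T), z ^ T.card := by
    rw [Finset.sum_filter]
  have h2 : ∑ T ∈ univ.filter (fun T : Finset E => R ⊆ T), z ^ T.card =
      ∑ U ∈ (Rᶜ).powerset, z ^ R.card * z ^ U.card := by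
    apply Finset.sum_bij' (fun T _ => T \ R) (fun U _ => R ∪ U)
    · intro T _
      apply mem_powerset.mpr
      intro e he
      exact mem_compl.mpr (mem_sdiff.mp he).2
    · intro U _
      exact mem_filter.mpr ⟨mem_univ _, subset_union_left⟩
    · intro T hT
      exact union_sdiff_of_subset (mem_filter.mp hT).2
    · intro U hU
      have hU' := mem_powerset.mp hU
      apply union_sdiff_cancel_left
      rw [Finset.disjoint_left]
      intro e he he2
      exact (mem_compl.mp (hU' he2)) he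
    · intro T hT
      rw [← pow_add, ← card_union_of_disjoint disjoint_sdiff, union_sdiff_of_subset (mem_filter.mp hT).2]
  rw [h1, h2, ← Finset.mul_sum]
  have h3 := Finset.sum_pow_mul_eq_add_pow z 1 (Rᶜ)
  simp only [one_pow, mul_one] at h3
  rw [h3, card_compl]
  have h4 : (1 + z) ^ Fintype.card E = (1 + z) ^ (Fintype.card E - R.card) * (1 + z) ^ R.card := by
    rw [← pow_add]
    congr 1
    omega
  rw [h4, div_pow, add_comm z 1]
  field_simp

end Superset

variable {G : Type} [AddCommGroup G] [Fintype G] [DecidableEq G] {L b : ℕ}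

lemma reqU_filter (μ : ℕ → Fin b → G) (u : G) (w : Fin L → Fin b) (i : Fin L) :
    (reqU μ u w).filter (fun e => e.1 = i) = levelSet i (pos μ 0 u w i) (w i) := by
  ext e
  simp only [reqU, levelSet, mem_filter, mem_univ, true_and]
  constructor
  · rintro ⟨⟨h1, h2⟩, rfl⟩
    exact ⟨rfl, h1, h2⟩
  · rintro ⟨rfl, h1, h2⟩
    exact ⟨⟨h1, h2⟩, rfl⟩

lemma pow_card_split (p : ℚ) (R : Finset (EdgeW L G b)) :
    p ^ R.card = ∏ i : Fin L, p ^ (R.filter (fun e => e.1 = i)).card := by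
  rw [Finset.prod_pow_eq_pow_sum]
  congr 1
  exact card_eq_sum_card_fiberwise (fun e _ => mem_univ _)

lemma pow_reqU (p : ℚ) (μ : ℕ → Fin b → G) (u : G) (w : Fin L → Fin b) :
    p ^ (reqU μ u w).card = ∏ i : Fin L, p ^ ((w i).1 + 1) := by
  rw [pow_card_split]
  apply Finset.prod_congr rfl
  intro i _
  rw [reqU_filter, card_levelSet]

lemma pow_reqU_union (p : ℚ) (μ : ℕ → Fin b → G) (u u' : G) (w v : Fin L → Fin b) :
    p ^ (reqU μ u w ∪ reqU μ u' v).card =
      ∏ i : Fin L, wtP p (pos μ 0 u w i - pos μ 0 u' v i) (w i) (v i) := by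
  rw [pow_card_split]
  apply Finset.prod_congr rfl
  intro i _
  rw [Finset.filter_union, reqU_filter, reqU_filter]
  by_cases h : pos μ 0 u w i = pos μ 0 u' v i
  · rw [h, levelSet_union_same, card_levelSet]
    simp [wtP, Fin.coe_max]
  · rw [card_union_of_disjoint (levelSet_disjoint i h _ _), card_levelSet, card_levelSet]
    simp [wtP, sub_eq_zero, h]

/-- The recursion for pairs of walks gives the sum over pairs of words. -/
lemma pairP_eq (p : ℚ) (μ : ℕ → Fin b → G) (L t : ℕ) (u u' : G) :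
    pairP p μ L t (u - u') = ∑ w : Fin L → Fin b, ∑ v : Fin L → Fin b,
      ∏ i, wtP p (pos μ t u w i - pos μ t u' v i) (w i) (v i) := by
  induction L generalizing t u u' with
  | zero => simp [pairP]
  | succ L ih =>
    rw [sum_fin_succ]
    simp_rw [sum_fin_succ (fun v : Fin (L + 1) → Fin b => ∏ i, _)]
    simp only [pairP]
    apply Finset.sum_congr rfl
    intro a _
    rw [Finset.sum_comm]
    apply Finset.sum_congr rfl
    intro a' _
    have e : u - u' + μ t a - μ t a' = (u + μ t a) - (u' + μ t a') := by abel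
    rw [e, ih, Finset.mul_sum]
    apply Finset.sum_congr rfl
    intro w _
    rw [Finset.mul_sum]
    apply Finset.sum_congr rfl
    intro v _
    rw [Fin.prod_univ_succ]
    simp only [pos_cons_zero, Fin.cons_zero, Fin.cons_succ, pos_cons_succ]

/-- The number of admissible pairs of a starting point and a word. -/
def countU (μ : ℕ → Fin b → G) (T : Finset (EdgeW L G b)) : ℚ :=
  ∑ u : G, ∑ w : Fin L → Fin b, if reqU μ u w ⊆ T then 1 else 0

section Moments

variable (z : ℚ) (hz : 0 ≤ z)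
include hz

/-- The first moment. -/
theorem sum_countU (μ : ℕ → Fin b → G) :
    ∑ T : Finset (EdgeW L G b), z ^ T.card * countU μ T =
      (1 + z) ^ Fintype.card (EdgeW L G b) * (Fintype.card G * yP (z / (1 + z)) b ^ L) := by
  have h1 : ∀ T : Finset (EdgeW L G b), z ^ T.card * countU μ T =
      ∑ u : G, ∑ w : Fin L → Fin b, if reqU μ u w ⊆ T then z ^ T.card else 0 := by
    intro T
    simp only [countU, Finset.mul_sum]
    apply Finset.sum_congr rfl
    intro u _
    apply Finset.sum_congr rfl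
    intro w _
    split_ifs <;> simp
  simp_rw [h1]
  rw [Finset.sum_comm]
  have h2 : ∀ u : G, ∑ T : Finset (EdgeW L G b), ∑ w : Fin L → Fin b,
      (if reqU μ u w ⊆ T then z ^ T.card else 0) =
      (1 + z) ^ Fintype.card (EdgeW L G b) * yP (z / (1 + z)) b ^ L := by
    intro u
    rw [Finset.sum_comm]
    simp_rw [sum_superset z hz, pow_reqU]
    rw [← Finset.mul_sum, yP, Fintype.sum_pow]
  simp_rw [h2]
  rw [Finset.sum_const, card_univ, nsmul_eq_mul]
  ring

/-- The second moment. -/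
theorem sum_countU_sq (μ : ℕ → Fin b → G) :
    ∑ T : Finset (EdgeW L G b), z ^ T.card * countU μ T ^ 2 =
      (1 + z) ^ Fintype.card (EdgeW L G b) *
        (Fintype.card G * ∑ δ, pairP (z / (1 + z)) μ L 0 δ) := by
  have h1 : ∀ T : Finset (EdgeW L G b), z ^ T.card * countU μ T ^ 2 =
      ∑ u : G, ∑ u' : G, ∑ w : Fin L → Fin b, ∑ v : Fin L → Fin b,
        if reqU μ u w ∪ reqU μ u' v ⊆ T then z ^ T.card else 0 := by
    intro T
    rw [sq, countU, Finset.sum_mul_sum, Finset.mul_sum]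
    apply Finset.sum_congr rfl
    intro u _
    rw [Finset.mul_sum]
    apply Finset.sum_congr rfl
    intro u' _
    rw [Finset.sum_mul_sum, Finset.mul_sum]
    apply Finset.sum_congr rfl
    intro w _
    rw [Finset.mul_sum]
    apply Finset.sum_congr rfl
    intro v _
    by_cases hw : reqU μ u w ⊆ T <;> by_cases hv : reqU μ u' v ⊆ T <;> simp [hw, hv, union_subset_iff]
  simp_rw [h1]
  have h2 : ∑ T : Finset (EdgeW L G b), ∑ u : G, ∑ u' : G, ∑ w : Fin L → Fin b, ∑ v : Fin L → Fin b,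
      (if reqU μ u w ∪ reqU μ u' v ⊆ T then z ^ T.card else 0) =
      ∑ u : G, ∑ u' : G, ∑ w : Fin L → Fin b, ∑ v : Fin L → Fin b, ∑ T : Finset (EdgeW L G b),
        (if reqU μ u w ∪ reqU μ u' v ⊆ T then z ^ T.card else 0) := by
    rw [Finset.sum_comm]
    apply Finset.sum_congr rfl
    intro u _
    rw [Finset.sum_comm]
    apply Finset.sum_congr rfl
    intro u' _
    rw [Finset.sum_comm]
    apply Finset.sum_congr rfl
    intro w _
    rw [Finset.sum_comm]
  rw [h2]
  simp_rw [sum_superset z hz, pow_reqU_union]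
  simp_rw [← Finset.mul_sum]
  congr 1
  have h3 : ∀ u u' : G, ∑ w : Fin L → Fin b, ∑ v : Fin L → Fin b,
      ∏ i : Fin L, wtP (z / (1 + z)) (pos μ 0 u w i - pos μ 0 u' v i) (w i) (v i) =
      pairP (z / (1 + z)) μ L 0 (u - u') := fun u u' => (pairP_eq _ μ L 0 u u').symm
  simp_rw [h3]
  have h4 : ∀ u : G, ∑ u' : G, pairP (z / (1 + z)) μ L 0 (u - u') =
      ∑ δ, pairP (z / (1 + z)) μ L 0 δ := by
    intro u
    exact Equiv.sum_comp (Equiv.subLeft u) (fun δ => pairP (z / (1 + z)) μ L 0 δ)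
  simp_rw [h4]
  rw [Finset.sum_const, card_univ, nsmul_eq_mul]

open Classical in
/-- The inequality of Cauchy and Schwarz, for the weight of the admissible sets of one class. -/
theorem mass_mul_ge (μ : ℕ → Fin b → G) {v : ℚ}
    (hv : (∑ δ, pairP (z / (1 + z)) μ L 0 δ) / Fintype.card G ≤ v) :
    (1 + z) ^ Fintype.card (EdgeW L G b) * yP (z / (1 + z)) b ^ (2 * L) ≤
      (∑ T ∈ univ.filter (fun T : Finset (EdgeW L G b) => ∃ u w, reqU μ u w ⊆ T), z ^ T.card) * v := by
  set Adm := univ.filter (fun T : Finset (EdgeW L G b) => ∃ u w, reqU μ u w ⊆ T) with hAdm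
  set N := Fintype.card (EdgeW L G b) with hN
  have hW : (0 : ℚ) < Fintype.card G := by
    exact_mod_cast Fintype.card_pos
  have hzero : ∀ T : Finset (EdgeW L G b), T ∉ Adm → countU μ T = 0 := by
    intro T hT
    apply Finset.sum_eq_zero
    intro u _
    apply Finset.sum_eq_zero
    intro w _
    rw [if_neg]
    intro h
    exact hT (mem_filter.mpr ⟨mem_univ _, u, w, h⟩)
  have hcount0 : ∀ T : Finset (EdgeW L G b), 0 ≤ countU μ T := by
    intro T
    apply Finset.sum_nonneg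
    intro u _
    apply Finset.sum_nonneg
    intro w _
    split_ifs <;> norm_num
  have h1 : ∑ T ∈ Adm, z ^ T.card * countU μ T = ∑ T, z ^ T.card * countU μ T :=
    Finset.sum_subset (subset_univ _) (fun T _ hT => by rw [hzero T hT, mul_zero])
  have h2 : ∑ T ∈ Adm, z ^ T.card * countU μ T ^ 2 = ∑ T, z ^ T.card * countU μ T ^ 2 :=
    Finset.sum_subset (subset_univ _) (fun T _ hT => by rw [hzero T hT]; simp)
  have hcs := Finset.sum_sq_le_sum_mul_sum_of_sq_le_mul Adm (r := fun T => z ^ T.card * countU μ T)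
    (f := fun T => z ^ T.card) (g := fun T => z ^ T.card * countU μ T ^ 2)
    (fun T _ => by positivity) (fun T _ => by positivity) (fun T _ => le_of_eq (by ring))
  rw [h1, h2, sum_countU z hz, sum_countU_sq z hz] at hcs
  set Mass := ∑ T ∈ Adm, z ^ T.card with hMass
  have hMass0 : 0 ≤ Mass := Finset.sum_nonneg (fun T _ => by positivity)
  set y := yP (z / (1 + z)) b with hy
  set Sm := ∑ δ, pairP (z / (1 + z)) μ L 0 δ with hSm
  set w' := (Fintype.card G : ℚ) with hw'
  have hNpos : (0 : ℚ) < (1 + z) ^ N := by positivity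
  have hSmle : Sm ≤ v * w' := by
    rw [div_le_iff₀ hW] at hv
    exact hv
  have h3 : ((1 + z) ^ N * (w' * y ^ L)) ^ 2 ≤ Mass * ((1 + z) ^ N * (w' * (v * w'))) := by
    refine hcs.trans ?_
    apply mul_le_mul_of_nonneg_left _ hMass0
    apply mul_le_mul_of_nonneg_left _ hNpos.le
    exact mul_le_mul_of_nonneg_left hSmle hW.le
  have h4 : ((1 + z) ^ N * (w' * y ^ L)) ^ 2 =
      ((1 + z) ^ N * w' * w') * ((1 + z) ^ N * y ^ (2 * L)) := by
    rw [mul_comm 2 L, pow_mul]
    ring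
  have h5 : Mass * ((1 + z) ^ N * (w' * (v * w'))) = ((1 + z) ^ N * w' * w') * (Mass * v) := by ring
  rw [h4, h5] at h3
  have h6 : 0 < (1 + z) ^ N * w' * w' := by positivity
  exact le_of_mul_le_mul_left h3 h6

end Moments

section Params

/-- The partial geometric sum of the weights of the letters. -/
lemma yP_mul (p : ℚ) (b : ℕ) : (1 - p) * yP p b = p * (1 - p ^ b) := by
  simp only [yP]
  rw [Fin.sum_univ_eq_sum_range (fun i => p ^ (i + 1)) b]
  induction b with
  | zero => simp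
  | succ b ih =>
    rw [Finset.sum_range_succ, mul_add, ih]
    ring

/-- The sum of the weights of the letters, for the weight `z / (1 + z)`. -/
lemma yP_eq {z : ℚ} (hz : 0 ≤ z) (b : ℕ) :
    yP (z / (1 + z)) b = z * (1 - (z / (1 + z)) ^ b) := by
  have h1 : 1 + z ≠ 0 := by positivity
  have h2 := yP_mul (z / (1 + z)) b
  have h3 : 1 - z / (1 + z) = 1 / (1 + z) := by
    field_simp
    ring
  rw [h3] at h2
  have h4 : yP (z / (1 + z)) b = (1 + z) * ((1 / (1 + z)) * yP (z / (1 + z)) b) := by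
    field_simp
  rw [h4, h2]
  field_simp

/-- A lower bound for a power of `1 - 1 / h`. -/
lemma one_sub_inv_pow_ge (h0 : ℕ) (hh : 1 ≤ h0) :
    (1 / 4 : ℚ) ≤ (1 - 1 / ((2 * h0 : ℕ) : ℚ)) ^ (2 * h0) := by
  have hpos : (0 : ℚ) < ((2 * h0 : ℕ) : ℚ) := by
    have : 0 < 2 * h0 := by omega
    exact_mod_cast this
  have hx : (-2 : ℚ) ≤ -(1 / ((2 * h0 : ℕ) : ℚ)) := by
    have h1 : (1 : ℚ) ≤ ((2 * h0 : ℕ) : ℚ) := by
      have : 1 ≤ 2 * h0 := by omega
      exact_mod_cast this
    have h2 : 1 / ((2 * h0 : ℕ) : ℚ) ≤ 1 := by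
      rw [div_le_one hpos]
      exact h1
    linarith
  have hb := one_add_mul_le_pow hx h0
  have e : (h0 : ℚ) * (-(1 / ((2 * h0 : ℕ) : ℚ))) = -(1 / 2) := by
    push_cast
    have : (h0 : ℚ) ≠ 0 := by
      have : 0 < h0 := by omega
      positivity
    field_simp
  rw [e] at hb
  have e2 : (1 - 1 / ((2 * h0 : ℕ) : ℚ)) ^ (2 * h0) = ((1 - 1 / ((2 * h0 : ℕ) : ℚ)) ^ h0) ^ 2 := by
    rw [← pow_mul, mul_comm]
  rw [e2]
  have e3 : 1 + -(1 / ((2 * h0 : ℕ) : ℚ)) = 1 - 1 / ((2 * h0 : ℕ) : ℚ) := by ring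
  rw [e3] at hb
  nlinarith

/-- A lower bound for a power of the mass, for the level counts in use. -/
lemma mass_bounds (h0 : ℕ) (hh : 2 ≤ h0) :
    let h : ℚ := ((2 * h0 : ℕ) : ℚ)
    let z : ℚ := 1 - 1 / h
    let y : ℚ := yP (z / (1 + z)) (24 * h0 + 3)
    0 ≤ z ∧ z ≤ 1 ∧ z / (1 + z) ≤ 1 / 2 ∧ 21 / 32 ≤ y ∧ y ≤ z ∧ 1 / h ≤ 1 - y ∧ 7 / 8 * (1 / 4) ^ 12 ≤ y ^ (24 * h0) := by
  intro h z y
  have hh1 : (4 : ℚ) ≤ h := by
    have : 4 ≤ 2 * h0 := by omega
    simp only [h]
    exact_mod_cast this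
  have hinv : 1 / h ≤ 1 / 4 := one_div_le_one_div_of_le (by norm_num) hh1
  have hinv0 : 0 < 1 / h := by positivity
  have hz0 : 0 ≤ z := by
    simp only [z]
    linarith
  have hz1 : z ≤ 1 := by
    simp only [z]
    linarith
  have hz34 : 3 / 4 ≤ z := by
    simp only [z]
    linarith
  have hp0 : 0 ≤ z / (1 + z) := by positivity
  have hp2 : z / (1 + z) ≤ 1 / 2 := by
    rw [div_le_iff₀ (by positivity)]
    linarith
  have hpb : (z / (1 + z)) ^ (24 * h0 + 3) ≤ (1 / 2) ^ (24 * h0 + 3) :=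
    pow_le_pow_left₀ hp0 hp2 _
  have hyeq : y = z * (1 - (z / (1 + z)) ^ (24 * h0 + 3)) := yP_eq hz0 _
  have hpb0 : 0 ≤ (z / (1 + z)) ^ (24 * h0 + 3) := by positivity
  have hsmall : ((1 : ℚ) / 2) ^ (24 * h0 + 3) ≤ 1 / 8 := by
    have : ((1 : ℚ) / 2) ^ (24 * h0 + 3) = (1 / 2) ^ (24 * h0) * (1 / 8) := by
      rw [pow_add]
      norm_num
    rw [this]
    have h2 : ((1 : ℚ) / 2) ^ (24 * h0) ≤ 1 := pow_le_one₀ (by norm_num) (by norm_num)
    nlinarith
  have hyz : y ≤ z := by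
    rw [hyeq]
    nlinarith
  have hy21 : 21 / 32 ≤ y := by
    rw [hyeq]
    nlinarith
  have hy1 : 1 / h ≤ 1 - y := by
    have : z = 1 - 1 / h := rfl
    linarith
  refine ⟨hz0, hz1, hp2, hy21, hyz, hy1, ?_⟩
  -- the power
  set L := 24 * h0 with hL
  have hpow1 : (1 / 4 : ℚ) ≤ z ^ (2 * h0) := one_sub_inv_pow_ge h0 (by omega)
  have hpow2 : (1 / 4 : ℚ) ^ 12 ≤ z ^ L := by
    have e : z ^ L = (z ^ (2 * h0)) ^ 12 := by
      rw [← pow_mul, hL]
      congr 1
      ring
    rw [e]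
    exact pow_le_pow_left₀ (by norm_num) hpow1 12
  have hq : (7 / 8 : ℚ) ≤ (1 - (z / (1 + z)) ^ (L + 3)) ^ L := by
    have hx : (-2 : ℚ) ≤ -((z / (1 + z)) ^ (L + 3)) := by
      have : (z / (1 + z)) ^ (L + 3) ≤ 1 := pow_le_one₀ hp0 (by linarith)
      linarith
    have hb := one_add_mul_le_pow hx L
    have e : 1 + -((z / (1 + z)) ^ (L + 3)) = 1 - (z / (1 + z)) ^ (L + 3) := by ring
    rw [e] at hb
    refine le_trans ?_ hb
    have h3 : (L : ℚ) ≤ 2 ^ L := by exact_mod_cast Nat.lt_two_pow_self.le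
    have h4 : ((1 : ℚ) / 2) ^ (L + 3) = (1 / 2) ^ L * (1 / 8) := by
      rw [pow_add]
      norm_num
    have h5 : (L : ℚ) * (1 / 2) ^ L ≤ 1 := by
      have h6 : ((1 : ℚ) / 2) ^ L * 2 ^ L = 1 := by
        rw [← mul_pow]
        norm_num
      have h7 : (0 : ℚ) ≤ (1 / 2) ^ L := by positivity
      nlinarith
    have h8 : (L : ℚ) * (z / (1 + z)) ^ (L + 3) ≤ L * ((1 / 2) ^ (L + 3)) :=
      mul_le_mul_of_nonneg_left hpb (by positivity)
    rw [h4] at h8
    nlinarith
  rw [hyeq, mul_pow]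
  have h9 : (0 : ℚ) ≤ (1 - (z / (1 + z)) ^ (L + 3)) ^ L := by
    have : (z / (1 + z)) ^ (L + 3) ≤ 1 := pow_le_one₀ hp0 (by linarith)
    have h10 : 0 ≤ 1 - (z / (1 + z)) ^ (L + 3) := by linarith
    positivity
  have h11 : (0 : ℚ) ≤ z ^ L := by positivity
  have h12 : 7 / 8 * (1 / 4 : ℚ) ^ 12 = (1 / 4 : ℚ) ^ 12 * (7 / 8) := by ring
  rw [h12]
  exact mul_le_mul hpow2 hq (by norm_num) h11

end Params

/-- The walks of one class: there are steps for which the admissible sets have a weight which is at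
least a constant fraction of all sets. -/
theorem exists_class_walks (h0 : ℕ) (hh : 2 ≤ h0) (G : Type) [AddCommGroup G] [Fintype G] [DecidableEq G]
    (hG : Fintype.card G = 1000 * (2 * h0) ^ 2) :
    ∃ μ : ℕ → Fin (24 * h0 + 3) → G,
      open Classical in
      (1 + (1 - 1 / ((2 * h0 : ℕ) : ℚ))) ^ Fintype.card (EdgeW (24 * h0) G (24 * h0 + 3)) * (1 / 200000) ≤
        ∑ T ∈ univ.filter (fun T : Finset (EdgeW (24 * h0) G (24 * h0 + 3)) => ∃ u w, reqU μ u w ⊆ T),
          (1 - 1 / ((2 * h0 : ℕ) : ℚ)) ^ T.card := by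
  classical
  obtain ⟨hz0, hz1, hp2, hy21, hyz, hy1, hyL⟩ := mass_bounds h0 hh
  set h : ℚ := ((2 * h0 : ℕ) : ℚ) with hhdef
  set z : ℚ := 1 - 1 / h with hz
  set p : ℚ := z / (1 + z) with hp
  set y : ℚ := yP p (24 * h0 + 3) with hy
  have hp0 : 0 ≤ p := by positivity
  have hh1 : (4 : ℚ) ≤ h := by
    have : 4 ≤ 2 * h0 := by omega
    simp only [hhdef]
    exact_mod_cast this
  have hy0 : 0 < y := by linarith
  have hy1' : y < 1 := by
    have : 0 < 1 / h := by positivity
    linarith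
  have h1y : 0 < 1 - y := by linarith
  have hcard : (Fintype.card G : ℚ) = 1000 * h ^ 2 := by
    rw [hG, hhdef]
    push_cast
    ring
  -- the constants
  let κ : ℚ := 1 / 100
  let A : ℚ := 10 * h
  let τ : ℚ := 2
  let D1 : ℚ := τ / (y * (1 - y))
  let D2 : ℚ := τ * κ / y
  have hD1 : D1 * (y * (1 - y)) = τ := by
    simp only [D1]
    field_simp
  have hD2 : D2 * y = τ * κ := by
    simp only [D2]
    field_simp
  have hD1nn : 0 ≤ D1 := by
    simp only [D1, τ]
    positivity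
  have hD2nn : 0 ≤ D2 := by
    simp only [D2, τ, κ]
    positivity
  have hA : A ≤ κ * (1 - y) * Fintype.card G := by
    rw [hcard]
    simp only [A, κ]
    have hhpos : 0 < h := by linarith
    have h2 : 1 ≤ (1 - y) * h := by
      rw [div_le_iff₀ hhpos] at hy1
      exact hy1
    nlinarith
  have hinv : 1 / (1 - y) ≤ h := by
    rw [div_le_iff₀ h1y]
    have hhpos : 0 < h := by linarith
    rw [div_le_iff₀ hhpos] at hy1
    linarith
  have hinvy : 1 / y ≤ 32 / 21 := by
    rw [div_le_iff₀ hy0]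
    linarith
  have hD1le : D1 ≤ 4 * h := by
    have e : D1 = 2 * (1 / y) * (1 / (1 - y)) := by
      simp only [D1, τ]
      field_simp
    rw [e]
    have h0' : 0 ≤ 1 / (1 - y) := by positivity
    have h3 : (1 / y) * (1 / (1 - y)) ≤ (32 / 21) * h :=
      mul_le_mul hinvy hinv h0' (by norm_num)
    nlinarith
  have hD2le : D2 ≤ 1 / 25 := by
    have e : D2 = (1 / 50) * (1 / y) := by
      simp only [D2, τ, κ]
      field_simp
      norm_num
    rw [e]
    nlinarith
  have hLcast : ((24 * h0 : ℕ) : ℚ) = 12 * h := by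
    rw [hhdef]
    push_cast
    ring
  have hL : 1 + D1 + ((24 * h0 : ℕ) : ℚ) * D2 ≤ A := by
    rw [hLcast]
    simp only [A]
    have hh0 : 0 ≤ h := by linarith
    have h5 : 12 * h * D2 ≤ 12 * h * (1 / 25) := mul_le_mul_of_nonneg_left hD2le (by positivity)
    linarith
  obtain ⟨μ, _, hμ⟩ := exists_shiftsP (G := G) (b := 24 * h0 + 3) hp0 (y := y) (τ := τ) (κ := κ) (A := A)
    (D1 := D1) (D2 := D2) rfl hy0 hy1' (tauP_le_two hp0 hp2 _) (by norm_num [κ]) hA hD1 hD2 hD1nn hD2nn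
    (24 * h0) hL (24 * h0) le_rfl
  refine ⟨μ, ?_⟩
  have hmom := mass_mul_ge z hz0 μ hμ
  simp only [← hp, ← hy] at hmom
  set Mass := ∑ T ∈ univ.filter (fun T : Finset (EdgeW (24 * h0) G (24 * h0 + 3)) => ∃ u w, reqU μ u w ⊆ T),
    z ^ T.card with hMass
  set N := Fintype.card (EdgeW (24 * h0) G (24 * h0 + 3)) with hN
  set Y := y ^ (24 * h0) with hY
  have hYpos : 0 < Y := by positivity
  have hYlow : 7 / 8 * (1 / 4 : ℚ) ^ 12 ≤ Y := hyL
  have hpow2 : y ^ (2 * (24 * h0)) = Y * Y := by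
    rw [hY, two_mul, pow_add]
  rw [hpow2] at hmom
  have hNpos : (0 : ℚ) < (1 + z) ^ N := by positivity
  have hMass0 : 0 ≤ Mass := Finset.sum_nonneg (fun T _ => by positivity)
  have h1 : Y * ((1 + z) ^ N * Y) ≤ Y * (Mass * (Y + κ)) := by
    have e1 : Y * ((1 + z) ^ N * Y) = (1 + z) ^ N * (Y * Y) := by ring
    have e2 : Y * (Mass * (Y + κ)) = Mass * (Y * Y + κ * Y) := by ring
    rw [e1, e2]
    exact hmom
  have h2 : (1 + z) ^ N * Y ≤ Mass * (Y + κ) := le_of_mul_le_mul_left h1 hYpos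
  have hκ : κ ≤ 199999 * Y := by
    simp only [κ]
    have : (1 / 100 : ℚ) ≤ 199999 * (7 / 8 * (1 / 4) ^ 12) := by norm_num
    linarith
  have h3 : Mass * (Y + κ) ≤ Mass * (200000 * Y) :=
    mul_le_mul_of_nonneg_left (by linarith) hMass0
  have h4 : (1 + z) ^ N * Y ≤ (Mass * 200000) * Y := by
    calc (1 + z) ^ N * Y ≤ Mass * (Y + κ) := h2
      _ ≤ Mass * (200000 * Y) := h3
      _ = (Mass * 200000) * Y := by ring
  have h5 := le_of_mul_le_mul_right h4 hYpos
  linarith

end Vale.Agent.Lib.P346.Fq
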