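import Vale.Agent.Lib.P346.Fq.Fn

/-!
The rank inequality: a family of functions with distinct leading coefficients on a set of points closed
under taking subsets, which on all but a few of the points lies in a space with few generators.
-/

namespace Vale.Agent.Lib.P346.Fq

open Finset

set_option linter.unusedSectionVars false

variable {K E : Type} [Field K] [Fintype E] [DecidableEq E]

/-- The triangularity argument: a combination of the functions `ρ T` that vanishes on a set closed under
taking subsets has zero coefficients. -/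
lemma triangular_zero (Y A : Finset (Finset E))
    (hdown : ∀ x ∈ Y, ∀ x', x' ⊆ x → x' ∈ Y) (hA : A ⊆ Y)
    (ρ : Finset E → Finset E → K) (ord : Finset E → ℕ) (hord : Set.InjOn ord (A : Set (Finset E)))
    (h1 : ∀ T ∈ A, mob K T (ρ T) = 1)
    (h2 : ∀ T ∈ A, ∀ V ∈ A, ord T < ord V → mob K V (ρ T) = 0)
    (l : Finset E → K) (hl : ∀ x ∈ Y, ∑ T ∈ A, l T * ρ T x = 0) :
    ∀ T ∈ A, l T = 0 := by
  classical
  by_contra hcon
  push Not at hcon
  have hne : (A.filter (fun T => l T ≠ 0)).Nonempty := by
    obtain ⟨T, hT, hT'⟩ := hcon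
    exact ⟨T, mem_filter.mpr ⟨hT, hT'⟩⟩
  obtain ⟨T0, hT0, hmax⟩ := exists_max_image _ ord hne
  have hT0A := (mem_filter.mp hT0).1
  have hT0l := (mem_filter.mp hT0).2
  have hY0 := hA hT0A
  have hzero : mob K T0 (fun x => ∑ T ∈ A, l T * ρ T x) = 0 := by
    have : mob K T0 (fun x => ∑ T ∈ A, l T * ρ T x) = mob K T0 (fun _ => 0) :=
      mob_congr T0 (fun x hx => hl x (hdown _ hY0 _ hx))
    rw [this]
    have h3 : (fun _ : Finset E => (0 : K)) = 0 := rfl
    rw [h3, map_zero]
  have hexp : (fun x => ∑ T ∈ A, l T * ρ T x) = ∑ T ∈ A, l T • ρ T := by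
    funext x
    simp [Finset.sum_apply]
  rw [hexp, map_sum] at hzero
  rw [Finset.sum_eq_single T0] at hzero
  · rw [map_smul, h1 T0 hT0A, smul_eq_mul, mul_one] at hzero
    exact hT0l hzero
  · intro T hT hne
    by_cases hlT : l T = 0
    · rw [hlT, zero_smul, map_zero]
    · have hle := hmax T (mem_filter.mpr ⟨hT, hlT⟩)
      have hlt : ord T < ord T0 := by
        apply lt_of_le_of_ne hle
        intro heq
        exact hne (hord hT hT0A heq)
      rw [map_smul, h2 T hT T0 hT0A hlt, smul_zero]
  · intro h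
    exact absurd hT0A h

/-- The rank inequality. -/
theorem rank_ineq {ι : Type} [Fintype ι] (Y Bad A : Finset (Finset E))
    (hdown : ∀ x ∈ Y, ∀ x', x' ⊆ x → x' ∈ Y) (hA : A ⊆ Y)
    (ρ : Finset E → Finset E → K) (ord : Finset E → ℕ) (hord : Set.InjOn ord (A : Set (Finset E)))
    (h1 : ∀ T ∈ A, mob K T (ρ T) = 1)
    (h2 : ∀ T ∈ A, ∀ V ∈ A, ord T < ord V → mob K V (ρ T) = 0)
    (gen : ι → Finset E → K)
    (hgen : ∀ T ∈ A, ∃ g ∈ Submodule.span K (Set.range gen), ∀ x ∈ Y, x ∉ Bad → ρ T x = g x) :
    A.card ≤ (Y ∩ Bad).card + Fintype.card ι := by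
  classical
  -- the points outside the bad set, and the bad points
  let X : Finset (Finset E) := Y \ Bad
  let Z : Finset (Finset E) := Y ∩ Bad
  let res : (Finset E → K) →ₗ[K] (X → K) := LinearMap.funLeft K K (fun x : X => x.1)
  let W : Submodule K (X → K) := Submodule.span K (Set.range (fun i => res (gen i)))
  have hWfr : Module.finrank K W ≤ Fintype.card ι := by
    have := finrank_range_le_card (R := K) (fun i => res (gen i))
    exact this
  -- the map from coefficients
  let Φ : (A → K) →ₗ[K] (Finset E → K) :=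
    { toFun := fun l => ∑ T : A, l T • ρ T.1
      map_add' := by
        intro a b
        simp [add_smul, Finset.sum_add_distrib]
      map_smul' := by
        intro c a
        simp [mul_smul, Finset.smul_sum] }
  have hΦ : ∀ l x, Φ l x = ∑ T : A, l T * ρ T.1 x := by
    intro l x
    simp [Φ, Finset.sum_apply]
  have hmemW : ∀ l, res (Φ l) ∈ W := by
    intro l
    have h3 : res (Φ l) = ∑ T : A, l T • res (ρ T.1) := by
      simp [Φ, map_sum]
    rw [h3]
    apply Submodule.sum_mem
    intro T _
    apply Submodule.smul_mem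
    obtain ⟨g, hg, hgx⟩ := hgen T.1 T.2
    have h4 : res (ρ T.1) = res g := by
      funext x
      have hx := x.2
      have hx' := mem_sdiff.mp hx
      exact hgx x.1 hx'.1 hx'.2
    rw [h4]
    have h5 : res g ∈ Submodule.map res (Submodule.span K (Set.range gen)) :=
      Submodule.mem_map_of_mem hg
    rw [Submodule.map_span, ← Set.range_comp] at h5
    exact h5
  let Θ : (A → K) →ₗ[K] (W × (Z → K)) :=
    LinearMap.prod ((res.comp Φ).codRestrict W hmemW)
      ((LinearMap.funLeft K K (fun x : Z => x.1)).comp Φ)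
  have hinj : Function.Injective Θ := by
    rw [← LinearMap.ker_eq_bot, LinearMap.ker_eq_bot']
    intro l hl
    have hl1 : ∀ x : X, Φ l x.1 = 0 := by
      intro x
      have h6 := congrArg (fun p => (p.1 : X → K) x) hl
      simpa [Θ, res, LinearMap.funLeft_apply] using h6
    have hl2 : ∀ x : Z, Φ l x.1 = 0 := by
      intro x
      have h6 := congrArg (fun p => p.2 x) hl
      simpa [Θ, LinearMap.funLeft_apply] using h6
    have hall : ∀ x ∈ Y, Φ l x = 0 := by
      intro x hx
      by_cases hb : x ∈ Bad
      · exact hl2 ⟨x, mem_inter.mpr ⟨hx, hb⟩⟩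
      · exact hl1 ⟨x, mem_sdiff.mpr ⟨hx, hb⟩⟩
    -- extend the coefficients to all sets
    let l' : Finset E → K := fun T => if h : T ∈ A then l ⟨T, h⟩ else 0
    have hsum : ∀ x ∈ Y, ∑ T ∈ A, l' T * ρ T x = 0 := by
      intro x hx
      have h7 := hall x hx
      rw [hΦ] at h7
      rw [← h7, ← Finset.sum_coe_sort A]
      apply Finset.sum_congr rfl
      intro T _
      simp [l']
    have hz := triangular_zero Y A hdown hA ρ ord hord h1 h2 l' hsum
    funext T
    have h8 := hz T.1 T.2
    simpa [l'] using h8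
  have hfr := LinearMap.finrank_le_finrank_of_injective hinj
  rw [Module.finrank_prod, Module.finrank_fintype_fun_eq_card, Module.finrank_fintype_fun_eq_card]
    at hfr
  simp only [Fintype.card_coe] at hfr
  have h9 : Z.card = (Y ∩ Bad).card := rfl
  omega

end Vale.Agent.Lib.P346.Fq
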