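import Vale.Agent.Lib.P346.Fq.Large
import Vale.Agent.Lib.P346.Fq.Rank

/-!
The coefficients of a product of polynomials: on good points they are combinations of partial products of
the factors with coefficients of low degree. The factors of a product gate of layer two are first put
together in few groups, using the formal degrees.
-/

namespace Vale.Agent.Lib.P346.Fq

open Finset MvPolynomial
open Vale.Agent.Lib.P346 (Circuit)

set_option linter.unusedSectionVars false

variable {K σ E : Type} [Field K] [Fintype σ] [DecidableEq σ]
  [Fintype E] [DecidableEq E] {m : ℕ}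

section Repr

variable {β : σ → K} {var : E → σ} {cc : E → K} {lam : σ → MvPolynomial (Fin m) K}

/-- The representation of the coefficients of a product. -/
theorem prod_repr {ι : Type} [DecidableEq ι] (hlam : ∀ v, constantCoeff (lam v) = 0)
    (Good : Finset E → Prop) (Δ : ℕ) (G : ι → MvPolynomial σ K) (J : Finset ι)
    (hG : ∀ j ∈ J, ∀ B : Finset (Fin m), B.Nonempty →
      ∃ h ∈ DegK K E (B.card * Δ), ∀ x, Good x → co B (psi (yy β var cc x) lam (G j)) = h x) :
    ∀ B : Finset (Fin m), ∃ H : Finset ι → Finset E → K, (∀ L, H L ∈ DegK K E (B.card * Δ)) ∧
      ∀ x, Good x → co B (psi (yy β var cc x) lam (∏ j ∈ J, G j)) =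
        ∑ L ∈ J.powerset, (∏ j ∈ J \ L, eval (yy β var cc x) (G j)) * H L x := by
  classical
  induction J using Finset.induction_on with
  | empty =>
    intro B
    refine ⟨fun _ _ => co B (1 : MvPolynomial (Fin m) K), fun _ => const_mem_DegK _ _, ?_⟩
    intro x _
    simp
  | insert a J ha ih =>
    have ih' := ih (fun j hj => hG j (mem_insert_of_mem hj))
    choose Hr hHr1 hHr2 using ih'
    have hga : ∀ B : Finset (Fin m), ∃ h : Finset E → K, h ∈ DegK K E (B.card * Δ) ∧
        (B.Nonempty → ∀ x, Good x → co B (psi (yy β var cc x) lam (G a)) = h x) := by
      intro B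
      by_cases hB : B.Nonempty
      · obtain ⟨h, h1, h2⟩ := hG a (mem_insert_self _ _) B hB
        exact ⟨h, h1, fun _ => h2⟩
      · exact ⟨0, Submodule.zero_mem _, fun h => absurd h hB⟩
    choose ga hga1 hga2 using hga
    intro B
    refine ⟨fun L => if a ∈ L then
        ∑ B' ∈ B.powerset.erase ∅, ga B' * Hr (B \ B') (L.erase a) else Hr B L, ?_, ?_⟩
    · intro L
      by_cases haL : a ∈ L
      · simp only [if_pos haL]
        apply Submodule.sum_mem
        intro B' hB'
        have hsub : B' ⊆ B := mem_powerset.mp (mem_erase.mp hB').2
        have h1 := mul_mem_DegK (hga1 B') (hHr1 (B \ B') (L.erase a))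
        have h2 : B'.card * Δ + (B \ B').card * Δ = B.card * Δ := by
          rw [← add_mul, card_sdiff_of_subset hsub]
          have := card_le_card hsub
          congr 1
          omega
        rwa [h2] at h1
      · simp only [if_neg haL]
        exact hHr1 B L
    · intro x hx
      rw [prod_insert ha, map_mul, co_mul, ← Finset.add_sum_erase _ _ (empty_mem_powerset B)]
      rw [sum_powerset_insert ha]
      -- the first term
      have hfirst : co ∅ (psi (yy β var cc x) lam (G a)) *
          co (B \ ∅) (psi (yy β var cc x) lam (∏ j ∈ J, G j)) =
          ∑ L ∈ J.powerset, (∏ j ∈ (insert a J) \ L, eval (yy β var cc x) (G j)) *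
            (if a ∈ L then
              ∑ B' ∈ B.powerset.erase ∅, ga B' * Hr (B \ B') (L.erase a) else Hr B L) x := by
        rw [co_empty, constantCoeff_psi _ _ hlam, sdiff_empty, hHr2 B x hx, Finset.mul_sum]
        apply Finset.sum_congr rfl
        intro L hL
        have haL : a ∉ L := fun h => ha (mem_powerset.mp hL h)
        have e1 : (insert a J) \ L = insert a (J \ L) := by
          ext z
          simp only [mem_sdiff, mem_insert]
          constructor
          · rintro ⟨h1 | h1, h2⟩
            · exact Or.inl h1
            · exact Or.inr ⟨h1, h2⟩
          · rintro (h1 | ⟨h1, h2⟩)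
            · subst h1
              exact ⟨Or.inl rfl, haL⟩
            · exact ⟨Or.inr h1, h2⟩
        rw [e1, prod_insert (fun h => ha (mem_sdiff.mp h).1), if_neg haL, mul_assoc]
      -- the other terms
      have hrest : ∑ B' ∈ B.powerset.erase ∅, co B' (psi (yy β var cc x) lam (G a)) *
          co (B \ B') (psi (yy β var cc x) lam (∏ j ∈ J, G j)) =
          ∑ L ∈ J.powerset, (∏ j ∈ (insert a J) \ (insert a L), eval (yy β var cc x) (G j)) *
            (if a ∈ insert a L then
              ∑ B' ∈ B.powerset.erase ∅, ga B' * Hr (B \ B') ((insert a L).erase a) else Hr B (insert a L)) x := by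
        have hterm : ∀ L ∈ J.powerset,
            (∏ j ∈ (insert a J) \ (insert a L), eval (yy β var cc x) (G j)) *
            (if a ∈ insert a L then
              ∑ B' ∈ B.powerset.erase ∅, ga B' * Hr (B \ B') ((insert a L).erase a) else Hr B (insert a L)) x =
            ∑ B' ∈ B.powerset.erase ∅, ga B' x *
              ((∏ j ∈ J \ L, eval (yy β var cc x) (G j)) * Hr (B \ B') L x) := by
          intro L hL
          have haL : a ∉ L := fun h => ha (mem_powerset.mp hL h)
          have e1 : (insert a J) \ (insert a L) = J \ L := by
            ext z
            simp only [mem_sdiff, mem_insert, not_or]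
            constructor
            · rintro ⟨h1 | h1, h2, h3⟩
              · exact absurd h1 h2
              · exact ⟨h1, h3⟩
            · rintro ⟨h1, h2⟩
              refine ⟨Or.inr h1, ?_, h2⟩
              rintro rfl
              exact ha h1
          rw [e1, if_pos (mem_insert_self _ _), erase_insert haL, Finset.sum_apply, Finset.mul_sum]
          apply Finset.sum_congr rfl
          intro B' _
          simp only [Pi.mul_apply]
          ring
        rw [Finset.sum_congr rfl hterm, Finset.sum_comm]
        apply Finset.sum_congr rfl
        intro B' hB'
        have hne : B'.Nonempty := by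
          rw [nonempty_iff_ne_empty]
          exact (mem_erase.mp hB').1
        rw [hga2 B' hne x hx, hHr2 (B \ B') x hx, Finset.mul_sum]
      rw [hfirst, hrest]

end Repr

section Grouping

variable {I : Type} [DecidableEq I]

/-- Elements with weights can be put into few bins, where each bin is either a single element of weight at
least `e0` or has total weight below `2 * e0`. -/
lemma exists_grouping (s : Finset I) (w : I → ℕ) (e0 : ℕ) (he0 : 0 < e0) :
    ∃ (D : ℕ) (g : I → ℕ), (∀ l ∈ s, g l < D) ∧
      (∀ j < D, (∃ l ∈ s, e0 ≤ w l ∧ s.filter (fun z => g z = j) = {l}) ∨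
        ∑ z ∈ s.filter (fun z => g z = j), w z < 2 * e0) ∧
      (∀ j < D, ∀ j' < D, ∑ z ∈ s.filter (fun z => g z = j), w z < e0 →
        ∑ z ∈ s.filter (fun z => g z = j'), w z < e0 → j = j') := by
  classical
  induction s using Finset.induction_on with
  | empty =>
    exact ⟨0, fun _ => 0, by simp, by simp, by simp⟩
  | insert a s ha ih =>
    obtain ⟨D, g, hg1, hg2, hg3⟩ := ih
    -- fibers of the updated map
    have hfib_same : ∀ (v j : ℕ), j ≠ v →
        (insert a s).filter (fun z => Function.update g a v z = j) = s.filter (fun z => g z = j) := by
      intro v j hj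
      ext z
      simp only [mem_filter, mem_insert]
      constructor
      · rintro ⟨rfl | h1, h2⟩
        · simp only [Function.update_self] at h2
          exact absurd h2.symm hj
        · have hz : z ≠ a := fun h => ha (h ▸ h1)
          rw [Function.update_of_ne hz] at h2
          exact ⟨h1, h2⟩
      · rintro ⟨h1, h2⟩
        have hz : z ≠ a := fun h => ha (h ▸ h1)
        rw [Function.update_of_ne hz]
        exact ⟨Or.inr h1, h2⟩
    have hfib_new : ∀ v : ℕ,
        (insert a s).filter (fun z => Function.update g a v z = v) =
          insert a (s.filter (fun z => g z = v)) := by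
      intro v
      ext z
      simp only [mem_filter, mem_insert]
      constructor
      · rintro ⟨rfl | h1, h2⟩
        · exact Or.inl rfl
        · have hz : z ≠ a := fun h => ha (h ▸ h1)
          rw [Function.update_of_ne hz] at h2
          exact Or.inr ⟨h1, h2⟩
      · rintro (rfl | ⟨h1, h2⟩)
        · exact ⟨Or.inl rfl, by simp⟩
        · have hz : z ≠ a := fun h => ha (h ▸ h1)
          rw [Function.update_of_ne hz]
          exact ⟨Or.inr h1, h2⟩
    have hempty : s.filter (fun z => g z = D) = ∅ := by
      apply filter_eq_empty_iff.mpr
      intro z hz h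
      have := hg1 z hz
      omega
    by_cases hlarge : e0 ≤ w a
    · -- a new bin for a large element
      refine ⟨D + 1, Function.update g a D, ?_, ?_, ?_⟩
      · intro l hl
        rcases mem_insert.mp hl with rfl | hl
        · simp
        · have hz : l ≠ a := fun h => ha (h ▸ hl)
          rw [Function.update_of_ne hz]
          have := hg1 l hl
          omega
      · intro j hj
        by_cases hjD : j = D
        · subst hjD
          left
          refine ⟨a, mem_insert_self _ _, hlarge, ?_⟩
          rw [hfib_new, hempty]
          simp
        · have hj' : j < D := by omega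
          rw [hfib_same D j hjD]
          rcases hg2 j hj' with ⟨l, hl, hl2, hl3⟩ | h
          · exact Or.inl ⟨l, mem_insert_of_mem hl, hl2, hl3⟩
          · exact Or.inr h
      · intro j hj j' hj' h1 h2
        have hsmall : ∀ v, v < D + 1 →
            ∑ z ∈ (insert a s).filter (fun z => Function.update g a D z = v), w z < e0 → v < D := by
          intro v hv hs
          by_contra hcon
          have hvD : v = D := by omega
          subst hvD
          rw [hfib_new, sum_insert (fun h => ha (mem_filter.mp h).1)] at hs
          omega
        have hjD := hsmall j hj h1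
        have hjD' := hsmall j' hj' h2
        rw [hfib_same D j (by omega)] at h1
        rw [hfib_same D j' (by omega)] at h2
        exact hg3 j hjD j' hjD' h1 h2
    · -- a small element
      have hsm : w a < e0 := by omega
      by_cases hopen : ∃ o < D, ∑ z ∈ s.filter (fun z => g z = o), w z < e0
      · obtain ⟨o, ho, hoe⟩ := hopen
        refine ⟨D, Function.update g a o, ?_, ?_, ?_⟩
        · intro l hl
          rcases mem_insert.mp hl with rfl | hl
          · simpa using ho
          · have hz : l ≠ a := fun h => ha (h ▸ hl)
            rw [Function.update_of_ne hz]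
            exact hg1 l hl
        · intro j hj
          by_cases hjo : j = o
          · subst hjo
            right
            rw [hfib_new, sum_insert (fun h => ha (mem_filter.mp h).1)]
            omega
          · rw [hfib_same o j hjo]
            rcases hg2 j hj with ⟨l, hl, hl2, hl3⟩ | h
            · exact Or.inl ⟨l, mem_insert_of_mem hl, hl2, hl3⟩
            · exact Or.inr h
        · intro j hj j' hj' h1 h2
          by_cases hjo : j = o
          · by_cases hjo' : j' = o
            · rw [hjo, hjo']
            · rw [hfib_same o j' hjo'] at h2
              exact absurd (hg3 o ho j' hj' hoe h2).symm hjo'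
          · by_cases hjo' : j' = o
            · rw [hfib_same o j hjo] at h1
              exact absurd (hg3 j hj o ho h1 hoe) hjo
            · rw [hfib_same o j hjo] at h1
              rw [hfib_same o j' hjo'] at h2
              exact hg3 j hj j' hj' h1 h2
      · push Not at hopen
        refine ⟨D + 1, Function.update g a D, ?_, ?_, ?_⟩
        · intro l hl
          rcases mem_insert.mp hl with rfl | hl
          · simp
          · have hz : l ≠ a := fun h => ha (h ▸ hl)
            rw [Function.update_of_ne hz]
            have := hg1 l hl
            omega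
        · intro j hj
          by_cases hjD : j = D
          · subst hjD
            right
            rw [hfib_new, hempty]
            simp only [insert_empty_eq, sum_singleton]
            omega
          · have hj' : j < D := by omega
            rw [hfib_same D j hjD]
            rcases hg2 j hj' with ⟨l, hl, hl2, hl3⟩ | h
            · exact Or.inl ⟨l, mem_insert_of_mem hl, hl2, hl3⟩
            · exact Or.inr h
        · intro j hj j' hj' h1 h2
          have hbig : ∀ v, v < D →
              ¬ ∑ z ∈ (insert a s).filter (fun z => Function.update g a D z = v), w z < e0 := by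
            intro v hv hs
            rw [hfib_same D v (by omega)] at hs
            have := hopen v hv
            omega
          have hjD : j = D := by
            by_contra hne
            exact hbig j (by omega) h1
          have hjD' : j' = D := by
            by_contra hne
            exact hbig j' (by omega) h2
          rw [hjD, hjD']

/-- The number of bins is bounded by the total weight. -/
lemma bins_le (s : Finset I) (w : I → ℕ) (e0 : ℕ) (he0 : 0 < e0) (D : ℕ) (g : I → ℕ)
    (hg1 : ∀ l ∈ s, g l < D)
    (hg3 : ∀ j < D, ∀ j' < D, ∑ z ∈ s.filter (fun z => g z = j), w z < e0 →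
        ∑ z ∈ s.filter (fun z => g z = j'), w z < e0 → j = j') :
    D * e0 ≤ ∑ z ∈ s, w z + e0 := by
  classical
  have h1 : ∑ z ∈ s, w z = ∑ j ∈ range D, ∑ z ∈ s.filter (fun z => g z = j), w z :=
    (Finset.sum_fiberwise_of_maps_to (fun l hl => mem_range.mpr (hg1 l hl)) _).symm
  rw [h1]
  by_cases hopen : ∃ o ∈ range D, ∑ z ∈ s.filter (fun z => g z = o), w z < e0
  · obtain ⟨o, ho, hoe⟩ := hopen
    have ho' := mem_range.mp ho
    rw [← Finset.add_sum_erase _ _ ho]
    have h2 : ∀ j ∈ (range D).erase o, e0 ≤ ∑ z ∈ s.filter (fun z => g z = j), w z := by
      intro j hj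
      have hj1 := mem_erase.mp hj
      by_contra hcon
      exact hj1.1 (hg3 j (mem_range.mp hj1.2) o ho' (by omega) hoe)
    have h3 := Finset.card_nsmul_le_sum _ _ _ h2
    rw [card_erase_of_mem ho, card_range, smul_eq_mul] at h3
    have h4 : D * e0 = (D - 1) * e0 + e0 := by
      obtain ⟨D', rfl⟩ : ∃ D', D = D' + 1 := ⟨D - 1, by omega⟩
      simp only [Nat.add_sub_cancel]
      ring
    omega
  · push Not at hopen
    have h3 := Finset.card_nsmul_le_sum _ _ _ hopen
    rw [card_range, smul_eq_mul] at h3
    omega

end Grouping

end Vale.Agent.Lib.P346.Fq
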