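import Vale.Agent.Lib.P346.Fq.Cube

/-!
A uniform random shift: linearly independent affine forms vanish independently, so that few of them
vanish only with small probability.
-/

namespace Vale.Agent.Lib.P346.Fq

open Finset

set_option linter.unusedSectionVars false

variable {K E ι : Type} [Field K] [Fintype K] [DecidableEq K] [Fintype E] [DecidableEq E] [DecidableEq ι]

/-- The inequality `(1 - 1 / t) ^ t ≤ 3 / 8`. -/
lemma one_sub_inv_pow_le (t : ℕ) (ht : 0 < t) : (1 - 1 / (t : ℚ)) ^ t ≤ 3 / 8 := by
  have h : ((1 - 1 / (t : ℝ)) ^ t : ℝ) ≤ 3 / 8 := by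
    have h1 : 1 - 1 / (t : ℝ) ≤ Real.exp (- (1 / t)) := by
      have := Real.add_one_le_exp (- (1 / (t : ℝ)))
      linarith
    have htR : (1 : ℝ) ≤ t := by exact_mod_cast ht
    have hpos : (0 : ℝ) ≤ 1 - 1 / t := by
      have : 1 / (t : ℝ) ≤ 1 := by
        rw [div_le_one (by linarith)]
        exact htR
      linarith
    have hrR : (t : ℝ) ≠ 0 := by linarith
    calc (1 - 1 / (t : ℝ)) ^ t ≤ Real.exp (- (1 / t)) ^ t := pow_le_pow_left₀ hpos h1 t
      _ = Real.exp (-1) := by
        rw [← Real.exp_nat_mul]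
        congr 1
        field_simp
      _ ≤ 3 / 8 := by
        rw [Real.exp_neg]
        have h3 := Real.exp_one_gt_d9
        have h4 : (8 / 3 : ℝ) ≤ Real.exp 1 := by linarith
        have h5 : (0 : ℝ) < 8 / 3 := by norm_num
        calc (Real.exp 1)⁻¹ ≤ (8 / 3 : ℝ)⁻¹ := inv_anti₀ h5 h4
          _ = 3 / 8 := by norm_num
  have h' : (((1 - 1 / (t : ℚ)) ^ t : ℚ) : ℝ) ≤ ((3 / 8 : ℚ) : ℝ) := by
    push_cast
    exact h
  exact Rat.cast_le.mp h'

/-- The vector dual to a form which is independent of the others. -/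
lemma exists_dual_vec (α : ι → E → K) (s : Finset ι) (a : ι)
    (ha : α a ∉ Submodule.span K (α '' (s : Set ι))) :
    ∃ e : E → K, (∀ k ∈ s, dot (α k) e = 0) ∧ dot (α a) e = 1 := by
  classical
  obtain ⟨f, hf, hker⟩ := Submodule.exists_le_ker_of_notMem ha
  let e : E → K := fun i => f (Pi.single i 1) / f (α a)
  have hdot : ∀ v : E → K, dot v e = f v / f (α a) := by
    intro v
    have h1 : v = ∑ i, v i • (Pi.single i 1 : E → K) := by
      funext j
      simp [Finset.sum_apply, Pi.single_apply]
    have h2 : f v = ∑ i, v i * f (Pi.single i 1) := by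
      conv_lhs => rw [h1]
      simp [map_sum]
    rw [h2, Finset.sum_div]
    simp only [dot, e]
    apply Finset.sum_congr rfl
    intro i _
    ring
  refine ⟨e, ?_, ?_⟩
  · intro k hk
    rw [hdot]
    have h3 : α k ∈ LinearMap.ker f :=
      hker (Submodule.subset_span (Set.mem_image_of_mem _ (by exact_mod_cast hk)))
    rw [LinearMap.mem_ker.mp h3, zero_div]
  · rw [hdot, div_self hf]

/-- The weight of a shift: a factor one half for each form that vanishes. -/
def gW (α : ι → E → K) (κ : ι → K) (s : Finset ι) (c : E → K) : ℚ :=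
  ∏ k ∈ s, if κ k + dot (α k) c = 0 then 1 / 2 else 1

lemma gW_nonneg (α : ι → E → K) (κ : ι → K) (s : Finset ι) (c : E → K) : 0 ≤ gW α κ s c := by
  apply Finset.prod_nonneg
  intro k _
  split_ifs <;> norm_num

lemma dot_add_smul (α c e : E → K) (t : K) : dot α (c + t • e) = dot α c + t * dot α e := by
  simp only [dot, Pi.add_apply, Pi.smul_apply, smul_eq_mul, mul_add, Finset.sum_add_distrib,
    Finset.mul_sum]
  congr 1
  apply Finset.sum_congr rfl
  intro i _
  ring

lemma sum_ite_add_eq_zero (b : K) :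
    ∑ t : K, (if b + t = 0 then (1 / 2 : ℚ) else 1) = (Fintype.card K : ℚ) - 1 / 2 := by
  classical
  have h1 : ∀ t : K, (if b + t = 0 then (1 / 2 : ℚ) else 1) =
      1 - (if t = -b then (1 / 2 : ℚ) else 0) := by
    intro t
    by_cases h : t = -b
    · subst h
      simp
      norm_num
    · have h2 : b + t ≠ 0 := by
        intro h3
        apply h
        rw [eq_neg_iff_add_eq_zero, add_comm]
        exact h3
      simp [h, h2]
  simp_rw [h1]
  rw [Finset.sum_sub_distrib, Finset.sum_ite_eq' univ (-b)]
  simp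

/-- The expectation of the weight of a shift. -/
lemma sum_gW (α : ι → E → K) (κ : ι → K) (s : Finset ι) (hs : LinearIndepOn K α (s : Set ι)) :
    ∑ c : E → K, gW α κ s c =
      (Fintype.card K : ℚ) ^ Fintype.card E * (1 - 1 / (2 * (Fintype.card K : ℚ))) ^ s.card := by
  classical
  have hq : (0 : ℚ) < Fintype.card K := by exact_mod_cast Fintype.card_pos
  induction s using Finset.induction_on with
  | empty =>
    simp [gW, Fintype.card_fun]
  | insert a s ha ih =>
    rw [coe_insert] at hs
    have hs' := (linearIndepOn_insert (by exact_mod_cast ha)).mp hs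
    obtain ⟨e, he0, he1⟩ := exists_dual_vec α s a hs'.2
    have hstep : (Fintype.card K : ℚ) * ∑ c : E → K, gW α κ (insert a s) c =
        ((Fintype.card K : ℚ) - 1 / 2) * ∑ c : E → K, gW α κ s c := by
      have h1 : ∀ t : K, ∑ c : E → K, gW α κ (insert a s) c =
          ∑ c : E → K, gW α κ s c * (if κ a + dot (α a) c + t = 0 then (1 / 2 : ℚ) else 1) := by
        intro t
        rw [← Equiv.sum_comp (Equiv.addRight (t • e)) (fun c => gW α κ (insert a s) c)]
        apply Finset.sum_congr rfl
        intro c _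
        have e1 : (Equiv.addRight (t • e)) c = c + t • e := rfl
        simp only [gW, prod_insert ha, e1]
        rw [mul_comm]
        congr 1
        · apply Finset.prod_congr rfl
          intro k hk
          have h3 : dot (α k) (c + t • e) = dot (α k) c := by
            rw [dot_add_smul, he0 k hk, mul_zero, add_zero]
          simp only [h3]
        · have h3 : dot (α a) (c + t • e) = dot (α a) c + t := by
            rw [dot_add_smul, he1, mul_one]
          simp only [h3, add_assoc]
      have h2 : (Fintype.card K : ℚ) * ∑ c : E → K, gW α κ (insert a s) c =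
          ∑ t : K, ∑ c : E → K, gW α κ s c *
            (if κ a + dot (α a) c + t = 0 then (1 / 2 : ℚ) else 1) := by
        rw [← Finset.sum_congr rfl (fun t _ => h1 t)]
        simp
      rw [h2, Finset.sum_comm]
      simp_rw [← Finset.mul_sum, sum_ite_add_eq_zero]
      rw [← Finset.sum_mul]
      ring
    have hih := ih (by exact_mod_cast hs'.1)
    rw [hih] at hstep
    rw [card_insert_of_notMem ha, pow_succ]
    have hne : (Fintype.card K : ℚ) ≠ 0 := hq.ne'
    field_simp at hstep ⊢
    linarith

/-- Few of the forms vanish only for few shifts. -/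
theorem card_few_zeros (α : ι → E → K) (κ : ι → K) (s : Finset ι)
    (hs : LinearIndepOn K α (s : Set ι)) (j : ℕ) (hcard : s.card = 2 * Fintype.card K * j) :
    (((univ : Finset (E → K)).filter
        (fun c => (s.filter (fun k => κ k + dot (α k) c = 0)).card ≤ j)).card : ℚ) ≤
      (3 / 4) ^ j * (Fintype.card K : ℚ) ^ Fintype.card E := by
  classical
  have hq : (0 : ℚ) < Fintype.card K := by exact_mod_cast Fintype.card_pos
  set Sel := (univ : Finset (E → K)).filter
    (fun c => (s.filter (fun k => κ k + dot (α k) c = 0)).card ≤ j) with hSel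
  have h1 : ∀ c ∈ Sel, (1 : ℚ) ≤ 2 ^ j * gW α κ s c := by
    intro c hc
    have hc' := (mem_filter.mp hc).2
    have h2 : gW α κ s c = (1 / 2) ^ (s.filter (fun k => κ k + dot (α k) c = 0)).card := by
      simp only [gW]
      rw [Finset.prod_ite]
      simp
    rw [h2]
    have h3 : ((1 : ℚ) / 2) ^ j ≤ (1 / 2) ^ (s.filter (fun k => κ k + dot (α k) c = 0)).card :=
      pow_le_pow_of_le_one (by norm_num) (by norm_num) hc'
    have h4 : (2 : ℚ) ^ j * (1 / 2) ^ j = 1 := by
      rw [← mul_pow]
      norm_num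
    calc (1 : ℚ) = 2 ^ j * (1 / 2) ^ j := h4.symm
      _ ≤ _ := mul_le_mul_of_nonneg_left h3 (by positivity)
  have h5 : (Sel.card : ℚ) ≤ ∑ c ∈ Sel, 2 ^ j * gW α κ s c := by
    have := Finset.sum_le_sum h1
    simpa using this
  have h6 : ∑ c ∈ Sel, 2 ^ j * gW α κ s c ≤ ∑ c : E → K, 2 ^ j * gW α κ s c :=
    Finset.sum_le_sum_of_subset_of_nonneg (subset_univ _)
      (fun c _ _ => mul_nonneg (by positivity) (gW_nonneg _ _ _ _))
  rw [← Finset.mul_sum (s := univ), sum_gW α κ s hs, hcard] at h6
  have h7 := one_sub_inv_pow_le (2 * Fintype.card K) (by have := Fintype.card_pos (α := K); omega)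
  push_cast at h7
  have h8 : (1 - 1 / (2 * (Fintype.card K : ℚ))) ^ (2 * Fintype.card K * j) ≤ (3 / 8) ^ j := by
    rw [pow_mul]
    apply pow_le_pow_left₀ _ h7
    apply pow_nonneg
    have : 1 / (2 * (Fintype.card K : ℚ)) ≤ 1 := by
      rw [div_le_one (by positivity)]
      have : (1 : ℚ) ≤ Fintype.card K := by exact_mod_cast Fintype.card_pos
      linarith
    linarith
  have h9 : (2 : ℚ) ^ j * (3 / 8) ^ j = (3 / 4) ^ j := by
    rw [← mul_pow]
    norm_num
  calc (Sel.card : ℚ) ≤ _ := h5.trans h6
    _ ≤ 2 ^ j * ((Fintype.card K : ℚ) ^ Fintype.card E * (3 / 8) ^ j) := by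
      apply mul_le_mul_of_nonneg_left _ (by positivity)
      exact mul_le_mul_of_nonneg_left h8 (by positivity)
    _ = _ := by
      rw [← h9]
      ring

end Vale.Agent.Lib.P346.Fq
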