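import Vale.Agent.Lib.P346.Fq.Prod

/-!
The rows: a monomial function times the top coefficient of the circuit. On good points they lie in a space
with few generators when the circuit has bounded formal degree.
-/

namespace Vale.Agent.Lib.P346.Fq

open Finset MvPolynomial
open Vale.Agent.Lib.P346 (Circuit)

set_option linter.unusedSectionVars false

variable {K σ E : Type} [Field K] [Fintype σ] [DecidableEq σ] [Fintype E] [DecidableEq E] {m : ℕ}

/-- Formal degrees at most `n`, where a sum gate has at most the degree of its inputs. -/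
structure FormalDeg (C : Circuit K σ) (n : ℕ) where
  /-- the degree of a bottom gate -/
  d5 : Fin C.nS5 → ℕ
  /-- the degree of a sum gate of layer three -/
  d3 : Fin C.nS3 → ℕ
  h5 : ∀ k, (∃ v, C.coeffVar k v ≠ 0) → 1 ≤ d5 k
  h3 : ∀ i j, C.coeffS3 i j ≠ 0 → ∑ k, C.expP4 j k * d5 k ≤ d3 i
  h2 : ∀ t, C.coeffTop t ≠ 0 → ∑ i, C.expP2 t i * d3 i ≤ n

section FD3

variable {β : σ → K} {var : E → σ} {cc : E → K} {lam : σ → MvPolynomial (Fin m) K}

lemma FD_S5_of_formal {C : Circuit K σ} {n : ℕ} (F : FormalDeg C n) (k : Fin C.nS5) :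
    FD β var cc lam (C.gateS5 k) (F.d5 k) := by
  by_cases h : ∃ v, C.coeffVar k v ≠ 0
  · exact FD_mono (FD_gateS5 C k) (F.h5 k h)
  · push Not at h
    exact FD_mono (FD_gateS5_const C k h) (Nat.zero_le _)

lemma FD_S3_of_formal {C : Circuit K σ} {n : ℕ} (F : FormalDeg C n) (i : Fin C.nS3) :
    FD β var cc lam (C.gateS3 i) (F.d3 i) :=
  FD_gateS3 C F.d5 (F.d3 i) i (FD_S5_of_formal F) (F.h3 i)

end FD3

/-- The factors of a product gate of layer two, put together in few groups. -/
theorem exists_groups (C : Circuit K σ) (d3 : Fin C.nS3 → ℕ) (n e0 : ℕ) (he0 : 0 < e0) (t : Fin C.nP2)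
    (hform : ∑ i, C.expP2 t i * d3 i ≤ n) :
    ∃ G : Fin (n / e0 + 1) → MvPolynomial σ K, (∏ j, G j = C.gateP2 t) ∧
      ∀ j, (∃ i, G j = C.gateS3 i) ∨
        ∃ I : Finset (Σ i : Fin C.nS3, Fin (C.expP2 t i)),
          G j = ∏ z ∈ I, C.gateS3 z.1 ∧ ∑ z ∈ I, d3 z.1 < 2 * e0 := by
  classical
  obtain ⟨D, g, hg1, hg2, hg3⟩ := exists_grouping
    (univ : Finset (Σ i : Fin C.nS3, Fin (C.expP2 t i))) (fun z => d3 z.1) e0 he0
  have hD := bins_le (univ : Finset (Σ i : Fin C.nS3, Fin (C.expP2 t i))) (fun z => d3 z.1) e0 he0 D g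
    hg1 hg3
  have htotal : ∑ z : (Σ i : Fin C.nS3, Fin (C.expP2 t i)), d3 z.1 = ∑ i, C.expP2 t i * d3 i := by
    rw [Fintype.sum_sigma]
    simp
  rw [htotal] at hD
  have hDle : D ≤ n / e0 + 1 := by
    have h1 : D * e0 ≤ n + e0 := hD.trans (Nat.add_le_add_right hform _)
    have h2 : D ≤ (n + e0) / e0 := (Nat.le_div_iff_mul_le he0).mpr h1
    rwa [Nat.add_div_right _ he0] at h2
  refine ⟨fun j => ∏ z ∈ univ.filter (fun z => g z = j.1), C.gateS3 z.1, ?_, ?_⟩
  · rw [Fin.prod_univ_eq_prod_range (fun j => ∏ z ∈ univ.filter (fun z => g z = j), C.gateS3 z.1)]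
    rw [Finset.prod_fiberwise_of_maps_to
      (fun l hl => mem_range.mpr ((hg1 l hl).trans_le hDle))]
    rw [Fintype.prod_sigma]
    simp [Circuit.gateP2]
  · intro j
    by_cases hj : j.1 < D
    · rcases hg2 j.1 hj with ⟨l, _, _, hl3⟩ | h
      · left
        refine ⟨l.1, ?_⟩
        simp only [hl3, prod_singleton]
      · right
        exact ⟨_, rfl, h⟩
    · right
      refine ⟨∅, ?_, by simpa using he0⟩
      have : univ.filter (fun z => g z = j.1) = ∅ := by
        apply filter_eq_empty_iff.mpr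
        intro z hz h
        have := hg1 z hz
        omega
      simp only [this, prod_empty]

section Span

variable [Fintype K] [DecidableEq K]

/-- A group of factors has low degree coefficients on good points. -/
lemma group_low {C : Circuit K σ} {n : ℕ} (F : FormalDeg C n) (β : σ → K) (var : E → σ)
    (D : GateData C var) (j0 e0 Δ : ℕ) (cc : E → K) (lam : σ → MvPolynomial (Fin m) K)
    (hlam : ∀ v, constantCoeff (lam v) = 0)
    (hΔ1 : (Fintype.card K - 1) * (2 * Fintype.card K * (j0 + 1)) ≤ Δ) (hΔ2 : 2 * e0 ≤ Δ)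
    (t : Fin C.nP2) (G0 : MvPolynomial σ K)
    (hG0 : (∃ i, G0 = C.gateS3 i) ∨
      ∃ I : Finset (Σ i : Fin C.nS3, Fin (C.expP2 t i)),
        G0 = ∏ z ∈ I, C.gateS3 z.1 ∧ ∑ z ∈ I, F.d3 z.1 < 2 * e0)
    (B : Finset (Fin m)) (hB : B.Nonempty) :
    ∃ h ∈ DegK K E (B.card * Δ), ∀ x, GoodPt C β var D j0 cc x →
      co B (psi (yy β var cc x) lam G0) = h x := by
  have hB1 : 1 ≤ B.card := card_pos.mpr hB
  rcases hG0 with ⟨i, rfl⟩ | ⟨I, rfl, hI⟩
  · obtain ⟨h, hh, hx⟩ := large_S3 C β var D j0 cc lam hlam i B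
    refine ⟨h, DegK_mono ?_ hh, hx⟩
    have h1 : max j0 B.card ≤ B.card * (j0 + 1) := by
      apply max_le
      · nlinarith
      · nlinarith
    calc (Fintype.card K - 1) * (2 * Fintype.card K * max j0 B.card)
        ≤ (Fintype.card K - 1) * (2 * Fintype.card K * (B.card * (j0 + 1))) :=
          Nat.mul_le_mul_left _ (Nat.mul_le_mul_left _ h1)
      _ = B.card * ((Fintype.card K - 1) * (2 * Fintype.card K * (j0 + 1))) := by ring
      _ ≤ B.card * Δ := Nat.mul_le_mul_left _ hΔ1
  · have hFD : FD β var cc lam (∏ z ∈ I, C.gateS3 z.1) (∑ z ∈ I, F.d3 z.1) :=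
      FD_prod I _ _ (fun z _ => FD_S3_of_formal F z.1)
    refine ⟨_, DegK_mono ?_ (hFD B), fun _ _ => rfl⟩
    have : ∑ z ∈ I, F.d3 z.1 ≤ Δ := by omega
    nlinarith

/-- The generators: a partial product of the groups of a gate, times a monomial function. -/
noncomputable def genF (β : σ → K) (var : E → σ) (cc : E → K) {C : Circuit K σ} {Dm : ℕ}
    (G : Fin C.nP2 → Fin Dm → MvPolynomial σ K) (R g : ℕ)
    (i : Fin C.nP2 × Finset (Fin Dm) × {U : Finset E // U.card + g ≤ R}) : Finset E → K :=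
  fun x => (∏ j ∈ univ \ i.2.1, eval (yy β var cc x) (G i.1 j)) * mo K i.2.2.1 x

/-- The top coefficient of the circuit on good points lies in the span of the generators. -/
theorem row_mem_span {C : Circuit K σ} {n : ℕ} (F : FormalDeg C n) (β : σ → K) (var : E → σ)
    (D : GateData C var) (j0 e0 Δ : ℕ) (cc : E → K) {Dm : ℕ}
    (G : Fin C.nP2 → Fin Dm → MvPolynomial σ K)
    (hG1 : ∀ t, C.coeffTop t ≠ 0 → ∏ j, G t j = C.gateP2 t)
    (hG2 : ∀ t, C.coeffTop t ≠ 0 → ∀ j, (∃ i, G t j = C.gateS3 i) ∨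
      ∃ I : Finset (Σ i : Fin C.nS3, Fin (C.expP2 t i)),
        G t j = ∏ z ∈ I, C.gateS3 z.1 ∧ ∑ z ∈ I, F.d3 z.1 < 2 * e0)
    (hΔ1 : (Fintype.card K - 1) * (2 * Fintype.card K * (j0 + 1)) ≤ Δ) (hΔ2 : 2 * e0 ≤ Δ)
    (lam : σ → MvPolynomial (Fin m) K) (hlam : ∀ v, constantCoeff (lam v) = 0)
    (B : Finset (Fin m)) (S : Finset E) (R g : ℕ) (hd : S.card + B.card * Δ + g ≤ R) :
    ∃ f ∈ Submodule.span K (Set.range (genF β var cc G R g)),
      ∀ x, GoodPt C β var D j0 cc x →
        mo K S x * co B (psi (yy β var cc x) lam C.output) = f x := by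
  classical
  -- representation for each gate
  have hrep : ∀ t, ∃ H : Finset (Fin Dm) → Finset E → K, (∀ L, H L ∈ DegK K E (B.card * Δ)) ∧
      (C.coeffTop t ≠ 0 → ∀ x, GoodPt C β var D j0 cc x →
        co B (psi (yy β var cc x) lam (C.gateP2 t)) =
          ∑ L ∈ (univ : Finset (Fin Dm)).powerset,
            (∏ j ∈ univ \ L, eval (yy β var cc x) (G t j)) * H L x) := by
    intro t
    by_cases ht : C.coeffTop t = 0
    · exact ⟨fun _ => 0, fun _ => Submodule.zero_mem _, fun h => absurd ht h⟩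
    · obtain ⟨H, h1, h2⟩ := prod_repr (β := β) (var := var) (cc := cc) (lam := lam) hlam
        (GoodPt C β var D j0 cc) Δ (G t) univ
        (fun j _ B' hB' => group_low F β var D j0 e0 Δ cc lam hlam hΔ1 hΔ2 t (G t j)
          (hG2 t ht j) B' hB') B
      refine ⟨H, h1, fun _ x hx => ?_⟩
      rw [← hG1 t ht]
      exact h2 x hx
  choose H hH1 hH2 using hrep
  -- one term lies in the span
  have hterm : ∀ (t : Fin C.nP2) (L : Finset (Fin Dm)) (h : Finset E → K),
      h ∈ DegK K E (S.card + B.card * Δ) →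
      (fun x => (∏ j ∈ univ \ L, eval (yy β var cc x) (G t j)) * h x) ∈
        Submodule.span K (Set.range (genF β var cc G R g)) := by
    intro t L h hh
    induction hh using Submodule.span_induction with
    | mem f hf =>
      obtain ⟨U, hU, rfl⟩ := hf
      apply Submodule.subset_span
      exact ⟨(t, L, ⟨U, by omega⟩), rfl⟩
    | zero =>
      have : (fun x => (∏ j ∈ univ \ L, eval (yy β var cc x) (G t j)) * (0 : Finset E → K) x) = 0 := by
        funext x
        simp
      rw [this]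
      exact Submodule.zero_mem _
    | add a b _ _ ha hb =>
      have : (fun x => (∏ j ∈ univ \ L, eval (yy β var cc x) (G t j)) * (a + b) x) =
          (fun x => (∏ j ∈ univ \ L, eval (yy β var cc x) (G t j)) * a x) +
          (fun x => (∏ j ∈ univ \ L, eval (yy β var cc x) (G t j)) * b x) := by
        funext x
        simp [mul_add]
      rw [this]
      exact Submodule.add_mem _ ha hb
    | smul c a _ ha =>
      have : (fun x => (∏ j ∈ univ \ L, eval (yy β var cc x) (G t j)) * (c • a) x) =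
          c • (fun x => (∏ j ∈ univ \ L, eval (yy β var cc x) (G t j)) * a x) := by
        funext x
        simp only [Pi.smul_apply, smul_eq_mul]
        ring
      rw [this]
      exact Submodule.smul_mem _ c ha
  refine ⟨∑ t, C.coeffTop t • ∑ L ∈ (univ : Finset (Fin Dm)).powerset,
    (fun x => (∏ j ∈ univ \ L, eval (yy β var cc x) (G t j)) * (mo K S * H t L) x), ?_, ?_⟩
  · apply Submodule.sum_mem
    intro t _
    apply Submodule.smul_mem
    apply Submodule.sum_mem
    intro L _
    exact hterm t L _ (mul_mem_DegK (mo_mem le_rfl) (hH1 t L))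
  · intro x hx
    rw [co_output, Finset.mul_sum]
    simp only [Finset.sum_apply, Pi.smul_apply, smul_eq_mul, Pi.mul_apply]
    apply Finset.sum_congr rfl
    intro t _
    by_cases ht : C.coeffTop t = 0
    · rw [ht]
      simp
    · rw [hH2 t ht x hx, Finset.mul_sum, Finset.mul_sum, Finset.mul_sum]
      apply Finset.sum_congr rfl
      intro L _
      ring

open Classical in
/-- The rank inequality for a given radius. -/
theorem rank_at_radius {C : Circuit K σ} {n : ℕ} (F : FormalDeg C n) (β : σ → K) (var : E → σ)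
    (D : GateData C var) (j0 e0 Δ : ℕ) (cc : E → K) {Dm : ℕ}
    (G : Fin C.nP2 → Fin Dm → MvPolynomial σ K)
    (hG1 : ∀ t, C.coeffTop t ≠ 0 → ∏ j, G t j = C.gateP2 t)
    (hG2 : ∀ t, C.coeffTop t ≠ 0 → ∀ j, (∃ i, G t j = C.gateS3 i) ∨
      ∃ I : Finset (Σ i : Fin C.nS3, Fin (C.expP2 t i)),
        G t j = ∏ z ∈ I, C.gateS3 z.1 ∧ ∑ z ∈ I, F.d3 z.1 < 2 * e0)
    (hΔ1 : (Fintype.card K - 1) * (2 * Fintype.card K * (j0 + 1)) ≤ Δ) (hΔ2 : 2 * e0 ≤ Δ)
    (A : Finset (Finset E)) (S : Finset E → Finset E) (lam : Finset E → σ → MvPolynomial (Fin m) K)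
    (hlam : ∀ T v, constantCoeff (lam T v) = 0)
    (ord : Finset E → ℕ) (hord : Set.InjOn ord (A : Set (Finset E)))
    (h1 : ∀ T ∈ A, mob K T (fun x => mo K (S T) x *
      co univ (psi (yy β var cc x) (lam T) C.output)) = 1)
    (h2 : ∀ T ∈ A, ∀ V ∈ A, ord T < ord V → mob K V (fun x => mo K (S T) x *
      co univ (psi (yy β var cc x) (lam T) C.output)) = 0)
    (g : ℕ) (hg : ∀ T ∈ A, (S T).card + m * Δ + g ≤ T.card) (R : ℕ) :
    (A.filter (fun T => T.card ≤ R)).card ≤
      ((univ.filter (fun x : Finset E => x.card ≤ R)).filter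
        (fun x => ¬ GoodPt C β var D j0 cc x)).card +
      C.nP2 * (2 ^ Dm * (univ.filter (fun U : Finset E => U.card + g ≤ R)).card) := by
  have hmain := rank_ineq (K := K) (ι := Fin C.nP2 × Finset (Fin Dm) × {U : Finset E // U.card + g ≤ R})
    (univ.filter (fun x : Finset E => x.card ≤ R))
    (univ.filter (fun x => ¬ GoodPt C β var D j0 cc x))
    (A.filter (fun T => T.card ≤ R))
    (by
      intro x hx x' hx'
      simp only [mem_filter, mem_univ, true_and] at hx ⊢
      exact (card_le_card hx').trans hx)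
    (by
      intro T hT
      simp only [mem_filter, mem_univ, true_and] at hT ⊢
      exact hT.2)
    (fun T => fun x => mo K (S T) x * co univ (psi (yy β var cc x) (lam T) C.output)) ord
    (hord.mono (by
      intro T hT
      exact (mem_filter.mp hT).1))
    (fun T hT => h1 T (mem_filter.mp hT).1)
    (fun T hT V hV => h2 T (mem_filter.mp hT).1 V (mem_filter.mp hV).1)
    (genF β var cc G R g)
    (by
      intro T hT
      have hT' := mem_filter.mp hT
      have hd : (S T).card + (univ : Finset (Fin m)).card * Δ + g ≤ R := by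
        simp only [card_univ, Fintype.card_fin]
        exact (hg T hT'.1).trans hT'.2
      obtain ⟨f, hf, hfx⟩ := row_mem_span F β var D j0 e0 Δ cc G hG1 hG2 hΔ1 hΔ2 (lam T) (hlam T)
        univ (S T) R g hd
      refine ⟨f, hf, fun x _ hx => hfx x ?_⟩
      simp only [mem_filter, mem_univ, true_and, not_not] at hx
      exact hx)
  have hcard : Fintype.card (Fin C.nP2 × Finset (Fin Dm) × {U : Finset E // U.card + g ≤ R}) =
      C.nP2 * (2 ^ Dm * (univ.filter (fun U : Finset E => U.card + g ≤ R)).card) := by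
    simp only [Fintype.card_prod, Fintype.card_fin, Fintype.card_finset, Fintype.card_subtype]
  rw [hcard] at hmain
  have hset : (univ.filter (fun x : Finset E => x.card ≤ R)) ∩
      (univ.filter (fun x => ¬ GoodPt C β var D j0 cc x)) =
      (univ.filter (fun x : Finset E => x.card ≤ R)).filter
        (fun x => ¬ GoodPt C β var D j0 cc x) := by
    ext x
    simp
  rw [hset] at hmain
  exact hmain

end Span

end Vale.Agent.Lib.P346.Fq
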