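import Vale.Agent.Lib.P346.Moments

/-!
The second moment recursion for pairs of walks, with a general weight `p` for each edge, and the choice of
the steps level by level.
-/

namespace Vale.Agent.Lib.P346.Fq

open Finset

set_option linter.unusedSectionVars false

variable {G : Type} [AddCommGroup G] [Fintype G] [DecidableEq G] {b : ℕ}

/-- The weight of a pair of letters at a pair of vertices with difference `δ`. -/
def wtP (p : ℚ) (δ : G) (a a' : Fin b) : ℚ :=
  if δ = 0 then p ^ (max a.1 a'.1 + 1) else p ^ (a.1 + 1 + (a'.1 + 1))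

lemma wtP_nonneg {p : ℚ} (hp : 0 ≤ p) (δ : G) (a a' : Fin b) : 0 ≤ wtP p δ a a' := by
  unfold wtP
  split_ifs <;> positivity

/-- The recursion for the second moment, in terms of the difference of the two walks. -/
def pairP (p : ℚ) (μ : ℕ → Fin b → G) : ℕ → ℕ → G → ℚ
  | 0, _, _ => 1
  | L + 1, t, δ => ∑ a, ∑ a', wtP p δ a a' * pairP p μ L (t + 1) (δ + μ t a - μ t a')

lemma pairP_nonneg {p : ℚ} (hp : 0 ≤ p) (μ : ℕ → Fin b → G) (L t : ℕ) (δ : G) :
    0 ≤ pairP p μ L t δ := by
  induction L generalizing t δ with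
  | zero => simp [pairP]
  | succ L ih =>
    simp only [pairP]
    apply Finset.sum_nonneg
    intro a _
    apply Finset.sum_nonneg
    intro a' _
    exact mul_nonneg (wtP_nonneg hp _ _ _) (ih _ _)

lemma pairP_prepend (p : ℚ) (m : Fin b → G) (μ : ℕ → Fin b → G) (L t : ℕ) (δ : G) :
    pairP p (prepend m μ) L (t + 1) δ = pairP p μ L t δ := by
  induction L generalizing t δ with
  | zero => simp [pairP]
  | succ L ih =>
    simp only [pairP, prepend, ih]

/-- The total weight of the letters. -/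
def yP (p : ℚ) (b : ℕ) : ℚ := ∑ a : Fin b, p ^ (a.1 + 1)

/-- The total weight of the pairs of distinct letters. -/
def tauP (p : ℚ) (b : ℕ) : ℚ :=
  ∑ a : Fin b, ∑ a' : Fin b, if a ≠ a' then p ^ (max a.1 a'.1 + 1) else 0

lemma tauP_nonneg {p : ℚ} (hp : 0 ≤ p) (b : ℕ) : 0 ≤ tauP p b := by
  apply Finset.sum_nonneg
  intro a _
  apply Finset.sum_nonneg
  intro a' _
  split_ifs <;> positivity

lemma tauP_le_two {p : ℚ} (hp : 0 ≤ p) (hp2 : p ≤ 1 / 2) (b : ℕ) : tauP p b ≤ 2 := by
  refine le_trans ?_ (mass_two_le b)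
  apply Finset.sum_le_sum
  intro a _
  apply Finset.sum_le_sum
  intro a' _
  split_ifs
  · exact pow_le_pow_left₀ hp hp2 _
  · exact le_rfl

lemma yP_nonneg {p : ℚ} (hp : 0 ≤ p) (b : ℕ) : 0 ≤ yP p b :=
  Finset.sum_nonneg (fun a _ => by positivity)

/-- There is a choice of the steps at one level with at most the average weight on the off diagonal. -/
lemma exists_stepP {p : ℚ} (hp : 0 ≤ p) (B : G → ℚ) (hB : ∀ z, 0 ≤ B z) :
    ∃ m : Fin b → G, ∑ a, ∑ a', (if a ≠ a' then p ^ (max a.1 a'.1 + 1) else 0) * B (m a - m a') ≤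
      tauP p b * ((∑ z, B z) / Fintype.card G) := by
  classical
  have hw : (0 : ℚ) < Fintype.card G := by
    exact_mod_cast Fintype.card_pos
  set B' : ℚ := (∑ z, B z) / Fintype.card G with hB'
  have hsum : ∑ m : Fin b → G, ∑ a, ∑ a', (if a ≠ a' then p ^ (max a.1 a'.1 + 1) else 0) *
      B (m a - m a') ≤ ∑ _m : Fin b → G, tauP p b * B' := by
    have h1 : ∑ m : Fin b → G, ∑ a, ∑ a', (if a ≠ a' then p ^ (max a.1 a'.1 + 1) else 0) *
        B (m a - m a') = ∑ a, ∑ a', (if a ≠ a' then p ^ (max a.1 a'.1 + 1) else 0) *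
          ∑ m : Fin b → G, B (m a - m a') := by
      rw [Finset.sum_comm]
      apply Finset.sum_congr rfl
      intro a _
      rw [Finset.sum_comm]
      apply Finset.sum_congr rfl
      intro a' _
      rw [Finset.mul_sum]
    have h2 : ∀ a a' : Fin b, (if a ≠ a' then p ^ (max a.1 a'.1 + 1) else 0) *
        ∑ m : Fin b → G, B (m a - m a') =
        (if a ≠ a' then p ^ (max a.1 a'.1 + 1) else 0) *
          ((Fintype.card (Fin b → G) : ℚ) * B') := by
      intro a a'
      by_cases haa : a ≠ a'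
      · have h3 := sum_shift_diff B haa
        have h4 : ∑ m : Fin b → G, B (m a - m a') = (Fintype.card (Fin b → G) : ℚ) * B' := by
          rw [hB']
          field_simp
          linarith
        rw [h4]
      · rw [if_neg haa, zero_mul, zero_mul]
    rw [h1]
    simp_rw [h2]
    rw [Finset.sum_const, nsmul_eq_mul, card_univ]
    simp only [← Finset.sum_mul]
    apply le_of_eq
    simp only [tauP]
    ring
  obtain ⟨m, _, hm⟩ := Finset.exists_le_of_sum_le (s := (univ : Finset (Fin b → G)))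
    univ_nonempty hsum
  exact ⟨m, hm⟩

/-- One step of the recursion, at difference zero. -/
lemma step_zeroP (p : ℚ) (B : G → ℚ) (m : Fin b → G) :
    ∑ a, ∑ a', wtP p (0 : G) a a' * B (0 + m a - m a') =
      yP p b * B 0 + ∑ a, ∑ a', (if a ≠ a' then p ^ (max a.1 a'.1 + 1) else 0) * B (m a - m a') := by
  have h1 : ∀ a a' : Fin b, wtP p (0 : G) a a' * B (0 + m a - m a') =
      (if a = a' then p ^ (a.1 + 1) * B 0 else 0) +
        (if a ≠ a' then p ^ (max a.1 a'.1 + 1) else 0) * B (m a - m a') := by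
    intro a a'
    by_cases h : a = a'
    · subst h
      simp [wtP]
    · simp [wtP, h]
  simp_rw [h1, Finset.sum_add_distrib]
  congr 1
  rw [yP, Finset.sum_mul]
  apply Finset.sum_congr rfl
  intro a _
  simp

/-- One step of the recursion, for the sum over all differences. -/
lemma step_sumP {p : ℚ} (hp : 0 ≤ p) (B : G → ℚ) (hB : ∀ z, 0 ≤ B z) (m : Fin b → G) :
    ∑ δ, ∑ a, ∑ a', wtP p δ a a' * B (δ + m a - m a') ≤
      ∑ a, ∑ a', wtP p (0 : G) a a' * B (0 + m a - m a') + yP p b ^ 2 * ∑ z, B z := by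
  classical
  have h1 : ∑ δ, ∑ a, ∑ a', wtP p δ a a' * B (δ + m a - m a') =
      ∑ a, ∑ a', wtP p (0 : G) a a' * B (0 + m a - m a') +
        ∑ δ ∈ univ.erase (0 : G), ∑ a, ∑ a', wtP p δ a a' * B (δ + m a - m a') :=
    (Finset.add_sum_erase univ (fun δ => ∑ a, ∑ a', wtP p δ a a' * B (δ + m a - m a')) (mem_univ 0)).symm
  rw [h1]
  have h2 : ∑ δ ∈ univ.erase (0 : G), ∑ a, ∑ a', wtP p δ a a' * B (δ + m a - m a') ≤
      yP p b ^ 2 * ∑ z, B z := by
    have h3 : ∀ δ ∈ univ.erase (0 : G), ∑ a, ∑ a', wtP p δ a a' * B (δ + m a - m a') =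
        ∑ a : Fin b, ∑ a' : Fin b, p ^ (a.1 + 1 + (a'.1 + 1)) * B (δ + m a - m a') := by
      intro δ hδ
      have hne : δ ≠ 0 := (mem_erase.mp hδ).1
      simp [wtP, hne]
    rw [Finset.sum_congr rfl h3]
    have h4 : ∑ δ ∈ univ.erase (0 : G), ∑ a : Fin b, ∑ a' : Fin b,
        p ^ (a.1 + 1 + (a'.1 + 1)) * B (δ + m a - m a') ≤
        ∑ δ : G, ∑ a : Fin b, ∑ a' : Fin b,
          p ^ (a.1 + 1 + (a'.1 + 1)) * B (δ + m a - m a') := by
      apply Finset.sum_le_sum_of_subset_of_nonneg (subset_univ _)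
      intro δ _ _
      apply Finset.sum_nonneg
      intro a _
      apply Finset.sum_nonneg
      intro a' _
      exact mul_nonneg (by positivity) (hB _)
    refine h4.trans (le_of_eq ?_)
    have h6 : ∀ a a' : Fin b, ∑ δ, B (δ + m a - m a') = ∑ z, B z := by
      intro a a'
      rw [← Equiv.sum_comp (Equiv.addRight (m a - m a')) B]
      apply Finset.sum_congr rfl
      intro δ _
      simp only [Equiv.coe_addRight]
      congr 1
      abel
    have h5 : ∑ δ : G, ∑ a : Fin b, ∑ a' : Fin b,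
        p ^ (a.1 + 1 + (a'.1 + 1)) * B (δ + m a - m a') =
        ∑ a : Fin b, ∑ a' : Fin b, p ^ (a.1 + 1 + (a'.1 + 1)) * ∑ z, B z := by
      rw [Finset.sum_comm]
      apply Finset.sum_congr rfl
      intro a _
      rw [Finset.sum_comm]
      apply Finset.sum_congr rfl
      intro a' _
      rw [Finset.mul_sum]
      rw [← Finset.mul_sum, ← Finset.mul_sum, h6]
    rw [h5, sq, yP, Finset.sum_mul_sum, Finset.sum_mul]
    apply Finset.sum_congr rfl
    intro a _
    rw [Finset.sum_mul]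
    apply Finset.sum_congr rfl
    intro a' _
    rw [pow_add]
  linarith

/-- The levels can be chosen one by one, keeping the second moment under control. -/
theorem exists_shiftsP {p : ℚ} (hp : 0 ≤ p) {y τ κ A D1 D2 : ℚ} (hy : y = yP p b) (hy0 : 0 < y) (hy1 : y < 1)
    (hτ : tauP p b ≤ τ) (hκ0 : 0 ≤ κ) (hA : A ≤ κ * (1 - y) * Fintype.card G)
    (hD1 : D1 * (y * (1 - y)) = τ) (hD2 : D2 * y = τ * κ) (hD1nn : 0 ≤ D1) (hD2nn : 0 ≤ D2) (L : ℕ)
    (hL : 1 + D1 + L * D2 ≤ A) :
    ∀ ℓ, ℓ ≤ L → ∃ μ : ℕ → Fin b → G,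
      pairP p μ ℓ 0 0 ≤ (1 + D1 * (1 - y ^ ℓ) + ℓ * D2) * y ^ ℓ ∧
      (∑ δ, pairP p μ ℓ 0 δ) / Fintype.card G ≤ y ^ (2 * ℓ) + κ * y ^ ℓ := by
  have hwpos : (0 : ℚ) < Fintype.card G := by
    exact_mod_cast Fintype.card_pos
  intro ℓ
  induction ℓ with
  | zero =>
    intro _
    refine ⟨fun _ _ => 0, ?_, ?_⟩
    · simp [pairP]
    · simp only [pairP, mul_zero, pow_zero, mul_one]
      have : (∑ _δ : G, (1 : ℚ)) / Fintype.card G = 1 := by
        simp only [sum_const, card_univ, nsmul_eq_mul, mul_one]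
        exact div_self hwpos.ne'
      rw [this]
      linarith
  | succ ℓ ih =>
    intro hℓ
    obtain ⟨μ, hμ1, hμ2⟩ := ih (by omega)
    set B : G → ℚ := pairP p μ ℓ 0 with hB
    have hBnn : ∀ z, 0 ≤ B z := fun z => pairP_nonneg hp μ ℓ 0 z
    obtain ⟨m, hm⟩ := exists_stepP (b := b) hp B hBnn
    refine ⟨prepend m μ, ?_⟩
    have hnew : ∀ δ, pairP p (prepend m μ) (ℓ + 1) 0 δ =
        ∑ a, ∑ a', wtP p δ a a' * B (δ + m a - m a') := by
      intro δ
      simp only [pairP, prepend, hB]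
      apply Finset.sum_congr rfl
      intro a _
      apply Finset.sum_congr rfl
      intro a' _
      rw [pairP_prepend]
    simp_rw [hnew]
    have h0 := step_zeroP p B m
    have h1 := step_sumP hp B hBnn m
    set Y := y ^ ℓ with hY
    have hYnn : 0 ≤ Y := by positivity
    have hY1 : Y ≤ 1 := pow_le_one₀ hy0.le hy1.le
    set v := (∑ z, B z) / (Fintype.card G : ℚ) with hv
    have hvnn : 0 ≤ v := div_nonneg (Finset.sum_nonneg (fun z _ => hBnn z)) hwpos.le
    have hsumB : ∑ z, B z = v * Fintype.card G := by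
      rw [hv]
      field_simp
    set u' := ∑ a, ∑ a', wtP p (0 : G) a a' * B (0 + m a - m a') with hu'
    have hτv : tauP p b * v ≤ τ * v := mul_le_mul_of_nonneg_right hτ hvnn
    have hyeq : yP p b = y := hy.symm
    rw [hyeq] at h0 h1
    have hu'le : u' ≤ y * B 0 + τ * v := by linarith
    have hB0 : B 0 ≤ (1 + D1 * (1 - Y) + ℓ * D2) * Y := hμ1
    have hv2 : v ≤ y ^ (2 * ℓ) + κ * Y := hμ2
    have hpow2 : y ^ (2 * ℓ) = Y * Y := by
      rw [hY, two_mul, pow_add]
    rw [hpow2] at hv2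
    have hτnn : 0 ≤ τ := (tauP_nonneg hp b).trans hτ
    -- the new value at zero
    have hu'2 : u' ≤ (1 + D1 * (1 - y * Y) + (ℓ + 1) * D2) * (y * Y) := by
      have h2 : y * B 0 ≤ y * ((1 + D1 * (1 - Y) + ℓ * D2) * Y) :=
        mul_le_mul_of_nonneg_left hB0 hy0.le
      have h3 : τ * v ≤ τ * (Y * Y + κ * Y) := mul_le_mul_of_nonneg_left hv2 hτnn
      have h4 : (1 + D1 * (1 - y * Y) + (ℓ + 1) * D2) * (y * Y) =
          y * ((1 + D1 * (1 - Y) + ℓ * D2) * Y) + D1 * (y * (1 - y)) * (Y * Y) + (D2 * y) * Y := by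
        ring
      rw [h4, hD1, hD2]
      nlinarith
    constructor
    · rw [pow_succ']
      push_cast
      exact hu'2
    · have hcoef : (1 + D1 * (1 - y * Y) + (ℓ + 1) * D2) ≤ A := by
        have h5 : D1 * (1 - y * Y) ≤ D1 * 1 := by
          apply mul_le_mul_of_nonneg_left _ hD1nn
          have : 0 ≤ y * Y := by positivity
          linarith
        have h6 : ((ℓ : ℚ) + 1) * D2 ≤ L * D2 := by
          apply mul_le_mul_of_nonneg_right _ hD2nn
          exact_mod_cast hℓ
        linarith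
      have hu'3 : u' ≤ A * (y * Y) := by
        refine hu'2.trans ?_
        exact mul_le_mul_of_nonneg_right hcoef (by positivity)
      rw [hsumB] at h1
      have h7 : (∑ δ, ∑ a, ∑ a', wtP p δ a a' * B (δ + m a - m a')) / Fintype.card G ≤
          u' / Fintype.card G + y ^ 2 * v := by
        rw [div_le_iff₀ hwpos]
        have e : (u' / Fintype.card G + y ^ 2 * v) * Fintype.card G = u' + y ^ 2 * (v * Fintype.card G) := by
          field_simp
        rw [e]
        exact h1
      refine h7.trans ?_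
      have h8 : u' / Fintype.card G ≤ κ * (1 - y) * (y * Y) := by
        rw [div_le_iff₀ hwpos]
        have h9 : A * (y * Y) ≤ (κ * (1 - y) * Fintype.card G) * (y * Y) :=
          mul_le_mul_of_nonneg_right hA (by positivity)
        calc u' ≤ A * (y * Y) := hu'3
          _ ≤ _ := h9
          _ = κ * (1 - y) * (y * Y) * Fintype.card G := by ring
      have h10 : y ^ 2 * v ≤ y ^ 2 * (Y * Y + κ * Y) :=
        mul_le_mul_of_nonneg_left hv2 (by positivity)
      have h11 : y ^ (2 * (ℓ + 1)) = y ^ 2 * (Y * Y) := by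
        rw [hY, Nat.mul_succ, two_mul, pow_add, pow_add]
        ring
      have h12 : y ^ (ℓ + 1) = y * Y := by
        rw [hY, pow_succ']
      rw [h11, h12]
      nlinarith

end Vale.Agent.Lib.P346.Fq
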