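import Vale.Agent.Lib.P346.Fq.Rows

/-!
Summing the rank inequality over all radii with geometric weights, and averaging over the shift.
-/

namespace Vale.Agent.Lib.P346.Fq

open Finset MvPolynomial
open Vale.Agent.Lib.P346 (Circuit)

set_option linter.unusedSectionVars false

lemma abel_one (z : ℚ) (a N : ℕ) (h : a ≤ N) :
    z ^ a = ∑ R ∈ range N, (z ^ R - z ^ (R + 1)) * (if a ≤ R then (1 : ℚ) else 0) + z ^ N * 1 := by
  induction N, h using Nat.le_induction with
  | base =>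
    rw [Finset.sum_eq_zero]
    · simp
    · intro R hR
      have : ¬ a ≤ R := by
        have := mem_range.mp hR
        omega
      simp [this]
  | succ N hN ih =>
    rw [Finset.sum_range_succ, if_pos hN]
    rw [ih]
    ring

lemma abel_sum {α : Type} (A : Finset α) (f : α → ℕ) (N : ℕ) (hf : ∀ s ∈ A, f s ≤ N) (z : ℚ) :
    ∑ s ∈ A, z ^ f s = ∑ R ∈ range N, (z ^ R - z ^ (R + 1)) * ((A.filter (fun s => f s ≤ R)).card : ℚ) +
      z ^ N * ((A.filter (fun s => f s ≤ N)).card : ℚ) := by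
  have h1 : A.filter (fun s => f s ≤ N) = A := filter_true_of_mem hf
  rw [h1]
  have h2 : ∀ R, ((A.filter (fun s => f s ≤ R)).card : ℚ) = ∑ s ∈ A, if f s ≤ R then (1 : ℚ) else 0 := by
    intro R
    rw [card_filter]
    push_cast
    rfl
  simp_rw [h2]
  have h3 : (A.card : ℚ) = ∑ s ∈ A, (1 : ℚ) := by simp
  rw [h3]
  simp_rw [Finset.mul_sum]
  rw [Finset.sum_comm]
  rw [← Finset.sum_add_distrib]
  apply Finset.sum_congr rfl
  intro s hs
  exact abel_one z (f s) N (hf s hs)

variable {K σ E : Type} [Field K] [Fintype K] [DecidableEq K] [Fintype σ] [DecidableEq σ]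
  [Fintype E] [DecidableEq E] {m : ℕ}

lemma sum_pow_card (z : ℚ) : ∑ U : Finset E, z ^ U.card = (1 + z) ^ Fintype.card E := by
  have := Finset.sum_pow_mul_eq_add_pow z 1 (univ : Finset E)
  simp only [one_pow, mul_one, powerset_univ, card_univ] at this
  rw [add_comm]
  exact this

open Classical in
/-- The weighted rank inequality for a fixed shift. -/
theorem weighted_rank {C : Circuit K σ} {n : ℕ} (F : FormalDeg C n) (β : σ → K) (var : E → σ)
    (D : GateData C var) (j0 e0 Δ : ℕ) (cc : E → K) {Dm : ℕ}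
    (G : Fin C.nP2 → Fin Dm → MvPolynomial σ K)
    (hG1 : ∀ t, C.coeffTop t ≠ 0 → ∏ j, G t j = C.gateP2 t)
    (hG2 : ∀ t, C.coeffTop t ≠ 0 → ∀ j, (∃ i, G t j = C.gateS3 i) ∨
      ∃ I : Finset (Σ i : Fin C.nS3, Fin (C.expP2 t i)),
        G t j = ∏ z ∈ I, C.gateS3 z.1 ∧ ∑ z ∈ I, F.d3 z.1 < 2 * e0)
    (hΔ1 : (Fintype.card K - 1) * (2 * Fintype.card K * (j0 + 1)) ≤ Δ) (hΔ2 : 2 * e0 ≤ Δ)
    (A : Finset (Finset E)) (S : Finset E → Finset E) (lam : Finset E → σ → MvPolynomial (Fin m) K)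
    (hlam : ∀ T v, constantCoeff (lam T v) = 0)
    (ord : Finset E → ℕ) (hord : Set.InjOn ord (A : Set (Finset E)))
    (h1 : ∀ T ∈ A, mob K T (fun x => mo K (S T) x *
      co univ (psi (yy β var cc x) (lam T) C.output)) = 1)
    (h2 : ∀ T ∈ A, ∀ V ∈ A, ord T < ord V → mob K V (fun x => mo K (S T) x *
      co univ (psi (yy β var cc x) (lam T) C.output)) = 0)
    (g : ℕ) (hg : ∀ T ∈ A, (S T).card + m * Δ + g ≤ T.card) (z : ℚ) (hz0 : 0 ≤ z) (hz1 : z ≤ 1) :
    ∑ T ∈ A, z ^ T.card ≤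
      ∑ x ∈ univ.filter (fun x => ¬ GoodPt C β var D j0 cc x), z ^ x.card +
        C.nP2 * (2 ^ Dm * (z ^ g * (1 + z) ^ Fintype.card E)) := by
  set N := Fintype.card E with hN
  have hcardle : ∀ x : Finset E, x.card ≤ N := fun x => card_le_univ x
  have hwt : ∀ R, 0 ≤ z ^ R - z ^ (R + 1) := by
    intro R
    have : z ^ (R + 1) ≤ z ^ R := pow_le_pow_of_le_one hz0 hz1 (Nat.le_succ R)
    linarith
  have hrad := rank_at_radius F β var D j0 e0 Δ cc G hG1 hG2 hΔ1 hΔ2 A S lam hlam ord hord h1 h2 g hg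
  -- the third family
  let Uset : Finset (Finset E) := univ.filter (fun U : Finset E => U.card + g ≤ N)
  have hU : ∀ R, R ≤ N → (Uset.filter (fun U => U.card + g ≤ R)) =
      univ.filter (fun U : Finset E => U.card + g ≤ R) := by
    intro R hR
    ext U
    simp only [Uset, mem_filter, mem_univ, true_and]
    constructor
    · exact fun h => h.2
    · exact fun h => ⟨h.trans hR, h⟩
  have hUsum : ∑ U ∈ Uset, z ^ (U.card + g) ≤ z ^ g * (1 + z) ^ N := by
    rw [← sum_pow_card z, Finset.mul_sum]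
    calc ∑ U ∈ Uset, z ^ (U.card + g) = ∑ U ∈ Uset, z ^ g * z ^ U.card := by
          apply Finset.sum_congr rfl
          intro U _
          rw [pow_add]
          ring
      _ ≤ ∑ U : Finset E, z ^ g * z ^ U.card :=
          Finset.sum_le_sum_of_subset_of_nonneg (subset_univ _)
            (fun _ _ _ => by positivity)
  have e1 := abel_sum A (fun T => T.card) N (fun T _ => hcardle T) z
  have e2 := abel_sum (univ.filter (fun x : Finset E => ¬ GoodPt C β var D j0 cc x)) (fun T => T.card) N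
    (fun T _ => hcardle T) z
  have e3 := abel_sum Uset (fun U => U.card + g) N (fun U hU => (mem_filter.mp hU).2) z
  have hstep : ∀ R, R ≤ N → ((A.filter (fun T => T.card ≤ R)).card : ℚ) ≤
      (((univ.filter (fun x : Finset E => ¬ GoodPt C β var D j0 cc x)).filter
        (fun T => T.card ≤ R)).card : ℚ) +
      C.nP2 * (2 ^ Dm * ((Uset.filter (fun U => U.card + g ≤ R)).card : ℚ)) := by
    intro R hR
    have := hrad R
    rw [hU R hR, Finset.filter_comm]
    exact_mod_cast this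
  have hmain : ∑ T ∈ A, z ^ T.card ≤
      ∑ x ∈ univ.filter (fun x => ¬ GoodPt C β var D j0 cc x), z ^ x.card +
        C.nP2 * (2 ^ Dm * ∑ U ∈ Uset, z ^ (U.card + g)) := by
    rw [e1, e2, e3]
    have hs : ∑ R ∈ range N, (z ^ R - z ^ (R + 1)) * ((A.filter (fun s => s.card ≤ R)).card : ℚ) ≤
        ∑ R ∈ range N, (z ^ R - z ^ (R + 1)) *
          (((univ.filter (fun x : Finset E => ¬ GoodPt C β var D j0 cc x)).filter
            (fun T => T.card ≤ R)).card +
          C.nP2 * (2 ^ Dm * ((Uset.filter (fun U => U.card + g ≤ R)).card : ℚ))) := by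
      apply Finset.sum_le_sum
      intro R hR
      exact mul_le_mul_of_nonneg_left (hstep R (mem_range.mp hR).le) (hwt R)
    have ht := mul_le_mul_of_nonneg_left (hstep N le_rfl) (pow_nonneg hz0 N)
    simp only [mul_add, Finset.sum_add_distrib] at hs ht ⊢
    have h5 : ∑ R ∈ range N, (z ^ R - z ^ (R + 1)) * (↑C.nP2 * ((2:ℚ) ^ Dm *
        ((Uset.filter (fun U => U.card + g ≤ R)).card : ℚ))) =
        C.nP2 * (2 ^ Dm * ∑ R ∈ range N, (z ^ R - z ^ (R + 1)) *
          ((Uset.filter (fun U => U.card + g ≤ R)).card : ℚ)) := by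
      simp only [Finset.mul_sum]
      apply Finset.sum_congr rfl
      intro R _
      ring
    rw [h5] at hs
    nlinarith
  refine hmain.trans ?_
  have hP : (0 : ℚ) ≤ C.nP2 * 2 ^ Dm := by positivity
  have := mul_le_mul_of_nonneg_left hUsum hP
  nlinarith

open Classical in
/-- Averaging over the shift. -/
theorem exists_good_shift (C : Circuit K σ) (β : σ → K) (var : E → σ) (D : GateData C var) (j0 : ℕ)
    (z : ℚ) (hz0 : 0 ≤ z) :
    ∃ cc : E → K, ∑ x ∈ univ.filter (fun x => ¬ GoodPt C β var D j0 cc x), z ^ x.card ≤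
      (1 + z) ^ Fintype.card E * (C.nP4 * (3 / 4) ^ j0) := by
  have hq : (0 : ℚ) < (Fintype.card K : ℚ) ^ Fintype.card E := by
    have : 0 < Fintype.card K := Fintype.card_pos
    positivity
  by_contra hcon
  push Not at hcon
  have h1 : ∑ cc : E → K, ((1 + z) ^ Fintype.card E * (C.nP4 * (3 / 4) ^ j0)) <
      ∑ cc : E → K, ∑ x ∈ univ.filter (fun x => ¬ GoodPt C β var D j0 cc x), z ^ x.card :=
    Finset.sum_lt_sum_of_nonempty univ_nonempty (fun cc _ => hcon cc)
  have h2 : ∑ cc : E → K, ∑ x ∈ univ.filter (fun x => ¬ GoodPt C β var D j0 cc x), z ^ x.card =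
      ∑ x : Finset E, z ^ x.card *
        (((univ : Finset (E → K)).filter (fun cc => ¬ GoodPt C β var D j0 cc x)).card : ℚ) := by
    simp_rw [Finset.sum_filter]
    rw [Finset.sum_comm]
    apply Finset.sum_congr rfl
    intro x _
    rw [card_filter]
    push_cast
    rw [Finset.mul_sum]
    apply Finset.sum_congr rfl
    intro cc _
    split_ifs <;> simp
  have h3 : ∑ x : Finset E, z ^ x.card *
        (((univ : Finset (E → K)).filter (fun cc => ¬ GoodPt C β var D j0 cc x)).card : ℚ) ≤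
      ∑ x : Finset E, z ^ x.card * (C.nP4 * ((3 / 4) ^ j0 * (Fintype.card K : ℚ) ^ Fintype.card E)) :=
    Finset.sum_le_sum (fun x _ => mul_le_mul_of_nonneg_left
      (card_not_good C β var D j0 x) (by positivity))
  rw [← Finset.sum_mul, sum_pow_card] at h3
  rw [Finset.sum_const, card_univ, Fintype.card_fun, nsmul_eq_mul] at h1
  rw [h2] at h1
  push_cast at h1
  nlinarith

open Classical in
/-- The inequality between the weight of an admissible family and the size of a circuit. -/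
theorem weighted_bound {C : Circuit K σ} {n : ℕ} (F : FormalDeg C n) (β : σ → K) (var : E → σ)
    (j0 e0 Δ : ℕ) {Dm : ℕ}
    (G : Fin C.nP2 → Fin Dm → MvPolynomial σ K)
    (hG1 : ∀ t, C.coeffTop t ≠ 0 → ∏ j, G t j = C.gateP2 t)
    (hG2 : ∀ t, C.coeffTop t ≠ 0 → ∀ j, (∃ i, G t j = C.gateS3 i) ∨
      ∃ I : Finset (Σ i : Fin C.nS3, Fin (C.expP2 t i)),
        G t j = ∏ z ∈ I, C.gateS3 z.1 ∧ ∑ z ∈ I, F.d3 z.1 < 2 * e0)
    (hΔ1 : (Fintype.card K - 1) * (2 * Fintype.card K * (j0 + 1)) ≤ Δ) (hΔ2 : 2 * e0 ≤ Δ)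
    (A : Finset (Finset E)) (S : Finset E → Finset E) (lam : Finset E → σ → MvPolynomial (Fin m) K)
    (hlam : ∀ T v, constantCoeff (lam T v) = 0)
    (ord : Finset E → ℕ) (hord : Set.InjOn ord (A : Set (Finset E)))
    (h1 : ∀ cc : E → K, ∀ T ∈ A, mob K T (fun x => mo K (S T) x *
      co univ (psi (yy β var cc x) (lam T) C.output)) = 1)
    (h2 : ∀ cc : E → K, ∀ T ∈ A, ∀ V ∈ A, ord T < ord V → mob K V (fun x => mo K (S T) x *
      co univ (psi (yy β var cc x) (lam T) C.output)) = 0)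
    (g : ℕ) (hg : ∀ T ∈ A, (S T).card + m * Δ + g ≤ T.card) (z : ℚ) (hz0 : 0 ≤ z) (hz1 : z ≤ 1) :
    ∑ T ∈ A, z ^ T.card ≤ (1 + z) ^ Fintype.card E *
      (C.nP4 * (3 / 4) ^ j0 + C.nP2 * (2 ^ Dm * z ^ g)) := by
  obtain ⟨D⟩ := exists_gateData C var
  obtain ⟨cc, hcc⟩ := exists_good_shift C β var D j0 z hz0
  have h3 := weighted_rank F β var D j0 e0 Δ cc G hG1 hG2 hΔ1 hΔ2 A S lam hlam ord hord
    (h1 cc) (h2 cc) g hg z hz0 hz1
  have h4 := h3.trans (add_le_add_left hcc _)
  refine h4.trans (le_of_eq ?_)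
  ring

end Vale.Agent.Lib.P346.Fq
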